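import Vale.Agent.P071.W

/-! P071 part Cut: cut-off functions and integration by parts on the disc. -/

open MeasureTheory ComplexConjugate Filter Topology Set

noncomputable section
namespace Vale.Agent.P071

variable {h : ℂ → ℂ} {w : ℂ}

lemma integral_db_zero (hg : ContDiff ℝ 1 h) (hc : HasCompactSupport h) : ∫ w, db h w = 0 := by
  have hi : ∀ v, Integrable (fun w => fderiv ℝ h w v) := fun v =>
    ((hg.continuous_fderiv (by simp)).clm_apply continuous_const).integrable_of_hasCompactSupport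
      (hc.fderiv_apply ℝ v)
  have h0 : ∀ v, ∫ w, fderiv ℝ h w v = 0 := fun v => by
    have := integral_mul_fderiv_eq_neg_fderiv_mul_of_integrable (μ := volume)
      (f := fun _ : ℂ => (1 : ℂ)) (g := h) (v := v) (by simp) (by simpa using hi v)
      (by simpa using hg.continuous.integrable_of_hasCompactSupport hc) (by simp)
      (fun x _ => hg.differentiable (by simp) x)
    simpa using this
  unfold db
  rw [integral_div, integral_add (hi 1) ((hi _).const_mul _), integral_const_mul, h0, h0]; simp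

namespace CutAux

def dl (w : ℂ) : ℝ := ‖w‖ ^ 2 * (1 - ‖w‖ ^ 2)

lemma dl_smooth {n : WithTop ℕ∞} : ContDiff ℝ n dl :=
  (contDiff_norm_sq ℝ).mul (contDiff_const.sub (contDiff_norm_sq ℝ))

lemma dl_pos (hw : w ∈ D \ {0}) : 0 < dl w := by
  have h1 := mem_D.1 hw.1
  have h2 : 0 < ‖w‖ := norm_pos_iff.2 hw.2
  exact mul_pos (by positivity) (by nlinarith)

lemma mem_of_pos (hw : 0 < dl w) : w ∈ D \ {0} := by
  refine ⟨mem_D.2 ?_, fun h0 => ?_⟩
  · by_contra h1
    have : 1 - ‖w‖ ^ 2 ≤ 0 := by nlinarith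
    have := mul_nonpos_of_nonneg_of_nonpos (sq_nonneg ‖w‖) this
    exact absurd hw (not_lt.2 this)
  · rw [mem_singleton_iff.1 h0] at hw; simp [dl] at hw

lemma dl_eq (w : ℂ) : (dl w : ℂ) = w * conj w * dd w := by
  rw [dd_eq, Complex.mul_conj, Complex.normSq_eq_norm_sq, dl]; push_cast; ring

lemma db_dl (w : ℂ) : db (fun w => (dl w : ℂ)) w = w * (1 - 2 * (w * conj w)) := by
  simp only [dl_eq]
  rw [db_mul (by fun_prop) (by fun_prop), db_mul (by fun_prop) (by fun_prop)]
  simp [dd]; ring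

lemma db_comp {g : ℝ → ℝ} {g' : ℝ} {p : ℂ → ℝ} (hp : DifferentiableAt ℝ p w)
    (hg : HasDerivAt g g' (p w)) :
    db (fun w => (g (p w) : ℂ)) w = g' * db (fun w => (p w : ℂ)) w := by
  have h1 := (Complex.ofRealCLM.hasFDerivAt.comp w (hg.comp_hasFDerivAt w hp.hasFDerivAt)).fderiv
  have h2 := (Complex.ofRealCLM.hasFDerivAt.comp w hp.hasFDerivAt).fderiv
  have e1 : (fun w => (g (p w) : ℂ)) = Complex.ofRealCLM ∘ g ∘ p := rfl
  have e2 : (fun w => (p w : ℂ)) = Complex.ofRealCLM ∘ p := rfl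
  rw [db, db, e1, e2, h1, h2]; simp; ring

lemma deriv_bound : ∃ M : ℝ, 0 ≤ M ∧ ∀ x, |deriv Real.smoothTransition x| ≤ M ∧
    (1 < x → deriv Real.smoothTransition x = 0) := by
  have hc : Continuous (deriv Real.smoothTransition) :=
    (Real.smoothTransition.contDiff (n := 1)).continuous_deriv le_rfl
  obtain ⟨M, hM⟩ := (isCompact_Icc (a := (0 : ℝ)) (b := 1)).exists_bound_of_continuousOn
    hc.continuousOn
  have h1 : ∀ x, 1 < x → deriv Real.smoothTransition x = 0 := fun x hx => by
    have : Real.smoothTransition =ᶠ[𝓝 x] fun _ => 1 :=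
      (lt_mem_nhds hx).mono fun y hy => Real.smoothTransition.one_of_one_le hy.le
    rw [this.deriv_eq]; simp
  have h0 : ∀ x, x < 0 → deriv Real.smoothTransition x = 0 := fun x hx => by
    have : Real.smoothTransition =ᶠ[𝓝 x] fun _ => 0 :=
      (gt_mem_nhds hx).mono fun y hy => Real.smoothTransition.zero_of_nonpos hy.le
    rw [this.deriv_eq]; simp
  refine ⟨max M 0, le_max_right _ _, fun x => ⟨?_, h1 x⟩⟩
  rcases lt_or_ge x 0 with hx | hx
  · simp [h0 x hx]
  rcases lt_or_ge 1 x with hx' | hx'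
  · simp [h1 x hx']
  exact (hM x ⟨hx, hx'⟩).trans (le_max_left _ _)

lemma db_cut (k : ℕ) (w : ℂ) : db (cut k) w =
    deriv Real.smoothTransition (k * dl w - 1) * (k * (w * (1 - 2 * (w * conj w)))) := by
  have hd : Differentiable ℝ dl := (dl_smooth (n := 1)).differentiable (by simp)
  have := db_comp (w := w) (g := Real.smoothTransition) (p := fun w => k * dl w - 1)
    (by fun_prop) (((Real.smoothTransition.contDiff (n := 1)).differentiable (by simp))
      _).hasDerivAt
  refine this.trans ?_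
  have hd' : DifferentiableAt ℝ (fun w => (dl w : ℂ)) w :=
    Complex.ofRealCLM.differentiableAt.comp w (hd w)
  push_cast
  rw [db_sub (by fun_prop) (by fun_prop), db_const_mul _ hd', db_dl]; simp

end CutAux
open CutAux

lemma cut_smooth (k : ℕ) {n : ℕ∞} : ContDiff ℝ n (cut k) :=
  Complex.ofRealCLM.contDiff.comp (Real.smoothTransition.contDiff.comp
    ((contDiff_const.mul dl_smooth).sub contDiff_const))

lemma norm_cut_le (k : ℕ) (w : ℂ) : ‖cut k w‖ ≤ 1 := by
  rw [cut, Complex.norm_real, Real.norm_of_nonneg (Real.smoothTransition.nonneg _)]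
  exact Real.smoothTransition.le_one _

lemma cut_ev (hw : w ∈ D \ {0}) : ∀ᶠ k in atTop, cut k w = 1 ∧ db (cut k) w = 0 := by
  obtain ⟨M, -, hM⟩ := deriv_bound
  have h1 : Tendsto (fun k : ℕ => k * dl w) atTop atTop :=
    tendsto_natCast_atTop_atTop.atTop_mul_const (dl_pos hw)
  filter_upwards [h1.eventually_gt_atTop 2] with k hk
  refine ⟨?_, ?_⟩
  · rw [cut, Real.smoothTransition.one_of_one_le (by unfold dl at hk; linarith)]; simp
  · rw [db_cut, (hM _).2 (by linarith)]; simp

lemma db_cut_le : ∃ C : ℝ, 0 ≤ C ∧ ∀ k, ∀ w ∈ D \ {0}, ‖db (cut k) w‖ ≤ C / (‖w‖ * ‖dd w‖) := by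
  obtain ⟨M, M0, hM⟩ := deriv_bound
  refine ⟨2 * M, by positivity, fun k w hw => ?_⟩
  have h1 := mem_D.1 hw.1
  have h2 : 0 < ‖w‖ := norm_pos_iff.2 hw.2
  have h3 := norm_dd_pos hw.1
  rcases lt_or_ge 1 (k * dl w - 1) with hk | hk
  · rw [db_cut, (hM _).2 hk]; simp; positivity
  have h4 : ‖1 - 2 * (w * conj w)‖ ≤ 1 := by
    rw [Complex.mul_conj, Complex.normSq_eq_norm_sq]
    norm_cast
    rw [Real.norm_eq_abs, abs_le]; constructor <;> nlinarith
  rw [db_cut, norm_mul, norm_mul, norm_mul, Complex.norm_real, Real.norm_eq_abs,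
    Complex.norm_natCast, le_div_iff₀ (by positivity)]
  have h5 : k * (‖w‖ ^ 2 * ‖dd w‖) ≤ 2 := by rw [norm_dd hw.1]; unfold dl at hk; linarith
  calc _ ≤ M * (k * (‖w‖ * 1)) * (‖w‖ * ‖dd w‖) := by gcongr; exact (hM _).1
    _ = M * (k * (‖w‖ ^ 2 * ‖dd w‖)) := by ring
    _ ≤ _ := by nlinarith

lemma cut_mul_smooth (k : ℕ) (hh : ContDiffOn ℝ 1 h (D \ {0})) :
    ContDiff ℝ 1 (fun w => h w * cut k w) ∧ HasCompactSupport (fun w => h w * cut k w) ∧
      ∀ w ∉ D, db (fun w => h w * cut k w) w = 0 := by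
  have hc : Continuous fun w => k * dl w := continuous_const.mul (dl_smooth (n := 0)).continuous
  have z : ∀ w, k * dl w < 1 → (fun w => h w * cut k w) =ᶠ[𝓝 w] fun _ => 0 := fun w hw =>
    (hc.continuousAt.eventually_lt continuousAt_const hw).mono fun y hy => by
      simp only [cut]
      rw [Real.smoothTransition.zero_of_nonpos (by unfold dl at hy; linarith)]; simp
  have m : ∀ w, 1 ≤ k * dl w → w ∈ D \ {0} := fun w hw =>
    mem_of_pos (pos_of_mul_pos_of_nonneg_left' hw)
  refine ⟨contDiff_iff_contDiffAt.2 fun w => ?_, ?_, fun w hw => ?_⟩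
  · rcases lt_or_ge (k * dl w) 1 with hw | hw
    · exact contDiffAt_const.congr_of_eventuallyEq (z w hw)
    · exact (hh.contDiffAt (isOpen_D0.mem_nhds (m w hw))).mul (cut_smooth k).contDiffAt
  · refine HasCompactSupport.intro (isCompact_closedBall (0 : ℂ) 1) fun w hw => ?_
    refine (z w ?_).eq_of_nhds
    by_contra h1
    exact hw (Metric.ball_subset_closedBall (m w (not_lt.1 h1)).1)
  · rw [db_congr (z w ?_)]
    · simp
    by_contra h1
    exact hw (m w (not_lt.1 h1)).1
where
  pos_of_mul_pos_of_nonneg_left' {k : ℕ} {x : ℝ} (h : 1 ≤ k * x) : 0 < x := by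
    by_contra h1
    nlinarith [mul_nonneg (Nat.cast_nonneg (α := ℝ) k) (neg_nonneg.2 (not_lt.1 h1))]

/-- Integration by parts against the cut-offs. -/
lemma cut_ibp (hh : ContDiffOn ℝ 1 h (D \ {0})) (hi : Integrable (db h) vD) :
    Tendsto (fun k => ∫ w in D, h w * db (cut k) w) atTop (𝓝 (-∫ w in D, db h w)) := by
  have hm : ∀ k, AEStronglyMeasurable (fun w => db h w * cut k w) vD := fun k =>
    hi.1.mul (cut_smooth k (n := 0)).continuous.aestronglyMeasurable
  have hb : ∀ k, ∀ᵐ w ∂vD, ‖db h w * cut k w‖ ≤ ‖db h w‖ := fun k =>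
    Eventually.of_forall fun w => by
      rw [norm_mul]; exact mul_le_of_le_one_right (norm_nonneg _) (norm_cut_le k w)
  have key : ∀ k, ∫ w in D, h w * db (cut k) w = -∫ w in D, db h w * cut k w := fun k => by
    obtain ⟨h1, h2, h3⟩ := cut_mul_smooth k hh
    have h4 := integral_db_zero h1 h2
    rw [← setIntegral_eq_integral_of_forall_compl_eq_zero h3] at h4
    have h5 : EqOn (fun w => h w * db (cut k) w)
        (fun w => db (fun w => h w * cut k w) w - db h w * cut k w) (D \ {0}) := fun w hw => by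
      simp only
      rw [db_mul (ContDiffOn.dAt hh isOpen_D0 (by simp) hw)
        ((cut_smooth k (n := 1)).differentiable (by simp) w)]; ring
    have h6 : Integrable (db fun w => h w * cut k w) vD := by
      have := ContDiffOn.db' (m := 0) h1.contDiffOn isOpen_univ (by simp)
      exact (L2.of_cont (continuousOn_univ.1 this.continuousOn)).int
    rw [int_congr h5, integral_sub h6 (hi.norm.mono' (hm k) (hb k)), h4, zero_sub]
  simp only [key]
  refine (tendsto_integral_of_dominated_convergence _ hm hi.norm hb ?_).neg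
  filter_upwards [ae_D0] with w hw
  refine tendsto_const_nhds.congr' ((cut_ev hw).mono fun k hk => ?_)
  simp [hk.1]

lemma int_inv_norm : Integrable (fun w : ℂ => ‖w‖⁻¹) vD :=
  integrableOn_ball_of_norm_le_rpow (C := 1) (α := 1) (by simp) (by simp)
    (Eventually.of_forall fun w => by simp [Real.rpow_neg_one])
    measurable_norm.inv.aestronglyMeasurable

/-- Functions that vanish at the unit circle are not seen by the cut-offs. -/
lemma cut_small (hm : ContinuousOn h (D \ {0}))
    (hb : ∃ C : ℝ, ∀ w, w ≠ 0 → ‖w‖ ≤ 1 / 2 → ‖h w‖ ≤ C)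
    (hi : Integrable (fun w => h w / dd w) vD) :
    Tendsto (fun k => ∫ w in D, h w * db (cut k) w) atTop (𝓝 0) := by
  obtain ⟨C, C0, hC⟩ := db_cut_le
  obtain ⟨B, hB⟩ := hb
  have := tendsto_integral_of_dominated_convergence (μ := vD)
    (F := fun k w => h w * db (cut k) w) (f := fun _ => 0)
    (fun w => C * (2 * ‖h w / dd w‖ + 2 * |B| * ‖w‖⁻¹)) (fun k => ?_)
    (((hi.norm.const_mul 2).add (int_inv_norm.const_mul _)).const_mul C) (fun k => ?_) ?_
  · simpa using this
  · refine (aesm_of_cont hm).mul (aesm_of_cont' ?_)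
    exact (ContDiffOn.db' (m := 0) (cut_smooth k (n := 1)).contDiffOn isOpen_D
      (by simp)).continuousOn
  · filter_upwards [ae_D0] with w hw
    have h1 := mem_D.1 hw.1
    have h2 : 0 < ‖w‖ := norm_pos_iff.2 hw.2
    have h3 := norm_dd_pos hw.1
    rw [norm_mul]
    refine (mul_le_mul_of_nonneg_left (hC k w hw) (norm_nonneg _)).trans ?_
    rw [mul_div_assoc', mul_comm, mul_div_assoc, norm_div]
    gcongr
    rcases le_or_gt ‖w‖ (1 / 2) with h4 | h4
    · have h5 : 1 / 2 ≤ ‖dd w‖ := by rw [norm_dd hw.1]; nlinarith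
      have h6 := (hB w hw.2 h4).trans (le_abs_self B)
      calc ‖h w‖ / (‖w‖ * ‖dd w‖) ≤ |B| / (‖w‖ * (1 / 2)) := by gcongr
        _ = 2 * |B| * ‖w‖⁻¹ := by field_simp
        _ ≤ _ := le_add_of_nonneg_left (by positivity)
    · calc ‖h w‖ / (‖w‖ * ‖dd w‖) ≤ ‖h w‖ / (1 / 2 * ‖dd w‖) := by gcongr
        _ = 2 * (‖h w‖ / ‖dd w‖) := by field_simp
        _ ≤ _ := le_add_of_nonneg_right (by positivity)
  · filter_upwards [ae_D0] with w hw
    refine tendsto_const_nhds.congr' ((cut_ev hw).mono fun k hk => ?_)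
    simp [hk.2]

lemma bdd_half (hc : ContinuousOn h D) : ∃ C : ℝ, ∀ w, w ≠ 0 → ‖w‖ ≤ 1 / 2 → ‖h w‖ ≤ C := by
  obtain ⟨C, hC⟩ := (isCompact_closedBall (0 : ℂ) (1 / 2)).exists_bound_of_continuousOn
    (hc.mono (Metric.closedBall_subset_ball (by norm_num)))
  exact ⟨C, fun w _ hw => hC w (by simpa using hw)⟩

lemma cut_small' (hc : ContinuousOn h D) (hi : Integrable (fun w => h w / dd w) vD) :
    Tendsto (fun k => ∫ w in D, h w * db (cut k) w) atTop (𝓝 0) :=
  cut_small (hc.mono diff_subset) (bdd_half hc) hi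

/-- Stokes' formula for functions that vanish at the unit circle. -/
lemma stokes_b (hh : ContDiffOn ℝ 1 h D) (hi : Integrable (db h) vD)
    (hd : Integrable (fun w => h w / dd w) vD) : ∫ w in D, db h w = 0 :=
  neg_eq_zero.1 (tendsto_nhds_unique (cut_ibp (hh.mono diff_subset) hi)
    (cut_small' hh.continuousOn hd))

lemma int_cj (hi : Integrable h vD) : Integrable (fun w => conj (h w)) vD :=
  Complex.conjCLE.toContinuousLinearMap.integrable_comp hi

lemma stokes_z (hh : ContDiffOn ℝ 1 h D) (hi : Integrable (dz h) vD)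
    (hd : Integrable (fun w => h w / dd w) vD) : ∫ w in D, dz h w = 0 := by
  have e : db (fun w => conj (h w)) = fun w => conj (dz h w) := funext (db_conj h)
  have := stokes_b (ContDiffOn.cj hh) (by rw [e]; exact int_cj hi) (by
    have h1 : Integrable (fun w => conj (h w / dd w)) vD := int_cj hd
    simpa using h1)
  rw [e, integral_conj] at this
  simpa using this

end Vale.Agent.P071
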