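import Mathlib

/-! P071: Neumann eigenfunctions on planar domains.  The plane is modelled by `ℂ`, with its
Euclidean norm and Lebesgue measure; `1` and `Complex.I` are the two coordinate directions. -/

open MeasureTheory

noncomputable section
namespace Vale.Agent.P071

/-- `v ∈ H¹(Ω)` with weak gradient `(g₁, g₂)`. -/
def H1 (Ω : Set ℂ) (v g₁ g₂ : ℂ → ℝ) : Prop :=
  MemLp v 2 (volume.restrict Ω) ∧ MemLp g₁ 2 (volume.restrict Ω) ∧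
    MemLp g₂ 2 (volume.restrict Ω) ∧
    ∀ ψ : ℂ → ℝ, ContDiff ℝ (⊤ : ℕ∞) ψ → HasCompactSupport ψ → tsupport ψ ⊆ Ω →
      ∫ z in Ω, v z * fderiv ℝ ψ z 1 = -∫ z in Ω, g₁ z * ψ z ∧
      ∫ z in Ω, v z * fderiv ℝ ψ z Complex.I = -∫ z in Ω, g₂ z * ψ z

/-- The infimum of the Rayleigh quotient over nonzero mean-zero elements of `H¹(Ω)`. -/
def mu1 (Ω : Set ℂ) : ℝ :=
  sInf {q | ∃ v g₁ g₂, H1 Ω v g₁ g₂ ∧ ¬ v =ᵐ[volume.restrict Ω] 0 ∧ ∫ z in Ω, v z = 0 ∧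
    q = (∫ z in Ω, (g₁ z ^ 2 + g₂ z ^ 2)) / ∫ z in Ω, v z ^ 2}

/-- `u ∈ V(Ω)`: a weak solution of `-Δ u = μ₁ u` in `Ω` with the Neumann condition. -/
def InV (Ω : Set ℂ) (u : ℂ → ℝ) : Prop :=
  ∃ g₁ g₂, H1 Ω u g₁ g₂ ∧ ∀ v h₁ h₂, H1 Ω v h₁ h₂ →
    ∫ z in Ω, (g₁ z * h₁ z + g₂ z * h₂ z) = mu1 Ω * ∫ z in Ω, u z * v z

/-- Lipschitz boundary: near each boundary point, after a rotation, `Ω` is the region above the
graph of a Lipschitz function. -/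
def LipBdry (Ω : Set ℂ) : Prop :=
  ∀ p ∈ frontier Ω, ∃ r > 0, ∃ e : ℂ, ‖e‖ = 1 ∧ ∃ (L : NNReal) (γ : ℝ → ℝ), LipschitzWith L γ ∧
    ∀ z ∈ Metric.ball p r, (z ∈ Ω ↔ γ (e * z).re < (e * z).im)

end Vale.Agent.P071
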