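import Mathlib

/-! P071: the problem transplanted to the unit disc; Wirtinger derivatives. -/

open MeasureTheory ComplexConjugate Filter Topology

noncomputable section
namespace Vale.Agent.P071

abbrev D : Set ℂ := Metric.ball 0 1
abbrev vD : Measure ℂ := volume.restrict D

/-- `∂/∂w`. -/
def dz (h : ℂ → ℂ) (w : ℂ) : ℂ := (fderiv ℝ h w 1 - Complex.I * fderiv ℝ h w Complex.I) / 2
/-- `∂/∂w̄`. -/
def db (h : ℂ → ℂ) (w : ℂ) : ℂ := (fderiv ℝ h w 1 + Complex.I * fderiv ℝ h w Complex.I) / 2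

abbrev L2 (h : ℂ → ℂ) : Prop := MemLp h 2 vD

/-- Bounded `C¹` functions of finite Dirichlet energy on the disc. -/
def Test (a : ℂ → ℂ) : Prop :=
  ContDiffOn ℝ 1 a D ∧ (∃ C : ℝ, ∀ w ∈ D, ‖a w‖ ≤ C) ∧ L2 (dz a) ∧ L2 (db a)

/-- A first Neumann eigenfunction seen through a conformal map `φ` of the disc. -/
structure Setup (φ : ℂ → ℂ) (μ : ℝ) (U : ℂ → ℂ) : Prop where
  hol : DifferentiableOn ℂ φ D
  bdd : ∃ C : ℝ, ∀ w ∈ D, ‖φ w‖ ≤ C
  ne : ∀ w ∈ D, deriv φ w ≠ 0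
  area : L2 (deriv φ)
  pos : 0 < μ
  real : ∀ w, conj (U w) = U w
  smooth : ContDiffOn ℝ 3 U D
  test : Test U
  poinc : ∀ a, Test a → ∫ w in D, ((‖deriv φ w‖ ^ 2 : ℝ) : ℂ) * a w = 0 →
    μ * ∫ w in D, ‖deriv φ w * a w‖ ^ 2 ≤ ∫ w in D, 2 * (‖dz a w‖ ^ 2 + ‖db a w‖ ^ 2)
  weak : ∀ a, Test a → ∫ w in D, 2 * (dz U w * db a w + db U w * dz a w) =
    μ * ∫ w in D, ((‖deriv φ w‖ ^ 2 : ℝ) : ℂ) * (U w * a w)

/-- Polynomials in `w` and `w̄`. -/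
inductive Pol : (ℂ → ℂ) → Prop
  | mono (c : ℂ) (j l : ℕ) : Pol fun w => c * w ^ j * conj w ^ l
  | add {f g : ℂ → ℂ} : Pol f → Pol g → Pol fun w => f w + g w

/-- `1 - |w|²` as a complex number. -/
def dd (w : ℂ) : ℂ := 1 - w * conj w

/-- Smooth cut-offs, supported in compact subsets of the punctured disc and tending to `1`. -/
def cut (k : ℕ) (w : ℂ) : ℂ :=
  (Real.smoothTransition (k * (‖w‖ ^ 2 * (1 - ‖w‖ ^ 2)) - 1) : ℝ)

/-- Polynomials that are real on the unit circle. -/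
def Adm (θ : ℂ → ℂ) : Prop := Pol θ ∧ ∃ C : ℝ, ∀ w ∈ D, |(θ w).im| ≤ C * ‖dd w‖

/-- The field `G` is tangential at the boundary, in a weak sense. -/
def BC (φ G : ℂ → ℂ) : Prop :=
  ∀ θ, Adm θ → Tendsto
    (fun k => (∫ w in D, deriv φ w * G w * conj (θ w) * db (cut k) w).re) atTop (𝓝 0)

end Vale.Agent.P071
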