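import Vale.Agent.P071.Pol

/-! P071 part Fld: the gradient field of the eigenfunction. -/

open MeasureTheory ComplexConjugate Filter Topology Set

noncomputable section
namespace Vale.Agent.P071

/-- The field `u_x - i u_y`, as a function on the disc. -/
def Fld (φ U : ℂ → ℂ) (w : ℂ) : ℂ := 2 * dz U w / deriv φ w

/-- `C²` functions on the disc that vanish at the unit circle. -/
def Cl (ζ : ℂ → ℂ) : Prop := ContDiffOn ℝ 2 ζ D ∧ L2 (fun w => ζ w / dd w) ∧ L2 (db ζ)

variable {φ U ζ : ℂ → ℂ} {μ : ℝ}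

theorem Setup.deriv_hol (S : Setup φ μ U) : DifferentiableOn ℂ (deriv φ) D :=
  S.hol.deriv isOpen_D
theorem Setup.deriv_smooth (S : Setup φ μ U) {n : ℕ∞} : ContDiffOn ℝ n (deriv φ) D :=
  (S.deriv_hol.contDiffOn isOpen_D).restrict_scalars ℝ
theorem Setup.deriv_bound (S : Setup φ μ U) :
    ∃ C : ℝ, 0 < C ∧ ∀ w ∈ D, ‖dd w * deriv φ w‖ ≤ C := by
  obtain ⟨M, hM⟩ := S.bdd
  have M0 : 0 ≤ M := (norm_nonneg _).trans (hM 0 (by simp))
  refine ⟨4 * M + 1, by positivity, fun w hw => ?_⟩
  have h1 := mem_D.1 hw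
  have sub : Metric.ball w (1 - ‖w‖) ⊆ D := Metric.ball_subset_ball' (by simp)
  have := Complex.norm_deriv_le_div_of_mapsTo_ball (R₂ := 2 * M) (S.hol.mono sub)
    (fun z hz => by
      rw [Metric.mem_closedBall, dist_eq_norm]
      linarith [norm_sub_le (φ z) (φ w), hM z (sub hz), hM w hw]) (by linarith)
  rw [le_div_iff₀ (by linarith)] at this
  rw [norm_mul, norm_dd hw]
  nlinarith [norm_nonneg w, norm_nonneg (deriv φ w), mul_nonneg (norm_nonneg (deriv φ w))
    (sub_nonneg.2 h1.le)]

namespace FldAux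

lemma dcont (S : Setup φ μ U) : ContinuousOn (deriv φ) D := (S.deriv_smooth (n := 0)).continuousOn
lemma dzU (S : Setup φ μ U) : ContDiffOn ℝ 2 (dz U) D :=
  ContDiffOn.dz' S.smooth isOpen_D (by norm_num)
lemma dbU (S : Setup φ μ U) : ContDiffOn ℝ 2 (db U) D :=
  ContDiffOn.db' S.smooth isOpen_D (by norm_num)
lemma dbdzU (S : Setup φ μ U) : ContDiffOn ℝ 1 (db (dz U)) D :=
  ContDiffOn.db' (dzU S) isOpen_D (by norm_num)
lemma conj_dzU (S : Setup φ μ U) (w : ℂ) : conj (dz U w) = db U w := by
  rw [← db_conj]; simp only [S.real]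
lemma l2_Uphi (S : Setup φ μ U) : L2 fun w => U w * deriv φ w := by
  obtain ⟨C, hC⟩ := S.test.2.1
  refine S.area.of_le ((S.smooth.continuousOn.mul (dcont S)).mono diff_subset) C fun w hw => ?_
  rw [norm_mul]; gcongr; exact hC w hw.1
lemma J_eq (z : ℂ) : ((‖z‖ ^ 2 : ℝ) : ℂ) = z * conj z := by
  rw [Complex.mul_conj, Complex.normSq_eq_norm_sq]

lemma green (S : Setup φ μ U) {a : ℂ → ℂ} (ha : ContDiffOn ℝ 1 a D) (h0 : L2 fun w => a w / dd w)
    (h1 : L2 (dz a)) (h2 : L2 (db a)) (h3 : Integrable (fun w => db (dz U) w * a w) vD) :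
    ∫ w in D, 2 * (dz U w * db a w + db U w * dz a w) = -∫ w in D, 4 * (db (dz U) w * a w) := by
  have hz := S.test.2.2.1
  have hb := S.test.2.2.2
  have e1 : EqOn (db fun w => dz U w * a w) (fun w => db (dz U) w * a w + dz U w * db a w) D :=
    fun w hw => db_mul (ContDiffOn.dAt (dzU S) isOpen_D (by simp) hw)
      (ContDiffOn.dAt ha isOpen_D (by simp) hw)
  have e2 : EqOn (dz fun w => db U w * a w) (fun w => db (dz U) w * a w + db U w * dz a w) D :=
    fun w hw => by
      rw [dz_mul (ContDiffOn.dAt (dbU S) isOpen_D (by simp) hw)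
        (ContDiffOn.dAt ha isOpen_D (by simp) hw), dz_db_comm
        ((S.smooth.contDiffAt (isOpen_D.mem_nhds hw)).of_le (by norm_num))]
  have s1 := stokes_b (((dzU S).of_le (by norm_num)).mul ha)
    ((h3.add (hz.int_mul h2)).congr (ae_D.mono fun w hw => (e1 hw).symm))
    (by simpa only [mul_div_assoc] using hz.int_mul h0)
  have s2 := stokes_z (((dbU S).of_le (by norm_num)).mul ha)
    ((h3.add (hb.int_mul h1)).congr (ae_D.mono fun w hw => (e2 hw).symm))
    (by simpa only [mul_div_assoc] using hb.int_mul h0)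
  rw [int_congr (e1.mono diff_subset), integral_add h3 (hz.int_mul h2)] at s1
  rw [int_congr (e2.mono diff_subset), integral_add h3 (hb.int_mul h1)] at s2
  rw [integral_const_mul, integral_const_mul, integral_add (hz.int_mul h2) (hb.int_mul h1)]
  linear_combination 2 * s1 + 2 * s2

lemma pde (S : Setup φ μ U) : ∀ w ∈ D,
    4 * db (dz U) w = -μ * (deriv φ w * conj (deriv φ w) * U w) := by
  set E : ℂ → ℂ := fun w => 4 * db (dz U) w + μ * (deriv φ w * conj (deriv φ w) * U w) with hE
  have hJ : ContDiffOn ℝ 1 (fun w => deriv φ w * conj (deriv φ w) * U w) D :=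
    ((S.deriv_smooth (n := 1)).mul (ContDiffOn.cj (S.deriv_smooth (n := 1)))).mul
      (S.smooth.of_le (by norm_num))
  have hEs : ContDiffOn ℝ 1 E D :=
    (contDiffOn_const.mul (dbdzU S)).add (contDiffOn_const.mul hJ)
  have hc := ContDiffOn.cj hEs
  have cm : ∀ k {h : ℂ → ℂ}, ContDiffOn ℝ 1 h D → ContDiff ℝ 1 fun w => h w * cut k w :=
    fun k h hh => (cut_mul_smooth k (hh.mono diff_subset)).1
  have key : ∀ k, EqOn (fun w => ‖E w‖ ^ 2 * ‖cut k w‖) 0 D := by
    intro k
    have ha := cm k hc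
    have h1 : L2 (dz fun w => conj (E w) * cut k w) := L2.of_cont (continuousOn_univ.1
      (ContDiffOn.dz' (m := 0) ha.contDiffOn isOpen_univ (by simp)).continuousOn)
    have h2 : L2 (db fun w => conj (E w) * cut k w) := L2.of_cont (continuousOn_univ.1
      (ContDiffOn.db' (m := 0) ha.contDiffOn isOpen_univ (by simp)).continuousOn)
    have h3 : Integrable (fun w => db (dz U) w * (conj (E w) * cut k w)) vD := by
      simpa only [mul_assoc] using (L2.of_cont (cm k ((dbdzU S).mul hc)).continuous).int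
    have h4 : Integrable (fun w => deriv φ w * conj (deriv φ w) * U w * (conj (E w) * cut k w))
        vD := by
      simpa only [mul_assoc] using (L2.of_cont (cm k (hJ.mul hc)).continuous).int
    have h0 : L2 fun w => conj (E w) * cut k w / dd w := by
      have := L2.of_cont (cm k (hc.mul (contDiff_dd.contDiffOn.inv fun w hw => dd_ne hw))).continuous
      exact this.congr fun w _ => by simp only [Pi.inv_apply]; ring
    obtain ⟨C, -, hC⟩ := bdd_of_cont ha.continuous
    have hg := green S ha.contDiffOn h0 h1 h2 h3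
    rw [S.weak _ ⟨ha.contDiffOn, ⟨C, hC⟩, h1, h2⟩] at hg
    have h5 : ∫ w in D, E w * (conj (E w) * cut k w) = 0 := by
      have : ∀ w, E w * (conj (E w) * cut k w) = 4 * (db (dz U) w * (conj (E w) * cut k w)) +
          μ * (deriv φ w * conj (deriv φ w) * U w * (conj (E w) * cut k w)) := fun w => by
        generalize conj (E w) * cut k w = x
        simp only [hE]; ring
      simp only [this]
      rw [integral_add (h3.const_mul _) (h4.const_mul _), integral_const_mul (μ : ℂ)]
      simp only [J_eq, ← mul_assoc] at hg ⊢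
      linear_combination hg
    have h6 : ∀ w, E w * (conj (E w) * cut k w) = ((‖E w‖ ^ 2 * ‖cut k w‖ : ℝ) : ℂ) := fun w => by
      rw [← mul_assoc, ← J_eq, cut, Complex.norm_real,
        Real.norm_of_nonneg (Real.smoothTransition.nonneg _)]
      push_cast; ring
    simp only [h6] at h5
    rw [integral_complex_ofReal, Complex.ofReal_eq_zero] at h5
    have h7 : ContinuousOn (fun w => ‖E w‖ ^ 2 * ‖cut k w‖) D :=
      (hEs.continuousOn.norm.pow 2).mul (cut_smooth k (n := 0)).continuous.norm.continuousOn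
    have h8 : Integrable (fun w => ‖E w‖ ^ 2 * ‖cut k w‖) vD := by
      have := (L2.of_cont (cm k (hEs.mul hc)).continuous).int.norm
      simpa [sq] using this
    exact Measure.eqOn_open_of_ae_eq
      ((integral_eq_zero_iff_of_nonneg (fun w => by positivity) h8).1 h5) isOpen_D h7
      continuousOn_const
  have h0 : ∀ w ∈ D \ {0}, E w = 0 := fun w hw => by
    obtain ⟨k, hk, -⟩ := (cut_ev hw).exists
    simpa [hk] using key k hw.1
  have h1 : EqOn E 0 D :=
    Measure.eqOn_open_of_ae_eq (ae_D0.mono h0) isOpen_D hEs.continuousOn continuousOn_const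
  intro w hw
  have := h1 hw
  simp only [hE, Pi.zero_apply] at this
  linear_combination this

lemma phi_fld (S : Setup φ μ U) : EqOn (fun w => deriv φ w * Fld φ U w) (fun w => 2 * dz U w) D :=
  fun w hw => by
    have := S.ne w hw
    simp only [Fld]; field_simp

lemma int_lap (S : Setup φ μ U) {s : ℂ → ℂ} (hs : Continuous s) :
    Integrable (fun w => db (dz U) w * s w) vD := by
  have := ((S.area.cj.mul_cont hs).int_mul (l2_Uphi S)).const_mul (-μ / 4 : ℂ)
  refine this.congr (ae_D.mono fun w hw => ?_)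
  simp only
  linear_combination (-s w / 4) * pde S w hw

lemma db_pol (S : Setup φ μ U) {s : ℂ → ℂ} (hs : Pol s) :
    EqOn (db fun w => dz U w * s w) (fun w => db (dz U) w * s w + dz U w * db s w) D :=
  fun w hw => db_mul (ContDiffOn.dAt (dzU S) isOpen_D (by simp) hw) (hs.diff w)

lemma int_db_pol (S : Setup φ μ U) {s : ℂ → ℂ} (hs : Pol s) :
    Integrable (db fun w => dz U w * s w) vD :=
  ((int_lap S hs.cont).add (S.test.2.2.1.int_mul hs.db'.l2)).congr
    (ae_D.mono fun w hw => (db_pol S hs hw).symm)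

lemma real_part (S : Setup φ μ U) {s : ℂ → ℂ} (hs : Pol s) (hr : ∀ w, conj (s w) = s w) :
    (∫ w in D, db (fun w => dz U w * s w) w).re = 0 := by
  have hz := S.test.2.2.1
  have hb := S.test.2.2.2
  obtain ⟨C, -, hC⟩ := bdd_of_cont hs.cont
  have hw := S.weak s ⟨hs.smooth.contDiffOn, ⟨C, hC⟩, hs.dz'.l2, hs.db'.l2⟩
  have e1 : ∫ w in D, db U w * dz s w = conj (∫ w in D, dz U w * db s w) := by
    rw [← integral_conj]
    refine int_congr fun w _ => ?_
    simp only [map_mul, conj_dzU S]
    rw [← dz_conj]; simp only [hr]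
  have e2 : ∫ w in D, db (dz U) w * s w =
      -(μ / 4) * ∫ w in D, ((‖deriv φ w‖ ^ 2 : ℝ) : ℂ) * (U w * s w) := by
    rw [← integral_const_mul]
    refine int_congr fun w hw => ?_
    simp only [J_eq]
    linear_combination (s w / 4) * pde S w hw.1
  rw [integral_const_mul, integral_add (hz.int_mul hs.db'.l2) (hb.int_mul hs.dz'.l2), e1] at hw
  rw [int_congr ((db_pol S hs).mono diff_subset),
    integral_add (int_lap S hs.cont) (hz.int_mul hs.db'.l2), e2]
  generalize (∫ w in D, dz U w * db s w) = p at hw ⊢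
  generalize (∫ w in D, ((‖deriv φ w‖ ^ 2 : ℝ) : ℂ) * (U w * s w)) = q at hw ⊢
  have : -((μ : ℂ) / 4) * q + p = (p - conj p) / 2 := by linear_combination hw / 4
  rw [this, Complex.sub_conj]; simp

lemma small_part (S : Setup φ μ U) {β : ℂ → ℂ} (hs : Pol β) (C : ℝ)
    (hC : ∀ w ∈ D, ‖β w‖ ≤ C * ‖dd w‖) : ∫ w in D, db (fun w => dz U w * β w) w = 0 := by
  refine stokes_b (((dzU S).of_le (by norm_num)).mul hs.smooth.contDiffOn) (int_db_pol S hs) ?_
  have : L2 fun w => β w / dd w := by
    refine L2.of_bdd (hs.cont.continuousOn.div continuous_dd.continuousOn fun w hw => dd_ne hw.1)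
      C fun w hw => ?_
    rw [norm_div, div_le_iff₀ (norm_dd_pos hw.1)]
    exact hC w hw.1
  simpa only [mul_div_assoc] using S.test.2.2.1.int_mul this

end FldAux
open FldAux

theorem Cl.l2 (S : Setup φ μ U) (h : Cl ζ) : L2 fun w => deriv φ w * ζ w := by
  obtain ⟨C, -, hC⟩ := S.deriv_bound
  refine h.2.1.of_le (((dcont S).mul h.1.continuousOn).mono diff_subset) C fun w hw => ?_
  have : deriv φ w * ζ w = dd w * deriv φ w * (ζ w / dd w) := by
    have := dd_ne hw.1
    field_simp
  rw [this, norm_mul]; gcongr; exact hC w hw.1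
theorem Cl.bc (S : Setup φ μ U) (h : Cl ζ) : BC φ ζ := by
  intro θ hθ
  have := cut_small' (h := fun w => deriv φ w * ζ w * conj (θ w))
    (((dcont S).mul h.1.continuousOn).mul hθ.1.cj.cont.continuousOn)
    (((S.area.mul_cont hθ.1.cj.cont).int_mul h.2.1).congr (Eventually.of_forall fun w => by
      simp only; ring))
  exact (Complex.continuous_re.tendsto 0).comp this
theorem fld_smooth (S : Setup φ μ U) : ContDiffOn ℝ 2 (Fld φ U) D := by
  unfold Fld
  simp only [div_eq_mul_inv]
  exact (contDiffOn_const.mul (dzU S)).mul ((S.deriv_smooth (n := 2)).inv S.ne)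
theorem fld_db (S : Setup φ μ U) :
    ∀ w ∈ D, db (Fld φ U) w = -(μ / 2) * U w * conj (deriv φ w) := by
  intro w hw
  have h1 := db_congr_on isOpen_D (phi_fld S) hw
  have hd := (S.deriv_hol w hw).differentiableAt (isOpen_D.mem_nhds hw)
  rw [db_mul (hd.restrictScalars ℝ) (ContDiffOn.dAt (fld_smooth S) isOpen_D (by simp) hw),
    db_hol hd, db_const_mul _ (ContDiffOn.dAt (dzU S) isOpen_D (by simp) hw)] at h1
  refine mul_left_cancel₀ (S.ne w hw) ?_
  linear_combination h1 + (pde S w hw) / 2
theorem fld_l2 (S : Setup φ μ U) : L2 fun w => deriv φ w * Fld φ U w :=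
  (S.test.2.2.1.cmul 2).congr fun _ hw => (phi_fld S hw.1).symm
theorem fld_l2' (S : Setup φ μ U) : L2 (db (Fld φ U)) :=
  ((l2_Uphi S).cj.cmul (-(μ / 2))).congr fun w hw => by
    simp only [fld_db S w hw.1, map_mul, S.real]; ring
theorem fld_bc (S : Setup φ μ U) : BC φ (Fld φ U) := by
  rintro θ ⟨hθ, C, hC⟩
  have hs := hθ.add hθ.cj
  have hβ := hθ.sub hθ.cj
  have h2 := hθ.cj.cmul 2
  have t := cut_ibp (h := fun w => dz U w * (2 * conj (θ w)))
    ((((dzU S).of_le (by norm_num)).mul h2.smooth.contDiffOn).mono diff_subset) (int_db_pol S h2)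
  have e : ∫ w in D, db (fun w => dz U w * (2 * conj (θ w))) w =
      (∫ w in D, db (fun w => dz U w * (θ w + conj (θ w))) w) -
        ∫ w in D, db (fun w => dz U w * (θ w - conj (θ w))) w := by
    rw [← integral_sub (int_db_pol S hs) (int_db_pol S hβ)]
    refine int_congr fun w hw => ?_
    have hd := ContDiffOn.dAt (dzU S) isOpen_D (by simp) hw.1
    rw [← db_sub (hd.fun_mul (hs.diff w)) (hd.fun_mul (hβ.diff w))]
    congr 1; funext w; ring
  rw [small_part S hβ (2 * C) (fun w hw => by
    rw [Complex.sub_conj, norm_mul, Complex.norm_I, mul_one, Complex.norm_real, norm_mul,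
      Real.norm_eq_abs, Real.norm_eq_abs, abs_two, mul_assoc]
    gcongr; exact hC w hw), sub_zero] at e
  have t2 := (Complex.continuous_re.tendsto _).comp t
  rw [Complex.neg_re, e, real_part S hs (fun w => by simp [add_comm]), neg_zero] at t2
  refine t2.congr fun k => ?_
  simp only [Function.comp]
  congr 1
  refine int_congr fun w hw => ?_
  have := phi_fld S hw.1
  simp only at this ⊢
  rw [this]; ring
theorem fld_en (S : Setup φ μ U) :
    4 * N (db (Fld φ U)) = μ * N fun w => deriv φ w * Fld φ U w := by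
  have hw := S.weak U S.test
  have e1 : (N fun w => deriv φ w * Fld φ U w : ℂ) =
      ∫ w in D, 2 * (dz U w * db U w + db U w * dz U w) := by
    rw [← ip_self]
    refine int_congr fun w hw => ?_
    have := phi_fld S hw.1
    simp only at this ⊢
    rw [this, map_mul, conj_dzU S, map_ofNat]; ring
  have e2 : (N (db (Fld φ U)) : ℂ) =
      (μ / 2) ^ 2 * ∫ w in D, ((‖deriv φ w‖ ^ 2 : ℝ) : ℂ) * (U w * U w) := by
    rw [← ip_self, ← integral_const_mul]
    refine int_congr fun w hw => ?_
    simp only [fld_db S w hw.1, J_eq, map_mul, map_neg, map_div₀, Complex.conj_ofReal, map_ofNat,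
      S.real, Complex.conj_conj]
    ring
  have : ((4 * N (db (Fld φ U)) : ℝ) : ℂ) = (μ * N fun w => deriv φ w * Fld φ U w : ℝ) := by
    push_cast
    rw [e1, e2, hw]; ring
  exact_mod_cast this
theorem fld_cross (S : Setup φ μ U) (h : Cl ζ) : 4 * ip (db ζ) (db (Fld φ U)) =
    μ * ip (fun w => deriv φ w * ζ w) fun w => deriv φ w * Fld φ U w := by
  have i1 := h.2.2.int_mul (l2_Uphi S)
  have i2 := (h.l2 S).int_mul S.test.2.2.2
  have e : EqOn (db fun w => ζ w * (U w * deriv φ w))
      (fun w => db ζ w * (U w * deriv φ w) + deriv φ w * ζ w * db U w) D := fun w hw => by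
    have hd := (S.deriv_hol w hw).differentiableAt (isOpen_D.mem_nhds hw)
    have hU := ContDiffOn.dAt S.smooth isOpen_D (by simp) hw
    rw [db_mul (ContDiffOn.dAt h.1 isOpen_D (by simp) hw) (hU.fun_mul (hd.restrictScalars ℝ)),
      db_mul hU (hd.restrictScalars ℝ), db_hol hd]
    ring
  have s := stokes_b ((h.1.of_le (by norm_num)).mul ((S.smooth.of_le (by norm_num)).mul
    (S.deriv_smooth (n := 1)))) ((i1.add i2).congr (ae_D.mono fun w hw => (e hw).symm))
    ((h.2.1.int_mul (l2_Uphi S)).congr (Eventually.of_forall fun w => by simp only; ring))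
  rw [int_congr (e.mono diff_subset), integral_add i1 i2] at s
  have e1 : ip (db ζ) (db (Fld φ U)) = -(μ / 2) * ∫ w in D, db ζ w * (U w * deriv φ w) := by
    rw [← integral_const_mul]
    refine int_congr fun w hw => ?_
    simp only [fld_db S w hw.1, map_mul, map_neg, map_div₀, Complex.conj_ofReal, map_ofNat,
      S.real, Complex.conj_conj]
    ring
  have e2 : (ip (fun w => deriv φ w * ζ w) fun w => deriv φ w * Fld φ U w) =
      2 * ∫ w in D, deriv φ w * ζ w * db U w := by
    rw [← integral_const_mul]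
    refine int_congr fun w hw => ?_
    have := phi_fld S hw.1
    simp only at this ⊢
    rw [this, map_mul, conj_dzU S, map_ofNat]; ring
  rw [e1, e2]
  linear_combination (-2 * μ) * s
theorem fld_ne (S : Setup φ μ U) (h : ∃ w ∈ D, U w ≠ 0) : ∃ w ∈ D, Fld φ U w ≠ 0 := by
  by_contra h0
  push Not at h0
  obtain ⟨w, hw, hU⟩ := h
  have h1 := db_congr_on (g := fun _ => 0) isOpen_D h0 hw
  rw [fld_db S w hw, db_const] at h1
  have h2 := S.ne w hw
  have h3 := S.pos.ne'
  simp [hU, h2, h3] at h1

end Vale.Agent.P071
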