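import Vale.Agent.P071.Tang
import Vale.Agent.P071.Fld

/-! P071 part Frame: the Lorentzian energy identity in the moving frame of the hyperboloid. -/

open MeasureTheory ComplexConjugate Filter Topology Set

noncomputable section
namespace Vale.Agent.P071

variable {φ U V P y K q : ℂ → ℂ} {μ : ℝ}

lemma Pol.stokes_b (h : Pol q) : ∫ w in D, db (fun w => P071.dd w * q w) w = 0 :=
  P071.stokes_b (Pol.dd.mul h).smooth.contDiffOn (Pol.dd.mul h).db'.l2.int
    (h.l2.int.congr (ae_D.mono fun w hw => by simp [dd_ne hw]))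
lemma Pol.stokes_z (h : Pol q) : ∫ w in D, dz (fun w => P071.dd w * q w) w = 0 :=
  P071.stokes_z (Pol.dd.mul h).smooth.contDiffOn (Pol.dd.mul h).dz'.l2.int
    (h.l2.int.congr (ae_D.mono fun w hw => by simp [dd_ne hw]))

/-- The normal component of the frame, divided by `1 - |w|²`. -/
def fM (P : ℂ → ℂ) (w : ℂ) : ℂ := -dd w * dz P w
/-- The normal component of the frame. -/
def fm (P : ℂ → ℂ) (w : ℂ) : ℂ := dd w * fM P w

lemma Pol.fM (h : Pol P) : Pol (fM P) := ((Pol.dd.mul h.dz').cmul (-1)).congr fun w => by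
  rw [P071.fM]; ring
lemma Pol.fm (h : Pol P) : Pol (fm P) := Pol.dd.mul h.fM
lemma Pol.Phi (h : Pol P) : Pol (Phi P) :=
  ((Pol.id.cmul (-2)).mul h).add (Pol.dd.mul h.db')

lemma bochner (h : Pol P) : N (Phi P) = N (fM P) + 2 * N P := by
  have c := h.cj
  have h1 := (Pol.dd.mul (h.mul c.db')).stokes_z
  have h2 := (Pol.dd.mul (h.mul c.dz')).stokes_b
  have h3 := (Pol.cid.mul (h.mul c)).stokes_b
  have i1 := (Pol.dd.mul (Pol.dd.mul (h.mul c.db'))).dz'.l2.int
  have i2 := (Pol.dd.mul (Pol.dd.mul (h.mul c.dz'))).db'.l2.int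
  have i3 := (Pol.dd.mul (Pol.cid.mul (h.mul c))).db'.l2.int
  have key : ∫ w in D, (Phi P w * conj (Phi P w) - fM P w * conj (fM P w) -
      2 * (P w * conj (P w))) = 0 := by
    have := integral_sub (i2.sub i1) (i3.const_mul 2)
    simp only [Pi.sub_apply] at this
    rw [integral_sub i2 i1, integral_const_mul, h1, h2, h3] at this
    simp only [sub_self, mul_zero] at this
    rw [← this]
    refine int_congr fun w _ => ?_
    have d := Pol.dd.diff w
    have p := h.diff w
    rw [db_mul d (Pol.dd.mul (h.mul c.dz') |>.diff w), db_mul d ((h.mul c.dz').diff w),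
      db_mul p (c.dz'.diff w), dz_mul d (Pol.dd.mul (h.mul c.db') |>.diff w),
      dz_mul d ((h.mul c.db').diff w), dz_mul p (c.db'.diff w),
      db_mul d (Pol.cid.mul (h.mul c) |>.diff w), db_mul (Pol.cid.diff w) ((h.mul c).diff w),
      db_mul p (c.diff w), dz_db_comm c.smooth.contDiffAt, dz_conj, db_conj]
    simp only [Phi, fM, dz_dd, db_dd, db_cid, map_add, map_mul, map_neg, conj_dd, map_ofNat]
    rw [dd]; ring
  rw [integral_sub ((h.Phi.l2.int_mul h.Phi.l2.cj).sub' (h.fM.l2.int_mul h.fM.l2.cj))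
    ((h.l2.int_mul h.l2.cj).const_mul 2), integral_sub (h.Phi.l2.int_mul h.Phi.l2.cj)
    (h.fM.l2.int_mul h.fM.l2.cj), integral_const_mul] at key
  change ip _ _ - ip _ _ - 2 * ip _ _ = 0 at key
  simp only [ip_self] at key
  have := congrArg Complex.re key
  simp at this; linarith

lemma ip_fm (h : Pol P) : ip (db (fm P)) P = N (fM P) := by
  have h1 := (h.fM.mul h.cj).stokes_b
  rw [← ip_self, ← sub_eq_zero, ip, ip, ← integral_sub (h.fm.db'.l2.int_mul h.l2.cj)
    (h.fM.l2.int_mul h.fM.l2.cj), ← h1]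
  refine int_congr fun w _ => ?_
  have e : (fun w => dd w * (fM P w * conj (P w))) = fun w => fm P w * conj (P w) := by
    funext w; rw [fm]; ring
  rw [e, db_mul (h.fm.diff w) (h.cj.diff w), db_conj]
  simp only [fm, fM, map_mul, map_neg, conj_dd]; ring

lemma nsq (x : ℂ) : ((‖x‖ : ℂ)) ^ 2 = x * conj x := by
  rw [Complex.mul_conj, Complex.normSq_eq_norm_sq]; simp

lemma lorentz (w M P B : ℂ) : ‖(1 + w * conj w) * M + 2 * conj w * P + w * B‖ ^ 2 -
    ‖((2 * w * M + 2 * P + w ^ 2 * B) + (2 * conj w * M + 2 * conj w ^ 2 * P + B)) / 2‖ ^ 2 -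
    ‖((2 * w * M + 2 * P + w ^ 2 * B) - (2 * conj w * M + 2 * conj w ^ 2 * P + B)) / 2‖ ^ 2 =
    ‖dd w * M‖ ^ 2 - 2 * ‖dd w * P‖ ^ 2 - ‖dd w * B‖ ^ 2 / 2 := by
  apply Complex.ofReal_injective
  push_cast
  simp only [nsq, dd, map_add, map_sub, map_mul, map_pow, map_div₀, map_ofNat, map_one,
    Complex.conj_conj]
  ring

lemma lorentz' (w K y E : ℂ) : ‖-(1 + w * conj w) ^ 2 * K + w * E‖ ^ 2 -
    ‖((-2 * w * (1 + w * conj w) * K + 2 * y + w ^ 2 * E) +
      (-2 * conj w * (1 + w * conj w) * K - 2 * conj w ^ 2 * y + E)) / 2‖ ^ 2 -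
    ‖((-2 * w * (1 + w * conj w) * K + 2 * y + w ^ 2 * E) -
      (-2 * conj w * (1 + w * conj w) * K - 2 * conj w ^ 2 * y + E)) / 2‖ ^ 2 =
    ‖-dd w * (1 + w * conj w) * K - 2 * conj w * y‖ ^ 2 - 2 * ‖(1 + w * conj w) * y‖ ^ 2 -
      ‖dd w * E‖ ^ 2 / 2 := by
  apply Complex.ofReal_injective
  push_cast
  simp only [nsq, dd, map_add, map_sub, map_mul, map_pow, map_div₀, map_ofNat, map_one,
    Complex.conj_conj, map_neg]
  ring

lemma db_cut_cont (k : ℕ) : Continuous (db (cut k)) :=
  continuousOn_univ.1 (ContDiffOn.db' (m := 0) (cut_smooth k (n := 1)).contDiffOn isOpen_univ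
    (by simp)).continuousOn

lemma bc_mul (S : Setup φ μ U) {x W G : ℂ → ℂ} (l1 : L2 fun w => deriv φ w * V w) (bc : BC φ V)
    (hx : Pol x) (xr : ∀ w, conj (x w) = x w) (hW : ContinuousOn W (D \ {0}))
    (hb : ∃ C : ℝ, ∀ w, w ≠ 0 → ‖w‖ ≤ 1 / 2 → ‖W w‖ ≤ C) (l2 : L2 fun w => deriv φ w * W w)
    (e : ∀ w ∈ D \ {0}, G w = x w * V w + dd w * W w) : BC φ G := by
  rintro θ ⟨hθ, C, hC⟩
  obtain ⟨X, X0, hX⟩ := bdd_of_cont hx.cont
  have h1 := bc (fun w => x w * θ w) ⟨hx.mul hθ, X * C, fun w hw => by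
    have : (x w).im = 0 := Complex.conj_eq_iff_im.1 (xr w)
    rw [Complex.mul_im, this, zero_mul, add_zero, abs_mul, mul_assoc]
    exact mul_le_mul ((Complex.abs_re_le_norm _).trans (hX w hw)) (hC w hw) (abs_nonneg _) X0⟩
  have c1 := (S.deriv_smooth (n := 0)).continuousOn
  have l3 := (l2.mul_cont hθ.cj.cont).mul_cont continuous_dd
  have h2 := cut_small (h := fun w => dd w * (conj (θ w) * (deriv φ w * W w)))
    (continuous_dd.continuousOn.mul (hθ.cj.cont.continuousOn.mul ((c1.mono diff_subset).mul hW)))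
    ?_ ((l2.mul_cont hθ.cj.cont).int.congr (ae_D.mono fun w hw => by simp [dd_ne hw]))
  · have h3 := h1.add ((Complex.continuous_re.tendsto _).comp h2)
    simp only [Complex.zero_re, add_zero] at h3
    refine h3.congr fun k => ?_
    simp only [Function.comp]
    rw [← Complex.add_re, ← integral_add]
    · congr 1
      refine int_congr fun w hw => ?_
      simp only [e w hw, map_mul, xr]; ring
    · exact (((l1.mul_cont (hx.mul hθ).cj.cont).mul_cont (db_cut_cont k)).int.congr
        (Eventually.of_forall fun w => by simp only; ring))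
    · exact ((l3.mul_cont (db_cut_cont k)).int.congr
        (Eventually.of_forall fun w => by simp only; ring))
  · obtain ⟨B, hB⟩ := hb
    obtain ⟨A, hA⟩ := bdd_half (continuous_dd.continuousOn.mul (hθ.cj.cont.continuousOn.mul c1))
    refine ⟨A * B, fun w h0 hw => ?_⟩
    rw [← mul_assoc, ← mul_assoc, norm_mul, mul_assoc]
    exact mul_le_mul (hA w h0 hw) (hB w h0 hw) (norm_nonneg _)
      ((norm_nonneg _).trans (hA w h0 hw))

lemma N_lin {a b c p q r : ℂ → ℂ} (ha : L2 a) (hb : L2 b) (hc : L2 c) (hp : L2 p) (hq : L2 q)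
    (hr : L2 r) (h : ∀ w ∈ D \ {0}, ‖a w‖ ^ 2 - ‖b w‖ ^ 2 - ‖c w‖ ^ 2 =
      ‖p w‖ ^ 2 - 2 * ‖q w‖ ^ 2 - ‖r w‖ ^ 2 / 2) :
    N a - N b - N c = N p - 2 * N q - N r / 2 := by
  have := int_congr h
  rwa [integral_sub (ha.int_sq.sub' hb.int_sq) hc.int_sq, integral_sub ha.int_sq hb.int_sq,
    integral_sub (hp.int_sq.sub' (hq.int_sq.const_mul 2)) (hr.int_sq.div_const 2),
    integral_sub hp.int_sq (hq.int_sq.const_mul 2), integral_const_mul, integral_div] at this

theorem frame (S : Setup φ μ U) (hV : ContDiffOn ℝ 1 V D) (l1 : L2 fun w => deriv φ w * V w)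
    (l2 : L2 (db V)) (bc : BC φ V) (hP : Pol P) (hy : Pol y) (hK : Pol K)
    (e1 : ∀ w, dz y w = K w) (e2 : ∀ w, (1 + w * conj w) * y w = Phi P w) (h0 : V 0 + dz P 0 = 0)
    (le : L2 fun w => (db V w + (1 + w * conj w) ^ 2 * K w) / w) :
    ∃ B : ℂ → ℂ, (L2 fun w => deriv φ w * B w) ∧
      (∀ w ∈ D \ {0}, V w = (1 + w * conj w) * fM P w + 2 * conj w * P w + w * B w) ∧
      4 * N (db (fm P)) - μ * N (fun w => deriv φ w * fm P w) +
        (8 * N (fM P) + μ * (2 * N (fun w => deriv φ w * (dd w * P w)) +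
          N (fun w => deriv φ w * (dd w * B w)) / 2)) -
        2 * N (fun w => (db V w + (1 + w * conj w) ^ 2 * K w) / w) ≤
      4 * N (db V) - μ * N (fun w => deriv φ w * V w) := by
  have hn : Pol fun w => 1 + w * conj w := (Pol.const 1).add (Pol.id.mul Pol.cid)
  have hT : Pol fun w => (1 + w * conj w) * fM P w + 2 * conj w * P w :=
    (hn.mul hP.fM).add ((Pol.cid.cmul 2).mul hP)
  have c1 := S.deriv_smooth (n := 1)
  set E := fun w => (db V w + (1 + w * conj w) ^ 2 * K w) / w with hE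
  set A := fun w => V w - ((1 + w * conj w) * fM P w + 2 * conj w * P w) with hA
  have sA : ContDiffOn ℝ 1 A D := hV.sub hT.smooth.contDiffOn
  have A0 : A 0 = 0 := by simpa [hA, fM, dd] using h0
  set B := fun w => A w / w with hB
  have sB : ContDiffOn ℝ 1 B (D \ {0}) := by
    simp only [hB, div_eq_mul_inv]
    exact (sA.mono diff_subset).mul (contDiffOn_id.inv fun w hw => hw.2)
  obtain ⟨CB, -, bB⟩ := div_w_bdd sA A0
  have lp : ∀ {q}, Pol q → L2 fun w => deriv φ w * q w := fun hq =>
    (S.area.mul_cont hq.cont).congr fun w _ => mul_comm _ _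
  have lB : L2 fun w => deriv φ w * B w :=
    (L2.div_w (c1.mul sA) (by simp [A0]) ((l1.sub' (lp hT)).congr fun w _ => by
      simp only [hA]; ring)).congr fun w _ => by simp only [hB]; ring
  have eV : ∀ w ∈ D \ {0}, V w = (1 + w * conj w) * fM P w + 2 * conj w * P w + w * B w :=
    fun w hw => by
      have : w ≠ 0 := hw.2
      simp only [hB, hA]; field_simp; ring
  refine ⟨B, lB, eV, ?_⟩
  -- derivatives
  have dM : ∀ w, db (fM P) w = -conj w * y w - (1 + w * conj w) * K w - 2 * P w - w * dz P w -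
      conj w * db P w := fun w => by
    have h1 : dz (fun w => (1 + w * conj w) * y w) w = dz (Phi P) w := by simp only [e2]
    unfold Phi at h1
    rw [dz_mul (hn.diff w) (hy.diff w), dz_add (by fun_prop) (by fun_prop),
      dz_mul (by fun_prop) (by fun_prop), dz_add (((Pol.id.cmul (-2)).mul hP).diff w)
      ((Pol.dd.mul hP.db').diff w), dz_mul (by fun_prop) (hP.diff w),
      dz_const_mul _ (by fun_prop), dz_mul (by fun_prop) (hP.db'.diff w),
      dz_db_comm hP.smooth.contDiffAt, e1] at h1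
    unfold fM
    rw [db_mul (by fun_prop) (hP.dz'.diff w), db_neg]
    simp only [dz_const, dz_id, dz_cid, dz_dd, db_dd] at h1 ⊢
    linear_combination h1
  have dB : ∀ w ∈ D \ {0}, db B w = (db V w - (w * fM P w + (1 + w * conj w) * db (fM P) w +
      (2 * P w + 2 * conj w * db P w))) / w := fun w hw => by
    have hi : DifferentiableAt ℂ (fun w : ℂ => w⁻¹) w := differentiableAt_inv hw.2
    simp only [hB, hA, div_eq_mul_inv]
    rw [db_mul (ContDiffOn.dAt sA isOpen_D (by simp) hw.1) (hi.restrictScalars ℝ), db_hol hi,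
      db_sub (ContDiffOn.dAt hV isOpen_D (by simp) hw.1) (hT.diff w),
      db_add ((hn.mul hP.fM).diff w) (((Pol.cid.cmul 2).mul hP).diff w),
      db_mul (hn.diff w) (hP.fM.diff w), db_mul (by fun_prop) (hP.diff w),
      db_add (by fun_prop) (by fun_prop), db_mul (by fun_prop) (by fun_prop),
      db_const_mul _ (by fun_prop)]
    simp
  set Vp := fun w => 2 * w * fM P w + 2 * P w + w ^ 2 * B w with hVp
  set Vm := fun w => 2 * conj w * fM P w + 2 * conj w ^ 2 * P w + B w with hVm
  have p1 : Pol fun w => 2 * w * fM P w + 2 * P w := ((Pol.id.cmul 2).mul hP.fM).add (hP.cmul 2)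
  have p2 : Pol fun w => 2 * conj w * fM P w + 2 * conj w ^ 2 * P w :=
    ((Pol.cid.cmul 2).mul hP.fM).add (((Pol.mono 2 0 2).congr (by simp)).mul hP)
  have sp : ContDiffOn ℝ 1 Vp (D \ {0}) := p1.smooth.contDiffOn.add (ContDiffOn.mul (by fun_prop) sB)
  have sm : ContDiffOn ℝ 1 Vm (D \ {0}) := p2.smooth.contDiffOn.add sB
  have dp : ∀ w ∈ D \ {0}, db Vp w = -2 * w * (1 + w * conj w) * K w + 2 * y w + w ^ 2 * E w :=
    fun w hw => by
      have h0 : w ≠ 0 := hw.2
      have b := ContDiffOn.dAt sB isOpen_D0 (by simp) hw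
      have h2 := e2 w
      rw [hVp, db_add (p1.diff w) (by fun_prop), db_add (((Pol.id.cmul 2).mul hP.fM).diff w)
        ((hP.cmul 2).diff w), db_mul (by fun_prop) (hP.fM.diff w), db_const_mul _ (hP.diff w),
        db_mul (by fun_prop) b, db_hol (f := fun w => 2 * w) (by fun_prop),
        db_hol (f := fun w => w ^ 2) (by fun_prop), dB w hw, dM]
      simp only [hE, fM, Phi, dd] at h2 ⊢
      field_simp
      linear_combination (w * conj w - 2) * h2
  have dm : ∀ w ∈ D \ {0},
      db Vm w = -2 * conj w * (1 + w * conj w) * K w - 2 * conj w ^ 2 * y w + E w :=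
    fun w hw => by
      have h0 : w ≠ 0 := hw.2
      have b := ContDiffOn.dAt sB isOpen_D0 (by simp) hw
      have h2 := e2 w
      have h3 := db_mono 2 0 2 w
      simp only [pow_zero, mul_one] at h3
      rw [hVm, db_add (p2.diff w) b, db_add (((Pol.cid.cmul 2).mul hP.fM).diff w)
        (by have := hP.diff w; fun_prop), db_mul (by fun_prop) (hP.fM.diff w),
        db_mul (by fun_prop) (hP.diff w), h3, db_const_mul _ (by fun_prop), dB w hw, dM]
      simp only [hE, fM, Phi, dd, db_cid] at h2 ⊢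
      field_simp
      linear_combination (conj w) * h2
  have lp' : L2 (db Vp) := L2.congr (((((Pol.id.cmul (-2)).mul hn).mul hK).add (hy.cmul 2)).l2.add'
    (le.mul_cont (continuous_pow 2))) fun w hw => (dp w hw).symm
  have lm' : L2 (db Vm) := L2.congr (((((Pol.cid.cmul (-2)).mul hn).mul hK).sub
    (((Pol.mono 2 0 2).congr (by simp)).mul hy)).l2.add' le) fun w hw => (dm w hw).symm
  have lVp : L2 fun w => deriv φ w * Vp w := ((lp p1).add' (lB.mul_cont (continuous_pow 2))).congr
    fun w _ => by simp only [hVp]; ring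
  have lVm : L2 fun w => deriv φ w * Vm w := ((lp p2).add' lB).congr
    fun w _ => by simp only [hVm]; ring
  -- the two space components are tangential
  have comp : ∀ a : ℂ, μ * N (fun w => deriv φ w * (a * Vp w + conj a * Vm w)) ≤
      4 * N (fun w => a * db Vp w + conj a * db Vm w) := fun a => by
    have d : EqOn (db fun w => a * Vp w + conj a * Vm w)
        (fun w => a * db Vp w + conj a * db Vm w) (D \ {0}) := fun w hw => by
      have b1 := ContDiffOn.dAt sp isOpen_D0 (by simp) hw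
      have b2 := ContDiffOn.dAt sm isOpen_D0 (by simp) hw
      rw [db_add (by fun_prop) (by fun_prop), db_const_mul _ b1, db_const_mul _ b2]
    have q1 : Pol fun w => a * (w * fM P w + 2 * P w) + conj a * (conj w * fM P w) :=
      (((Pol.id.mul hP.fM).add (hP.cmul 2)).cmul a).add ((Pol.cid.mul hP.fM).cmul _)
    rw [← N_congr d]
    refine tang S ((contDiffOn_const.mul sp).add (contDiffOn_const.mul sm))
      (((lVp.cmul a).add' (lVm.cmul (conj a))).congr fun w _ => by simp only; ring)
      (((lp'.cmul a).add' (lm'.cmul (conj a))).congr d.symm) ?_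
    refine bc_mul S l1 bc (x := fun w => a * w + conj a * conj w)
      (W := fun w => a * (w * fM P w + 2 * P w) + conj a * (conj w * fM P w) + conj a * B w)
      ((Pol.id.cmul a).add (Pol.cid.cmul _)) (fun w => by simp [add_comm])
      (q1.cont.continuousOn.add (continuousOn_const.mul sB.continuousOn)) ?_
      (((lp q1).add' (lB.cmul (conj a))).congr fun w _ => by simp only; ring) fun w hw => ?_
    · obtain ⟨C, hC⟩ := bdd_half q1.cont.continuousOn
      refine ⟨C + ‖conj a‖ * CB, fun w h1 h2 => (norm_add_le _ _).trans (add_le_add (hC w h1 h2) ?_)⟩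
      rw [norm_mul]; exact mul_le_mul_of_nonneg_left (bB w h1 h2) (norm_nonneg _)
    · rw [eV w hw]; simp only [hVp, hVm, dd]; ring
  have t1 := comp (1 / 2)
  have t2 := comp (Complex.I / 2)
  have nI : ∀ a b : ℂ, ‖Complex.I / 2 * a + conj (Complex.I / 2) * b‖ = ‖(a - b) / 2‖ := fun a b => by
    rw [show Complex.I / 2 * a + conj (Complex.I / 2) * b = Complex.I * ((a - b) / 2) by
      simp only [map_div₀, Complex.conj_I, map_ofNat]; ring, norm_mul, Complex.norm_I, one_mul]
  have n1 : ∀ a b : ℂ, 1 / 2 * a + conj (1 / 2 : ℂ) * b = (a + b) / 2 := fun a b => by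
    simp only [map_div₀, map_one, map_ofNat]; ring
  have hp : Pol fun w => db (fm P) w + 2 * P w := hP.fm.db'.add (hP.cmul 2)
  have i1 := N_lin l1 (((lVp.cmul (1 / 2)).add' (lVm.cmul (conj (1 / 2)))).congr
      (g := fun w => deriv φ w * (1 / 2 * Vp w + conj (1 / 2 : ℂ) * Vm w)) fun w _ => by
        simp only; ring)
    (((lVp.cmul (Complex.I / 2)).add' (lVm.cmul (conj (Complex.I / 2)))).congr
      (g := fun w => deriv φ w * (Complex.I / 2 * Vp w + conj (Complex.I / 2) * Vm w)) fun w _ => by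
        simp only; ring)
    (lp hP.fm) (lp (Pol.dd.mul hP)) ((lB.mul_cont continuous_dd).congr
      (g := fun w => deriv φ w * (dd w * B w)) fun w _ => by simp only; ring) fun w hw => by
      have := lorentz w (fM P w) (P w) (B w)
      simp only [norm_mul (deriv φ w), mul_pow, nI, n1, fm]
      rw [eV w hw]
      linear_combination ‖deriv φ w‖ ^ 2 * this
  have i2 := N_lin l2 ((lp'.cmul (1 / 2)).add' (lm'.cmul (conj (1 / 2))))
    ((lp'.cmul (Complex.I / 2)).add' (lm'.cmul (conj (Complex.I / 2)))) hp.l2 hP.Phi.l2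
    (le.mul_cont continuous_dd) fun w hw => by
      have h0 : w ≠ 0 := hw.2
      have := lorentz' w (K w) (y w) (E w)
      have e3 : db V w = -(1 + w * conj w) ^ 2 * K w + w * E w := by
        simp only [hE]; field_simp; ring
      have e4 : db (fm P) w + 2 * P w =
          -dd w * (1 + w * conj w) * K w - 2 * conj w * y w := by
        have h2 := e2 w
        unfold fm
        rw [db_mul (by fun_prop) (hP.fM.diff w), dM]
        simp only [fM, Phi, dd, db_dd] at h2 ⊢
        linear_combination conj w * h2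
      simp only [nI, n1]
      rw [dp w hw, dm w hw, e4, ← e2, e3]
      exact this
  have i3 := N_add hP.fm.db'.l2 (hP.cmul 2).l2
  rw [ip_mul_right, ip_fm hP, N_const_mul] at i3
  have i4 := bochner hP
  have i5 := N_mono (f := fun w => dd w * E w) le 1 fun w hw => by
    rw [norm_mul]; gcongr; exact norm_dd_le hw.1
  simp only [map_ofNat, Complex.mul_re, Complex.re_ofNat, Complex.ofReal_re, Complex.im_ofNat,
    zero_mul, sub_zero, Complex.norm_ofNat] at i3
  have i6 : μ * (N (fun w => deriv φ w * V w) - _ - _) = μ * _ := congrArg (μ * ·) i1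
  linarith

end Vale.Agent.P071
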