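import Vale.Agent.P071.Pol

/-! P071 part Var: almost maximisers, the logarithmically spread mass at the origin, localisation. -/

open MeasureTheory ComplexConjugate Filter Topology Set

noncomputable section
namespace Vale.Agent.P071

variable {φ f g h k ζ ξ : ℂ → ℂ}

lemma near_max {X : Type*} (p : X → Prop) (ad : X → X → X) (B : X → X → ℂ) (ν : X → ℂ) (x₀ : X)
    (p0 : p x₀) (pa : ∀ x y, p x → p y → p (ad x y))
    (hq : ∀ x y, p x → p y → (B (ad x y) (ad x y)).re = (B x x).re + 2 * (B y x).re + (B y y).re)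
    (hν : ∀ x y, p x → p y → ν (ad x y) = ν x + ν y) {C : ℝ} (hC : 0 < C)
    (bd : ∀ x, p x → ‖ν x‖ ^ 2 ≤ C * (B x x).re) {τ : ℝ} (hτ : 0 < τ) :
    ∃ η, p η ∧ ∀ ζ, p ζ → 2 * (ν ζ - B ζ η).re ≤ τ + (B ζ ζ).re := by
  set S := {r | ∃ x, p x ∧ r = 2 * (ν x).re - (B x x).re}
  have hb : BddAbove S := ⟨C, by
    rintro r ⟨x, hx, rfl⟩
    have h1 := bd x hx
    have h2 := Complex.re_le_norm (ν x)
    have h3 : 2 * ‖ν x‖ ≤ C + (B x x).re := by
      refine le_of_mul_le_mul_left ?_ hC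
      nlinarith [sq_nonneg (‖ν x‖ - C)]
    linarith⟩
  obtain ⟨r, ⟨η, hη, rfl⟩, hr⟩ := exists_lt_of_lt_csSup (s := S) ⟨_, x₀, p0, rfl⟩
    (sub_lt_self (sSup S) hτ)
  refine ⟨η, hη, fun ζ hζ => ?_⟩
  have := le_csSup hb ⟨ad η ζ, pa _ _ hη hζ, rfl⟩
  rw [hq _ _ hη hζ, hν _ _ hη hζ, Complex.add_re] at this
  rw [Complex.sub_re]; linarith

lemma exists_nu {r ε : ℝ} (hr : 0 < r) (hr1 : r < 1) (hε : 0 < ε) :
    ∃ ν : ℂ → ℂ, L2 ν ∧ (∀ w, r < ‖w‖ → ν w = 0) ∧ ip (fun _ => 1) ν = 1 ∧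
      N (fun w => conj w * ν w) ≤ ε ^ 2 := by
  set a := r * Real.exp (-(ε ^ 2)⁻¹) with ha
  have a0 : 0 < a := by positivity
  have ar : a ≤ r := mul_le_of_le_one_right hr.le (Real.exp_le_one_iff.2 (by simp; positivity))
  set f : ℝ → ℝ := (Ioc a r).indicator fun y => (y ^ 2)⁻¹ with hf
  have f0 : ∀ y, r < y → f y = 0 := fun y hy => indicator_of_notMem (fun h => h.2.not_gt hy) _
  have I : ∫ w in D, f ‖w‖ = 2 * Real.pi * (ε ^ 2)⁻¹ := by
    rw [setIntegral_eq_integral_of_forall_compl_eq_zero fun w hw => f0 _ (by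
      rw [mem_D, not_lt] at hw; linarith), integral_fun_norm_addHaar]
    have e : ∀ y : ℝ, y ^ (Module.finrank ℝ ℂ - 1) • f y = (Ioc a r).indicator (fun y => y⁻¹) y := by
      intro y
      by_cases hy : y ∈ Ioc a r
      · have := (a0.trans hy.1).ne'
        simp only [hf, indicator_of_mem hy, Complex.finrank_real_complex, smul_eq_mul]
        field_simp; simp
      · simp [hf, indicator_of_notMem hy]
    simp only [e]
    rw [setIntegral_indicator measurableSet_Ioc, inter_eq_right.2 (show Ioc a r ⊆ Ioi 0 from fun y hy => a0.trans hy.1),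
      ← intervalIntegral.integral_of_le ar, integral_inv_of_pos a0 hr, ha, div_mul_cancel_left₀ hr.ne',
      ← Real.exp_neg, Real.log_exp, Measure.real, Complex.volume_ball]
    simp; ring
  have fm : Measurable f := ((measurable_id.pow_const 2).inv).indicator measurableSet_Ioc
  have I0 : 0 < 2 * Real.pi * (ε ^ 2)⁻¹ := by positivity
  set c := 2 * Real.pi * (ε ^ 2)⁻¹ with hc
  refine ⟨fun w => ((c⁻¹ * f ‖w‖ : ℝ) : ℂ), MemLp.of_bound ?_ (c⁻¹ * (a ^ 2)⁻¹)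
    (Eventually.of_forall fun w => ?_), fun w hw => by simp [f0 _ hw], ?_, ?_⟩
  · exact (Complex.measurable_ofReal.comp
      ((fm.comp measurable_norm).const_mul _)).aestronglyMeasurable
  · rw [Complex.norm_real, norm_mul, Real.norm_of_nonneg (by positivity)]
    gcongr
    by_cases hy : ‖w‖ ∈ Ioc a r
    · rw [hf, indicator_of_mem hy, Real.norm_of_nonneg (by positivity)]
      gcongr; exact hy.1.le
    · rw [hf, indicator_of_notMem hy, norm_zero]; positivity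
  · simp only [ip, one_mul, Complex.conj_ofReal]
    rw [integral_complex_ofReal, integral_const_mul, I, inv_mul_cancel₀ I0.ne']; simp
  · have e : ∀ w : ℂ, ‖conj w * ((c⁻¹ * f ‖w‖ : ℝ) : ℂ)‖ ^ 2 = c⁻¹ ^ 2 * f ‖w‖ := by
      intro w
      rw [norm_mul, Complex.norm_conj, Complex.norm_real, Real.norm_eq_abs, mul_pow, sq_abs]
      by_cases hy : ‖w‖ ∈ Ioc a r
      · have := (a0.trans hy.1).ne'
        simp only [hf, indicator_of_mem hy]; field_simp
      · simp [hf, indicator_of_notMem hy]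
    simp only [N, e]
    rw [integral_const_mul, I, sq, mul_assoc, inv_mul_cancel₀ I0.ne', mul_one, hc, mul_inv, inv_inv]
    exact mul_le_of_le_one_left (by positivity) (inv_le_one_of_one_le₀ (by
      linarith [Real.pi_gt_three]))

lemma loc_cs {r : ℝ} {g : ℂ → ℝ} (hm : ContinuousOn h (D \ {0})) (hk : L2 k)
    (k0 : ∀ w ∈ D, r < ‖w‖ → k w = 0) (hg : Integrable g vD) (g0 : ∀ w, 0 ≤ g w)
    (hb : ∀ w ∈ D \ {0}, ‖w‖ ≤ r → ‖h w‖ ^ 2 ≤ g w) :
    ‖ip h k‖ ≤ √(∫ w in D, g w) * √(N k) := by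
  set h' := (Metric.closedBall (0 : ℂ) r).indicator h
  have m' : AEStronglyMeasurable h' vD := (aesm_of_cont hm).indicator measurableSet_closedBall
  have b' : ∀ᵐ w ∂vD, ‖h' w‖ ^ 2 ≤ g w := ae_D0.mono fun w hw => by
    by_cases hr : w ∈ Metric.closedBall (0 : ℂ) r
    · rw [show h' w = h w from indicator_of_mem hr _]; exact hb w hw (by simpa using hr)
    · rw [show h' w = 0 from indicator_of_notMem hr _]; simpa using g0 w
  have l' : L2 h' := (memLp_two_iff_integrable_sq_norm m').2 (hg.mono' (m'.norm.pow 2)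
    (b'.mono fun w hw => by rwa [Real.norm_of_nonneg (by positivity)]))
  have e : ip h k = ip h' k := int_congr fun w hw => by
    by_cases hr : w ∈ Metric.closedBall (0 : ℂ) r
    · simp only [show h' w = h w from indicator_of_mem hr _]
    · simp [k0 w hw.1 (by simpa using hr)]
  rw [e]
  refine (norm_ip_le l' hk).trans ?_
  gcongr
  exact integral_mono_ae l'.int_sq hg b'

lemma nu_cs {r ε : ℝ} {g : ℂ → ℝ} {ν : ℂ → ℂ} (hε : 0 ≤ ε) (hm : ContinuousOn h (D \ {0}))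
    (hν : L2 ν) (k0 : ∀ w, r < ‖w‖ → ν w = 0) (hN : N (fun w => conj w * ν w) ≤ ε ^ 2)
    (hg : Integrable g vD) (g0 : ∀ w, 0 ≤ g w)
    (hb : ∀ w ∈ D \ {0}, ‖w‖ ≤ r → ‖h w‖ ^ 2 ≤ ‖w‖ ^ 2 * g w) :
    ‖ip h ν‖ ≤ √(∫ w in D, g w) * ε := by
  have e : ip h ν = ip (fun w => h w / w) fun w => conj w * ν w := int_congr fun w hw => by
    have : w ≠ 0 := hw.2
    simp only [map_mul, Complex.conj_conj]; field_simp
  rw [e]
  refine (loc_cs (r := r) (h := fun w => h w / w) (hm.div continuousOn_id fun _ hw => hw.2)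
    (hν.mul_cont Complex.continuous_conj)
    (fun w _ hw => by simp [k0 w hw]) hg g0 fun w hw hr => ?_).trans ?_
  · have : 0 < ‖w‖ := norm_pos_iff.2 hw.2
    rw [norm_div, div_pow, div_le_iff₀ (by positivity), mul_comm]; exact hb w hw hr
  · gcongr; exact Real.sqrt_le_iff.2 ⟨hε, hN⟩

lemma supp_l2 {r : ℝ} (hr : r < 1) (hc : ContinuousOn f D) (h0 : ∀ w ∈ D, r < ‖w‖ → f w = 0) :
    L2 f := by
  obtain ⟨C, hC⟩ := (isCompact_closedBall (0 : ℂ) r).exists_bound_of_continuousOn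
    (hc.mono (Metric.closedBall_subset_ball hr))
  refine L2.of_bdd (hc.mono diff_subset) (max C 0) fun w hw => ?_
  rcases le_or_gt ‖w‖ r with h | h
  · exact (hC w (by simpa using h)).trans (le_max_left _ _)
  · simp [h0 w hw.1 h]

lemma supp_d {r : ℝ} (h0 : ∀ w ∈ D, r < ‖w‖ → f w = 0) :
    (∀ w ∈ D, r < ‖w‖ → dz f w = 0) ∧ ∀ w ∈ D, r < ‖w‖ → db f w = 0 := by
  have o : IsOpen (D ∩ {w | r < ‖w‖}) := isOpen_D.inter (isOpen_lt continuous_const continuous_norm)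
  have e : EqOn f (fun _ => 0) (D ∩ {w | r < ‖w‖}) := fun w hw => h0 w hw.1 hw.2
  exact ⟨fun w h1 h2 => by rw [dz_congr_on o e ⟨h1, h2⟩, dz_const],
    fun w h1 h2 => by rw [db_congr_on o e ⟨h1, h2⟩, db_const]⟩

lemma supp_ibp {r : ℝ} (hr : r < 1) (hζ : ContDiffOn ℝ 2 ζ D) (h0 : ∀ w ∈ D, r < ‖w‖ → ζ w = 0)
    (hf : ContDiffOn ℝ 1 f D) : ip (db ζ) (db f) = -ip (dz (db ζ)) f := by
  have s1 : ContDiffOn ℝ 1 (db ζ) D := ContDiffOn.db' hζ isOpen_D (by norm_num)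
  have s2 : ContDiffOn ℝ 0 (dz (db ζ)) D := ContDiffOn.dz' s1 isOpen_D (by norm_num)
  have s3 : ContDiffOn ℝ 0 (db f) D := ContDiffOn.db' hf isOpen_D (by norm_num)
  have z1 := (supp_d h0).2
  have z2 := (supp_d z1).1
  have s := s1.mul (ContDiffOn.cj hf)
  have z : ∀ w ∈ D, r < ‖w‖ → db ζ w * conj (f w) = 0 := fun w h1 h2 => by simp [z1 w h1 h2]
  have key := stokes_z s (supp_l2 hr (ContDiffOn.dz' (m := 0) s isOpen_D
    (by norm_num)).continuousOn (supp_d z).1).int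
    (supp_l2 hr (s.continuousOn.div continuous_dd.continuousOn fun w hw => dd_ne hw)
      fun w h1 h2 => by simp [z1 w h1 h2]).int
  rw [eq_neg_iff_add_eq_zero, ip, ip, ← integral_add
    (supp_l2 hr (s1.continuousOn.fun_mul (ContDiffOn.cj s3).continuousOn)
      fun w h1 h2 => by simp [z1 w h1 h2]).int
    (supp_l2 hr (s2.continuousOn.fun_mul (ContDiffOn.cj hf).continuousOn)
      fun w h1 h2 => by simp [z2 w h1 h2]).int, ← key]
  refine int_congr fun w hw => ?_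
  rw [dz_mul (ContDiffOn.dAt s1 isOpen_D (by simp) hw.1)
    (ContDiffOn.dAt (ContDiffOn.cj hf) isOpen_D (by simp) hw.1), dz_conj]
  ring

lemma N_pos (hc : ContinuousOn f D) (hf : L2 f) {w : ℂ} (hw : w ∈ D) (h0 : f w ≠ 0) : 0 < N f := by
  refine (N_nonneg f).lt_of_ne fun h => h0 ?_
  have h1 := (integral_eq_zero_iff_of_nonneg (fun _ => by positivity) hf.int_sq).1 h.symm
  have h2 : f =ᵐ[vD] fun _ => 0 := h1.mono fun w hw => by simpa using hw
  exact Measure.eqOn_open_of_ae_eq h2 isOpen_D hc continuousOn_const hw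

/-- Finite energy fields. -/
def En (φ ζ : ℂ → ℂ) : Prop := ContDiffOn ℝ 1 ζ D ∧ L2 (db ζ) ∧ L2 fun w => deriv φ w * ζ w

/-- The energy form. -/
def Bf (φ : ℂ → ℂ) (κ : ℝ) (ζ ξ : ℂ → ℂ) : ℂ :=
  4 * ip (db ζ) (db ξ) - κ * ip (fun w => deriv φ w * ζ w) fun w => deriv φ w * ξ w

lemma db_lin (hf : ContDiffOn ℝ 1 f D) (hg : ContDiffOn ℝ 1 g D) (a b : ℂ) :
    EqOn (db fun w => a * f w + b * g w) (fun w => a * db f w + b * db g w) D := fun w hw => by
  have h1 := ContDiffOn.dAt hf isOpen_D (by simp) hw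
  have h2 := ContDiffOn.dAt hg isOpen_D (by simp) hw
  rw [db_add (by fun_prop) (by fun_prop), db_const_mul _ h1, db_const_mul _ h2]

lemma En.lin (hf : En φ f) (hg : En φ g) (a b : ℂ) : En φ fun w => a * f w + b * g w :=
  ⟨(contDiffOn_const.mul hf.1).add (contDiffOn_const.mul hg.1),
    ((hf.2.1.cmul a).add' (hg.2.1.cmul b)).congr ((db_lin hf.1 hg.1 a b).symm.mono diff_subset),
    ((hf.2.2.cmul a).add' (hg.2.2.cmul b)).congr fun w _ => by simp only; ring⟩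

lemma Bf_conj (κ : ℝ) (f g : ℂ → ℂ) : conj (Bf φ κ f g) = Bf φ κ g f := by
  simp [Bf, ip_conj, map_ofNat]

lemma Bf_lin (κ : ℝ) (hf : En φ f) (hg : En φ g) (hh : En φ h) (a b : ℂ) :
    Bf φ κ (fun w => a * f w + b * g w) h = a * Bf φ κ f h + b * Bf φ κ g h := by
  rw [Bf, ip_congr ((db_lin hf.1 hg.1 a b).mono diff_subset) (eqOn_refl _ _),
    ip_congr (f := fun w => deriv φ w * (a * f w + b * g w))
      (f' := fun w => a * (deriv φ w * f w) + b * (deriv φ w * g w)) (fun w _ => by simp only; ring)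
      (eqOn_refl _ _), ip_add_left (hf.2.1.cmul a) (hg.2.1.cmul b) hh.2.1,
    ip_add_left (hf.2.2.cmul a) (hg.2.2.cmul b) hh.2.2]
  simp only [ip_mul_left, Bf]; ring

lemma Bf_lin' (κ : ℝ) (hf : En φ f) (hg : En φ g) (hh : En φ h) (a b : ℂ) :
    Bf φ κ h (fun w => a * f w + b * g w) = conj a * Bf φ κ h f + conj b * Bf φ κ h g := by
  rw [← Bf_conj, Bf_lin κ hf hg hh]; simp [Bf_conj]

lemma Bf_self (κ : ℝ) (f : ℂ → ℂ) :
    Bf φ κ f f = (4 * N (db f) - κ * N (fun w => deriv φ w * f w) : ℝ) := by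
  simp [Bf, ip_self]

lemma exists_st (α β : ℂ) : ∃ (s : ℝ) (t : ℂ), 0 ≤ s ∧ s ≤ 1 ∧ ‖t‖ ≤ 1 ∧ (s = 1 ∨ ‖t‖ = 1) ∧
    s * α - t * β = 0 := by
  by_cases hβ : β = 0
  · exact ⟨0, 1, le_rfl, zero_le_one, by simp, Or.inr (by simp), by simp [hβ]⟩
  have b0 : 0 < ‖β‖ := norm_pos_iff.2 hβ
  rcases le_or_gt ‖α‖ ‖β‖ with h | h
  · exact ⟨1, α / β, zero_le_one, le_rfl, by rw [norm_div, div_le_one b0]; exact h, Or.inl rfl,
      by simp [hβ]⟩
  · have a0 := b0.trans h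
    have : ‖((‖β‖ / ‖α‖ : ℝ) : ℂ) * α / β‖ = 1 := by
      rw [norm_div, norm_mul, Complex.norm_real, Real.norm_of_nonneg (by positivity)]; field_simp
    exact ⟨‖β‖ / ‖α‖, _, by positivity, (div_le_one a0).2 h.le, this.le, Or.inr this,
      by rw [div_mul_cancel₀ _ hβ, sub_self]⟩

lemma final_arith {a κ : ℝ} (ha : 0 < a) (hκ : 0 < κ)
    (h : ∀ ε : ℝ, 0 < ε → ε ≤ 1 → ∃ s t x : ℝ, 0 ≤ x ∧ (s = 1 ∨ t = 1) ∧ x ^ 2 ≤ a * ε * (1 + x) ∧
      κ * s ≤ a * (x + ε) ∧ t ≤ a * (s + x + ε)) : False := by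
  set b := 3 * a / κ + 3 with hb
  have b0 : 3 ≤ b := le_add_of_nonneg_left (by positivity)
  set η := 1 / (2 * (a + 1) * b) with hη
  have η0 : 0 < η := by positivity
  have η1 : (a + 1) * b * η = 1 / 2 := by rw [hη]; field_simp
  have η2 : η ≤ 1 := by nlinarith [mul_pos ha η0, mul_pos (mul_pos ha η0) (by linarith : 0 < b)]
  obtain ⟨s, t, x, x0, st, h1, h2, h3⟩ := h (η ^ 2 / (a + 1)) (by positivity) (by
    rw [div_le_one (by positivity)]; nlinarith)
  have e1 : η ^ 2 / (a + 1) ≤ η := by rw [div_le_iff₀ (by positivity)]; nlinarith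
  have e2 : a * (η ^ 2 / (a + 1)) ≤ η ^ 2 := by
    rw [mul_div_assoc', div_le_iff₀ (by positivity)]; nlinarith
  have e3 : x ≤ 2 * η := by
    by_contra hx
    have : x ^ 2 ≤ η ^ 2 * (1 + x) := h1.trans (by gcongr)
    nlinarith [mul_pos η0 η0, mul_le_mul_of_nonneg_left η2 (mul_nonneg η0.le x0)]
  have e4 : s ≤ 3 * a / κ * η := by
    rw [div_mul_eq_mul_div, le_div_iff₀ hκ]; nlinarith
  have e5 : s + x + η ^ 2 / (a + 1) ≤ b * η := by rw [hb]; linarith
  have e6 : t ≤ a * (b * η) := h3.trans (by gcongr)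
  have e7 : 0 < b * η := by positivity
  rcases st with rfl | rfl
  · nlinarith [mul_pos ha e7, div_pos (mul_pos η0 η0) (by linarith : 0 < a + 1)]
  · nlinarith

end Vale.Agent.P071
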