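import Vale.Agent.P071.Frame
import Vale.Agent.P071.Var

/-! P071 part Main: the eigenfunction has no critical point at the centre of the disc. -/

open MeasureTheory ComplexConjugate Filter Topology Set

noncomputable section
namespace Vale.Agent.P071

variable {φ U ζ ξ V : ℂ → ℂ} {μ : ℝ}

lemma Cl.en (S : Setup φ μ U) (h : Cl ζ) : En φ ζ := ⟨h.1.of_le (by norm_num), h.2.2, h.l2 S⟩

lemma Cl.lin (hf : Cl ζ) (hg : Cl ξ) (a b : ℂ) : Cl fun w => a * ζ w + b * ξ w :=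
  ⟨(contDiffOn_const.mul hf.1).add (contDiffOn_const.mul hg.1),
    ((hf.2.1.cmul a).add' (hg.2.1.cmul b)).congr fun w _ => by simp only; ring,
    ((hf.2.2.cmul a).add' (hg.2.2.cmul b)).congr ((db_lin (hf.1.of_le (by norm_num))
      (hg.1.of_le (by norm_num)) a b).symm.mono diff_subset)⟩

lemma Cl.of_supp {r : ℝ} (hr : r < 1) (h : ContDiffOn ℝ 2 ζ D) (h0 : ∀ w ∈ D, r < ‖w‖ → ζ w = 0) :
    Cl ζ :=
  ⟨h, supp_l2 hr (h.continuousOn.div continuous_dd.continuousOn fun _ hw => dd_ne hw)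
    fun w h1 h2 => by simp [h0 w h1 h2],
    supp_l2 hr (ContDiffOn.db' (m := 0) h isOpen_D (by norm_num)).continuousOn (supp_d h0).2⟩

lemma Pol.cl {P : ℂ → ℂ} (h : Pol P) : Cl (P071.fm P) :=
  ⟨h.fm.smooth.contDiffOn, h.fM.l2.congr fun w hw => by simp [P071.fm, dd_ne hw.1], h.fm.db'.l2⟩

lemma Cl.l2' (h : Cl ζ) : L2 ζ :=
  (h.2.1.mul_cont continuous_dd).congr fun w hw => by simp [mul_div_cancel₀ _ (dd_ne hw.1)]

lemma Cl.tang (S : Setup φ μ U) (h : Cl ζ) : μ * N (fun w => deriv φ w * ζ w) ≤ 4 * N (db ζ) :=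
  P071.tang S ((h.en S).1.mono diff_subset) (h.l2 S) h.2.2 (h.bc S)

lemma fld_En (S : Setup φ μ U) : En φ (Fld φ U) :=
  ⟨(fld_smooth S).of_le (by norm_num), fld_l2' S, fld_l2 S⟩

lemma bc_lin (S : Setup φ μ U) (h : Cl ζ) (s : ℝ) (t : ℂ) :
    BC φ fun w => s * Fld φ U w + t * ζ w := fun θ hθ => by
  have c := h.lin h t 0
  have h1 := ((fld_bc S θ hθ).const_mul s).add (c.bc S θ hθ)
  simp only [mul_zero, zero_mul, add_zero] at h1 c
  refine h1.congr fun k => ?_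
  rw [← Complex.re_ofReal_mul, ← Complex.add_re, ← integral_const_mul, ← integral_add]
  · congr 1
    exact int_congr fun w _ => by simp only; ring
  · exact (((((fld_l2 S).mul_cont hθ.1.cj.cont).mul_cont (db_cut_cont k)).cmul s).int.congr
      (Eventually.of_forall fun w => by simp only; ring))
  · exact ((((c.l2 S).mul_cont hθ.1.cj.cont).mul_cont (db_cut_cont k)).int.congr
      (Eventually.of_forall fun w => by simp only; ring))

/-- Testing the energy form against a compactly supported function. -/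
lemma test_bound (S : Setup φ μ U) (κ : ℝ) {r : ℝ} (hr : r < 1) (h : ContDiffOn ℝ 2 ζ D)
    (h0 : ∀ w ∈ D, r < ‖w‖ → ζ w = 0) : ∃ C : ℝ, 0 ≤ C ∧ ∀ V, ContDiffOn ℝ 1 V D →
      ∀ g : ℂ → ℝ, Integrable g vD → (∀ w, 0 ≤ g w) →
      (∀ w ∈ D \ {0}, ‖w‖ ≤ r → ‖V w‖ ^ 2 ≤ g w) → ‖Bf φ κ ζ V‖ ≤ C * √(∫ w in D, g w) := by
  have c1 := (S.deriv_smooth (n := 0)).continuousOn
  have c2 := (ContDiffOn.cj (S.deriv_smooth (n := 0))).continuousOn
  have s2 := (ContDiffOn.dz' (m := 0) (ContDiffOn.db' (m := 1) h isOpen_D (by norm_num)) isOpen_D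
    (by norm_num)).continuousOn
  have z2 := (supp_d (supp_d h0).2).1
  have l1 := supp_l2 hr s2 z2
  have z3 : ∀ w ∈ D, r < ‖w‖ → conj (deriv φ w) * (deriv φ w * ζ w) = 0 := fun w h1 h2 => by
    simp [h0 w h1 h2]
  have l2 := supp_l2 hr (c2.fun_mul (c1.fun_mul h.continuousOn)) z3
  refine ⟨4 * √(N (dz (db ζ))) + |κ| * √(N fun w => conj (deriv φ w) * (deriv φ w * ζ w)),
    by positivity, fun V hV g g1 g2 g3 => ?_⟩
  have h1 := loc_cs (hV.continuousOn.mono diff_subset) l1 z2 g1 g2 g3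
  have h2 := loc_cs (hV.continuousOn.mono diff_subset) l2 z3 g1 g2 g3
  have e : ip (fun w => deriv φ w * ζ w) (fun w => deriv φ w * V w) =
      ip (fun w => conj (deriv φ w) * (deriv φ w * ζ w)) V :=
    int_congr fun w _ => by simp only [map_mul]; ring
  rw [Bf, supp_ibp hr h h0 hV, e, ← ip_conj V, ← ip_conj V]
  refine (norm_sub_le _ _).trans ?_
  simp only [norm_mul, norm_neg, Complex.norm_conj, Complex.norm_ofNat, Complex.norm_real,
    Real.norm_eq_abs]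
  nlinarith [mul_le_mul_of_nonneg_left h2 (abs_nonneg κ)]

lemma near_norm {x : ℂ} {q ε : ℝ} (hε : 0 < ε)
    (h : ∀ a : ℂ, 2 * (a * x).re ≤ ε ^ 2 + ‖a‖ ^ 2 * q) : ‖x‖ ≤ ε * (1 + q) / 2 := by
  by_cases h0 : x = 0
  · have := h ε
    rw [h0, Complex.norm_real, Real.norm_of_nonneg hε.le] at this
    simp only [mul_zero, Complex.zero_re] at this
    have : 0 ≤ 1 + q := by nlinarith [mul_pos hε hε]
    rw [h0, norm_zero]; positivity
  have x0 : 0 < ‖x‖ := norm_pos_iff.2 h0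
  have := h ((ε / ‖x‖ : ℝ) * conj x)
  rw [mul_assoc, mul_comm (conj x), ← nsq, norm_mul, Complex.norm_conj, Complex.norm_real,
    Real.norm_of_nonneg (by positivity), div_mul_cancel₀ _ x0.ne'] at this
  norm_cast at this
  rw [show ε / ‖x‖ * ‖x‖ ^ 2 = ε * ‖x‖ by field_simp] at this
  nlinarith

lemma rem_arith {c μ x M P B : ℝ} (c0 : 0 < c) (c1 : c ≤ 1) (h1 : c ≤ μ * x ^ 2) :
    (2 * M + 2 * P + B) ^ 2 ≤ 14 / c * (8 * M ^ 2 + μ * (2 * (x ^ 2 * P ^ 2) + x ^ 2 * B ^ 2 / 2)) := by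
  rw [div_mul_eq_mul_div, le_div_iff₀ c0]
  nlinarith [mul_le_mul_of_nonneg_right h1 (sq_nonneg P),
    mul_le_mul_of_nonneg_right h1 (sq_nonneg B), mul_le_mul_of_nonneg_right c1 (sq_nonneg M),
    mul_nonneg c0.le (sq_nonneg (2 * M - 2 * P)), mul_nonneg c0.le (sq_nonneg (2 * M - B)),
    mul_nonneg c0.le (sq_nonneg (2 * P - B)), mul_nonneg c0.le (sq_nonneg P),
    mul_nonneg c0.le (sq_nonneg B), sq_nonneg M]

lemma build (S : Setup φ μ U) {η : ℂ → ℂ} (cη : Cl η) {ε c r : ℝ} (ε0 : 0 < ε) (c0 : 0 < c)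
    (c1' : c ≤ 1) (hc : ∀ w, ‖w‖ ≤ r → c ≤ μ * ‖deriv φ w * dd w‖ ^ 2) :
    ∃ (s : ℝ) (t : ℂ) (P : ℂ → ℂ) (R : ℝ) (g : ℂ → ℝ), 0 ≤ s ∧ s ≤ 1 ∧ ‖t‖ ≤ 1 ∧ (s = 1 ∨ ‖t‖ = 1) ∧
      Pol P ∧ 8 * N (fM P) ≤ R ∧ Integrable g vD ∧ (∀ w, 0 ≤ g w) ∧
      √(∫ w in D, g w) = √(14 / c) * √R ∧
      (∀ w ∈ D \ {0}, ‖w‖ ≤ r → ‖s * Fld φ U w + -t * η w‖ ^ 2 ≤ g w) ∧
      (∀ w ∈ D \ {0}, ‖w‖ ≤ r → ‖s * Fld φ U w + -t * η w - fm P w‖ ^ 2 ≤ ‖w‖ ^ 2 * g w) ∧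
      (Bf φ μ (fm P) (fm P)).re + R - 8 * ε ^ 2 ≤ (Bf φ μ (fun w => s * Fld φ U w + -t * η w)
        fun w => s * Fld φ U w + -t * η w).re := by
  have μ0 := S.pos
  set F := Fld φ U with hF
  have sF : ContDiffOn ℝ 2 F D := fld_smooth S
  have eF : En φ F := fld_En S
  have eη := cη.en S
  set e := √(14 / c)
  obtain ⟨K₁, pK₁, l₁, n₁⟩ := Pol.approx (ContDiffOn.db' sF isOpen_D (by norm_num)) eF.2.1
    (ε := ε ^ 2) (by positivity)
  obtain ⟨K₂, pK₂, l₂, n₂⟩ := Pol.approx (ContDiffOn.db' cη.1 isOpen_D (by norm_num)) eη.2.1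
    (ε := ε ^ 2) (by positivity)
  obtain ⟨P₁, y₁, pP₁, py₁, d₁, f₁⟩ := pK₁.frame
  obtain ⟨P₂, y₂, pP₂, py₂, d₂, f₂⟩ := pK₂.frame
  obtain ⟨s, t, s0, s1, t1, st, h00⟩ := exists_st (F 0 + dz P₁ 0) (η 0 + dz P₂ 0)
  set V := fun w => s * F w + -t * η w with hV
  set P := fun w => s * P₁ w + -t * P₂ w with hP
  have pP : Pol P := (pP₁.cmul _).add (pP₂.cmul _)
  have eV : En φ V := eF.lin eη _ _
  have zl : ∀ {f g : ℂ → ℂ}, Pol f → Pol g → ∀ w,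
      dz (fun w => s * f w + -t * g w) w = s * dz f w + -t * dz g w := fun hf hg w => by
    rw [dz_add ((hf.cmul _).diff w) ((hg.cmul _).diff w), dz_const_mul _ (hf.diff w),
      dz_const_mul _ (hg.diff w)]
  have eE : EqOn (fun w => s * ((db F w + (1 + w * conj w) ^ 2 * K₁ w) / w) +
      -t * ((db η w + (1 + w * conj w) ^ 2 * K₂ w) / w))
      (fun w => (db V w + (1 + w * conj w) ^ 2 * (s * K₁ w + -t * K₂ w)) / w) (D \ {0}) :=
    fun w hw => by simp only [hV, db_lin eF.1 eη.1 s (-t) hw.1]; ring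
  obtain ⟨B, lB, hB, key⟩ := frame S eV.1 eV.2.2 eV.2.1 (bc_lin S cη s (-t)) pP
    ((py₁.cmul s).add (py₂.cmul (-t))) ((pK₁.cmul s).add (pK₂.cmul (-t)))
    (fun w => by rw [zl py₁ py₂, d₁, d₂]) (fun w => by
      have h1 := f₁ w
      have h2 := f₂ w
      simp only [Phi, hP] at h1 h2 ⊢
      rw [db_add ((pP₁.cmul _).diff w) ((pP₂.cmul _).diff w), db_const_mul _ (pP₁.diff w),
        db_const_mul _ (pP₂.diff w)]
      linear_combination s * h1 - t * h2)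
    (by rw [hP, zl pP₁ pP₂]; simp only [hV]; linear_combination h00)
    (((l₁.cmul _).add' (l₂.cmul _)).congr eE)
  have nE : N (fun w => (db V w + (1 + w * conj w) ^ 2 * (s * K₁ w + -t * K₂ w)) / w) ≤
      4 * ε ^ 2 := by
    have h1 := sqrt_N_add (l₁.cmul s) (l₂.cmul (-t))
    rw [N_congr eE, N_const_mul, N_const_mul, norm_neg, Complex.norm_real,
      Real.norm_of_nonneg s0] at h1
    have h2 : ∀ x y : ℝ, 0 ≤ x → x ≤ 1 → y ≤ ε ^ 2 → √(x ^ 2 * y) ≤ ε := fun x y x0 x1 hy =>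
      Real.sqrt_le_iff.2 ⟨ε0.le, by nlinarith [pow_le_one₀ (n := 2) x0 x1, sq_nonneg x, sq_nonneg ε]⟩
    have h3 := h1.trans (add_le_add (h2 _ _ s0 s1 n₁) (h2 _ _ (norm_nonneg _) t1 n₂))
    have h4 := Real.sqrt_le_iff.1 h3
    nlinarith [h4.2]
  -- the positive remainder
  have lP : L2 fun w => deriv φ w * (dd w * P w) :=
    (S.area.mul_cont (Pol.dd.mul pP).cont).congr fun w _ => mul_comm _ _
  have lB' : L2 fun w => deriv φ w * (dd w * B w) :=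
    (lB.mul_cont continuous_dd).congr fun w _ => by simp only; ring
  set R := 8 * N (fM P) + μ * (2 * N (fun w => deriv φ w * (dd w * P w)) +
    N (fun w => deriv φ w * (dd w * B w)) / 2) with hR
  have nM := N_nonneg (fM P)
  have R1 : 8 * N (fM P) ≤ R := by
    have := N_nonneg fun w => deriv φ w * (dd w * P w)
    have := N_nonneg fun w => deriv φ w * (dd w * B w)
    exact le_add_of_nonneg_right (by positivity)
  set g := fun w => 14 / c * (8 * ‖fM P w‖ ^ 2 + μ * (2 * ‖deriv φ w * (dd w * P w)‖ ^ 2 +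
    ‖deriv φ w * (dd w * B w)‖ ^ 2 / 2)) with hg
  have i1 := pP.fM.l2.int_sq.const_mul 8
  have i2 := lP.int_sq.const_mul 2
  have i3 := lB'.int_sq.div_const 2
  have i4 : Integrable (fun w => 2 * ‖deriv φ w * (dd w * P w)‖ ^ 2 +
    ‖deriv φ w * (dd w * B w)‖ ^ 2 / 2) vD := i2.add i3
  have g1 : Integrable g vD := (i1.add ((i2.add i3).const_mul μ)).const_mul _
  have g2 : ∀ w, 0 ≤ g w := fun w => by positivity
  have g3 : √(∫ w in D, g w) = e * √R := by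
    rw [hg, integral_const_mul, integral_add i1 (i4.const_mul μ), integral_const_mul,
      integral_const_mul, integral_add i2 i3, integral_const_mul, integral_div,
      Real.sqrt_mul (by positivity)]
    rfl
  have g4 : ∀ w, ‖w‖ ≤ r → (2 * ‖fM P w‖ + 2 * ‖P w‖ + ‖B w‖) ^ 2 ≤ g w := fun w hw => by
    simp only [hg, ← mul_assoc (deriv φ w), norm_mul (deriv φ w * dd w), mul_pow]
    exact rem_arith c0 c1' (hc w hw)
  have g5 : ∀ w ∈ D \ {0}, ‖w‖ ≤ r → ‖V w‖ ^ 2 ≤ g w := fun w hw hr => by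
    refine le_trans (pow_le_pow_left₀ (norm_nonneg _) ?_ 2) (g4 w hr)
    have h1 := (mem_D.1 hw.1).le
    have h2 : ‖1 + w * conj w‖ ≤ 2 := (norm_add_le _ _).trans (by
      rw [norm_mul, Complex.norm_conj, norm_one]; nlinarith [norm_nonneg w])
    rw [hB w hw]
    refine (norm_add₃_le).trans ?_
    simp only [norm_mul, Complex.norm_conj, Complex.norm_ofNat]
    nlinarith [norm_nonneg (fM P w), norm_nonneg (P w), norm_nonneg (B w)]
  have g6 : ∀ w ∈ D \ {0}, ‖w‖ ≤ r → ‖V w - fm P w‖ ^ 2 ≤ ‖w‖ ^ 2 * g w := fun w hw hr => by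
    refine le_trans ?_ (mul_le_mul_of_nonneg_left (g4 w hr) (sq_nonneg _))
    rw [← mul_pow]
    refine pow_le_pow_left₀ (norm_nonneg _) ?_ 2
    have h1 := (mem_D.1 hw.1).le
    rw [show V w - fm P w = 2 * w * conj w * fM P w + 2 * conj w * P w + w * B w by
      rw [hB w hw, fm, dd]; ring]
    refine (norm_add₃_le).trans ?_
    simp only [norm_mul, Complex.norm_conj, Complex.norm_ofNat]
    nlinarith [mul_nonneg (norm_nonneg w) (norm_nonneg (fM P w))]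
  refine ⟨s, t, P, R, g, s0, s1, t1, st, pP, R1, g1, g2, g3, g5, g6, ?_⟩
  simp only [Bf_self, Complex.ofReal_re]
  linarith

lemma main_ineq (S : Setup φ μ U) {η ν P : ℂ → ℂ} (cη : Cl η) {ε δ κ C s R X : ℝ} {t : ℂ}
    (δ0 : 0 < δ) (δ2 : δ * (μ * C ^ 2) ≤ 4) (hκ : κ = (1 - δ) * μ)
    (hC : ∀ w ∈ D, ‖dd w * deriv φ w‖ ≤ C) (q1 : ∀ ζ, Cl ζ → 0 ≤ (Bf φ κ ζ ζ).re)
    (hη' : ∀ ζ, Cl ζ → ∀ x : ℂ, 2 * (x * (ip ζ ν - Bf φ κ ζ η)).re ≤
      ε ^ 2 + ‖x‖ ^ 2 * (Bf φ κ ζ ζ).re) (t1 : ‖t‖ ≤ 1) (pP : Pol P) (R1 : 8 * N (fM P) ≤ R)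
    (key : (Bf φ μ (fm P) (fm P)).re + R - 8 * ε ^ 2 ≤
      (Bf φ μ (fun w => s * Fld φ U w + -t * η w) fun w => s * Fld φ U w + -t * η w).re)
    (h6 : ‖ip (fun w => 1 * fm P w + t * η w) ν‖ ≤ X) : R ≤ 18 * ε ^ 2 + 4 * X := by
  have μ0 := S.pos
  set F := Fld φ U with hF
  have eF : En φ F := fld_En S
  have eη := cη.en S
  set V := fun w => s * F w + -t * η w with hV
  have eV : En φ V := eF.lin eη _ _
  have cm := pP.cl
  have em := cm.en S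
  have cx := cm.lin cη 1 t
  have h1 : (Bf φ μ V V).re = ‖t‖ ^ 2 * (Bf φ μ η η).re := by
    have z1 : Bf φ μ F F = 0 := by rw [Bf_self, fld_en S]; simp [hF]
    have z2 : Bf φ μ η F = 0 := by rw [Bf, fld_cross S cη, sub_self]
    rw [hV, Bf_lin μ eF eη eV, Bf_lin' μ eF eη eF, Bf_lin' μ eF eη eη, ← Bf_conj μ η F, z1, z2]
    simp only [map_zero, mul_zero, zero_add, map_neg, neg_mul, mul_neg, neg_neg]
    rw [← mul_assoc, ← nsq, ← Complex.ofReal_pow, Complex.re_ofReal_mul]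
  have h2 : (Bf φ μ η η).re ≤ (Bf φ κ η η).re := by
    have := N_nonneg fun w => deriv φ w * η w
    simp only [Bf_self, Complex.ofReal_re, hκ]; nlinarith [mul_pos δ0 μ0]
  have h3 : δ * μ * N (fun w => deriv φ w * fm P w) ≤ 4 * N (fM P) := by
    have := N_mono (f := fun w => deriv φ w * fm P w) pP.fM.l2 C fun w hw => by
      rw [fm, ← mul_assoc, norm_mul, mul_comm (deriv φ w)]; gcongr; exact hC w hw.1
    nlinarith [mul_le_mul_of_nonneg_left this (mul_pos δ0 μ0).le,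
      mul_le_mul_of_nonneg_right δ2 (N_nonneg (fM P))]
  have h4 := hη' _ cx (-conj t)
  have h5 := q1 _ cx
  have h7 : (-conj t * ip (fun w => 1 * fm P w + t * η w) ν).re ≥ -(X) := by
    have := Complex.abs_re_le_norm (-conj t * ip (fun w => 1 * fm P w + t * η w) ν)
    rw [norm_mul, norm_neg, Complex.norm_conj] at this
    have h8 := (abs_le.1 (this.trans ((mul_le_of_le_one_left (norm_nonneg _) t1).trans h6))).1
    exact h8
  have h8 : ‖-conj t‖ ^ 2 * (Bf φ κ (fun w => 1 * fm P w + t * η w)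
      fun w => 1 * fm P w + t * η w).re ≤ (Bf φ κ (fun w => 1 * fm P w + t * η w)
      fun w => 1 * fm P w + t * η w).re :=
    mul_le_of_le_one_left h5 (pow_le_one₀ (norm_nonneg _) (by simpa using t1))
  rw [mul_sub, Complex.sub_re] at h4
  have h9 : (Bf φ κ (fun w => 1 * fm P w + t * η w) fun w => 1 * fm P w + t * η w).re =
      (Bf φ κ (fm P) (fm P)).re - ‖t‖ ^ 2 * (Bf φ κ η η).re -
      2 * (-conj t * Bf φ κ (fun w => 1 * fm P w + t * η w) η).re := by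
    rw [Bf_lin' κ em eη (cx.en S), Bf_lin κ em eη em, Bf_lin κ em eη eη, ← Bf_conj κ (fm P) η,
      ← Complex.re_ofReal_mul, Complex.ofReal_pow, nsq]
    simp; ring
  have h10 : (Bf φ κ (fm P) (fm P)).re = (Bf φ μ (fm P) (fm P)).re +
      δ * μ * N (fun w => deriv φ w * fm P w) := by
    simp only [Bf_self, Complex.ofReal_re, hκ]; ring
  have h11 := mul_le_mul_of_nonneg_left h2 (sq_nonneg ‖t‖)
  linarith

lemma low_bound (S : Setup φ μ U) {r : ℝ} (r0 : 0 < r) (r1 : r < 1) : ∃ c : ℝ, 0 < c ∧ c ≤ 1 ∧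
    ∀ w, ‖w‖ ≤ r → c ≤ μ * ‖deriv φ w * dd w‖ ^ 2 ∧ c ≤ ‖deriv φ w‖ ^ 2 := by
  have μ0 := S.pos
  have c1 := (S.deriv_smooth (n := 0)).continuousOn
  have sub : Metric.closedBall (0 : ℂ) r ⊆ D := Metric.closedBall_subset_ball r1
  obtain ⟨x, hx, hm⟩ := (isCompact_closedBall (0 : ℂ) r).exists_isMinOn ⟨0, by simp [r0.le]⟩
    (((c1.fun_mul continuous_dd.continuousOn).norm.pow 2).mono sub)
  have x0 : 0 < ‖deriv φ x * dd x‖ ^ 2 :=
    pow_pos (norm_pos_iff.2 (mul_ne_zero (S.ne x (sub hx)) (dd_ne (sub hx)))) 2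
  refine ⟨min 1 (min 1 μ * ‖deriv φ x * dd x‖ ^ 2), by positivity, min_le_left _ _,
    fun w hw => ?_⟩
  have h1 : ‖deriv φ x * dd x‖ ^ 2 ≤ ‖deriv φ w * dd w‖ ^ 2 := hm (by simpa using hw)
  have h2 : ‖deriv φ w * dd w‖ ^ 2 ≤ ‖deriv φ w‖ ^ 2 := by
    rw [norm_mul]; gcongr
    exact mul_le_of_le_one_right (norm_nonneg _) (norm_dd_le (sub (by simpa using hw)))
  exact ⟨(min_le_right _ _).trans (mul_le_mul (min_le_right _ _) h1 x0.le μ0.le),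
    (min_le_right _ _).trans ((mul_le_of_le_one_left x0.le (min_le_left _ _)).trans
      (h1.trans h2))⟩

lemma exists_eta (S : Setup φ μ U) {χ ν : ℂ → ℂ} (cχ : Cl χ) {κ δ c r ε : ℝ} (δ0 : 0 < δ) (c0 : 0 < c)
    (ε0 : 0 < ε) (hc : ∀ w, ‖w‖ ≤ r → c ≤ μ * ‖deriv φ w * dd w‖ ^ 2 ∧ c ≤ ‖deriv φ w‖ ^ 2)
    (q0 : ∀ ζ, Cl ζ → δ * μ * N (fun w => deriv φ w * ζ w) ≤ (Bf φ κ ζ ζ).re) (ν1 : L2 ν)
    (ν2 : ∀ w, r < ‖w‖ → ν w = 0) : ∃ η, Cl η ∧ ∀ ζ, Cl ζ → ∀ x : ℂ,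
      2 * (x * (ip ζ ν - Bf φ κ ζ η)).re ≤ ε ^ 2 + ‖x‖ ^ 2 * (Bf φ κ ζ ζ).re := by
  have μ0 := S.pos
  have nν := N_nonneg ν
  obtain ⟨η, cη, hη⟩ := near_max Cl (fun x y w => 1 * x w + 1 * y w) (Bf φ κ) (fun x => ip x ν) χ cχ
    (fun x y hx hy => hx.lin hy 1 1) (fun x y hx hy => by
      rw [Bf_lin κ (hx.en S) (hy.en S) ((hx.lin hy 1 1).en S), Bf_lin' κ (hx.en S) (hy.en S) (hx.en S),
        Bf_lin' κ (hx.en S) (hy.en S) (hy.en S), ← Bf_conj κ y x]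
      simp; ring)
    (fun x y hx hy => by simp only [one_mul]; exact ip_add_left hx.l2' hy.l2' ν1)
    (C := (N ν + 1) / (c * (δ * μ))) (by positivity) (fun x hx => by
      have h1 := loc_cs (r := r) (hx.1.continuousOn.mono diff_subset) ν1 (fun w _ => ν2 w)
        (g := fun w => c⁻¹ * ‖deriv φ w * x w‖ ^ 2) ((hx.l2 S).int_sq.const_mul _)
        (fun _ => by positivity) fun w _ hw => by
          rw [norm_mul, mul_pow, ← mul_assoc]
          exact le_mul_of_one_le_left (by positivity) ((one_le_inv_mul₀ c0).2 (hc w hw).2)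
      rw [integral_const_mul] at h1
      have n1 := N_nonneg fun w => deriv φ w * x w
      have h2 : ‖ip x ν‖ ^ 2 ≤ c⁻¹ * N (fun w => deriv φ w * x w) * N ν := by
        refine (pow_le_pow_left₀ (norm_nonneg _) h1 2).trans (le_of_eq ?_)
        rw [mul_pow, Real.sq_sqrt nν]
        exact congrArg (· * N ν) (Real.sq_sqrt (mul_nonneg (by positivity) n1))
      calc _ ≤ c⁻¹ * N (fun w => deriv φ w * x w) * (N ν + 1) := h2.trans (by gcongr; linarith)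
        _ = (N ν + 1) / (c * (δ * μ)) * (δ * μ * N fun w => deriv φ w * x w) := by field_simp
        _ ≤ _ := by gcongr; exact q0 x hx) (τ := ε ^ 2) (by positivity)
  have eη := cη.en S
  have hη' : ∀ ζ, Cl ζ → ∀ x : ℂ, 2 * (x * (ip ζ ν - Bf φ κ ζ η)).re ≤
      ε ^ 2 + ‖x‖ ^ 2 * (Bf φ κ ζ ζ).re := fun ζ h x => by
    have := hη _ (h.lin h x 0)
    rw [Bf_lin κ (h.en S) (h.en S) eη, Bf_lin κ (h.en S) (h.en S) ((h.lin h x 0).en S),
      Bf_lin' κ (h.en S) (h.en S) (h.en S)] at this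
    simp only [zero_mul, add_zero, ip_mul_left, map_zero] at this
    rwa [← mul_sub, ← mul_assoc, ← nsq, ← Complex.ofReal_pow, Complex.re_ofReal_mul] at this
  exact ⟨η, cη, hη'⟩

lemma arith₁ {R L e a ε : ℝ} (ε0 : 0 < ε) (ε1 : ε ≤ 1) (R0 : 0 ≤ R)
    (h : R ≤ 18 * ε ^ 2 + 4 * (L * ε + e * √R * ε)) (h1 : 18 + 4 * L ≤ a) (h2 : 4 * e ≤ a) :
    √R ^ 2 ≤ a * ε * (1 + √R) := by
  rw [Real.sq_sqrt R0]
  nlinarith [mul_le_mul_of_nonneg_right h1 ε0.le,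
    mul_le_mul_of_nonneg_right h2 (mul_nonneg ε0.le (Real.sqrt_nonneg R))]

lemma arith₂ {s k C e x ε L q a : ℝ} {t y z : ℂ} (s0 : 0 ≤ s) (k0 : 0 ≤ k) (t1 : ‖t‖ ≤ 1)
    (ε0 : 0 < ε) (x0 : 0 ≤ x) (h1 : ‖conj (s : ℂ) * k + conj (-t) * y‖ ≤ C * (e * x))
    (h2 : ‖z - y‖ ≤ ε * (1 + q) / 2) (h3 : ‖z‖ ≤ L * ε) (h13 : C * e ≤ a)
    (h14 : L + (1 + q) / 2 ≤ a) : k * s ≤ a * (x + ε) := by
  have h4 : ‖y‖ ≤ L * ε + ε * (1 + q) / 2 := by linarith [norm_sub_norm_le y z, norm_sub_rev y z]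
  have h5 := norm_sub_le (conj (s : ℂ) * k + conj (-t) * y) (conj (-t) * y)
  rw [add_sub_cancel_right, norm_mul, norm_mul, Complex.norm_conj, Complex.norm_conj, norm_neg,
    Complex.norm_real, Complex.norm_real, Real.norm_of_nonneg s0, Real.norm_of_nonneg k0] at h5
  have h6 := mul_le_of_le_one_left (norm_nonneg y) t1
  nlinarith [mul_le_mul_of_nonneg_right h13 x0, mul_le_mul_of_nonneg_right h14 ε0.le]

lemma arith₃ {s C e x ε L q a : ℝ} {t k y z : ℂ} (s0 : 0 ≤ s) (t1 : ‖t‖ ≤ 1)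
    (ε0 : 0 < ε) (x0 : 0 ≤ x) (h1 : ‖conj (s : ℂ) * k + conj (-t) * y‖ ≤ C * (e * x))
    (h2 : ‖z - y‖ ≤ ε * (1 + q) / 2) (h3 : ‖z - 1‖ ≤ L * ε) (h13 : C * e ≤ a)
    (h14 : L + (1 + q) / 2 ≤ a) (h15 : ‖k‖ ≤ a) : ‖t‖ ≤ a * (s + x + ε) := by
  have h4 : ‖1 - y‖ ≤ L * ε + ε * (1 + q) / 2 := by
    have := norm_sub_le (z - y) (z - 1)
    rw [show z - y - (z - 1) = 1 - y by ring] at this
    linarith
  have h5 := norm_add₃_le (a := -(conj (s : ℂ) * k + conj (-t) * y)) (b := conj (s : ℂ) * k)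
    (c := conj t * (1 - y))
  rw [show -(conj (s : ℂ) * k + conj (-t) * y) + conj (s : ℂ) * k + conj t * (1 - y) = conj t by
    rw [map_neg]; ring, norm_neg, norm_mul, norm_mul,
    Complex.norm_conj, Complex.norm_conj, Complex.norm_real, Real.norm_of_nonneg s0] at h5
  have h6 := mul_le_of_le_one_left (norm_nonneg (1 - y)) t1
  nlinarith [mul_le_mul_of_nonneg_right h13 x0, mul_le_mul_of_nonneg_right h14 ε0.le,
    mul_le_mul_of_nonneg_right h15 s0]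

theorem core (S : Setup φ μ U) (hU : ∃ w ∈ D, U w ≠ 0) : dz U 0 ≠ 0 := by
  intro h0
  have μ0 := S.pos
  set F := Fld φ U with hF
  have F0 : F 0 = 0 := by simp [hF, Fld, h0]
  have sF : ContDiffOn ℝ 2 F D := fld_smooth S
  have eF : En φ F := fld_En S
  obtain ⟨w₁, hw₁, F1⟩ := fld_ne S hU
  have w0 : 0 < ‖w₁‖ := norm_pos_iff.2 fun h => F1 (h ▸ F0)
  have w1 := mem_D.1 hw₁
  set r := (1 + ‖w₁‖) / 2 with hr
  have r1 : r < 1 := by linarith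
  have r0 : 0 < r := by linarith
  let b : ContDiffBump (0 : ℂ) := ⟨‖w₁‖, r, w0, by linarith⟩
  set χ : ℂ → ℂ := fun w => (b w : ℂ) with hχ
  have sχ : ContDiff ℝ 2 χ := Complex.ofRealCLM.contDiff.comp b.contDiff
  have χ0 : χ 0 = 1 := by simp [hχ, b.one_of_mem_closedBall (x := 0) (by simp [b])]
  have χ1 : χ w₁ = 1 := by simp [hχ, b.one_of_mem_closedBall (x := w₁) (by simp [b])]
  have χz : ∀ w ∈ D, r < ‖w‖ → χ w = 0 := fun w _ h => by
    simp [hχ, b.zero_of_le_dist (x := w) (by simpa [b] using h.le)]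
  set ζ₁ := fun w => χ w * (χ w * F w) with hζ
  have sζ : ContDiffOn ℝ 2 ζ₁ D := sχ.contDiffOn.mul (sχ.contDiffOn.mul sF)
  have ζz : ∀ w ∈ D, r < ‖w‖ → ζ₁ w = 0 := fun w h1 h2 => by simp [hζ, χz w h1 h2]
  have cζ := Cl.of_supp r1 sζ ζz
  have cχ := Cl.of_supp r1 sχ.contDiffOn χz
  have c1 := (S.deriv_smooth (n := 0)).continuousOn
  -- constants
  obtain ⟨C, C0, hC⟩ := S.deriv_bound
  set δ := min 1 (4 / (μ * C ^ 2)) with hδ
  have δ0 : 0 < δ := by positivity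
  have δ1 : δ ≤ 1 := min_le_left _ _
  have δ2 : δ * (μ * C ^ 2) ≤ 4 := (le_div_iff₀ (by positivity)).1 (min_le_right _ _)
  set κ := (1 - δ) * μ with hκ
  obtain ⟨c, c0, c1', hc⟩ := low_bound S r0 r1
  have lin : ∀ f : ℂ → ℂ, ContDiffOn ℝ 2 f D → f 0 = 0 → ∃ L : ℝ, 0 ≤ L ∧ ∀ (ε : ℝ) (ν : ℂ → ℂ),
      0 ≤ ε → L2 ν → (∀ w, r < ‖w‖ → ν w = 0) → N (fun w => conj w * ν w) ≤ ε ^ 2 →
      ‖ip f ν‖ ≤ L * ε := fun f hf f0 => by
    obtain ⟨L, L0, hL⟩ := lin_bound (hf.of_le (by norm_num)) f0 r1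
    refine ⟨_, Real.sqrt_nonneg _, fun ε ν h1 h2 h3 h4 => nu_cs h1
      (hf.continuousOn.mono diff_subset) h2 h3 h4 (g := fun _ => L ^ 2) (integrable_const _)
      (fun _ => by positivity) fun w _ hw => ?_⟩
    rw [← mul_pow, mul_comm]; gcongr; exact hL w hw
  obtain ⟨L₀, L0, hL₀⟩ := lin F sF F0
  obtain ⟨L₁, L1, hL₁⟩ := lin ζ₁ sζ (by simp [hζ, F0])
  obtain ⟨L₂, L2', hL₂⟩ := lin (fun w => χ w - 1) (sχ.contDiffOn.sub contDiffOn_const) (by simp [χ0])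
  obtain ⟨C₁, C1, hC₁⟩ := test_bound S κ r1 sζ ζz
  obtain ⟨C₂, C2, hC₂⟩ := test_bound S κ r1 sχ.contDiffOn χz
  have q0 : ∀ ζ, Cl ζ → δ * μ * N (fun w => deriv φ w * ζ w) ≤ (Bf φ κ ζ ζ).re := fun ζ h => by
    rw [Bf_self, Complex.ofReal_re, hκ]; linarith [h.tang S]
  have q1 : ∀ ζ, Cl ζ → 0 ≤ (Bf φ κ ζ ζ).re := fun ζ h =>
    le_trans (by have := N_nonneg fun w => deriv φ w * ζ w; positivity) (q0 ζ h)
  have cross : ∀ ζ, Cl ζ → ∀ k : ℝ, Bf φ k ζ F =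
      (μ - k : ℝ) * ip (fun w => deriv φ w * ζ w) fun w => deriv φ w * F w := fun ζ h k => by
    rw [Bf, fld_cross S h]; push_cast; ring
  have κ1 : 0 < N fun w => deriv φ w * (χ w * F w) :=
    N_pos (c1.fun_mul (sχ.continuous.continuousOn.fun_mul sF.continuousOn))
      ((eF.2.2.mul_cont sχ.continuous).congr fun w _ => by simp only; ring) hw₁
      (mul_ne_zero (S.ne w₁ hw₁) (by rw [χ1, one_mul]; exact F1))
  have κ2 : Bf φ κ ζ₁ F = (δ * μ * N fun w => deriv φ w * (χ w * F w) : ℝ) := by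
    rw [cross _ cζ, hκ]; push_cast; rw [← ip_self]
    congr 1
    · ring
    · refine int_congr fun w _ => ?_
      simp only [hζ, hχ, map_mul, Complex.conj_ofReal]; ring
  set e := √(14 / c) with he
  have e0 : 0 ≤ e := Real.sqrt_nonneg _
  obtain ⟨a, a0, a1', a2', a3', a4', a5', a6', a7'⟩ : ∃ a : ℝ, 0 < a ∧ 18 + 4 * L₀ ≤ a ∧ 4 * e ≤ a ∧
      C₁ * e ≤ a ∧ L₁ + (1 + (Bf φ κ ζ₁ ζ₁).re) / 2 ≤ a ∧ C₂ * e ≤ a ∧
      L₂ + (1 + (Bf φ κ χ χ).re) / 2 ≤ a ∧ ‖Bf φ κ χ F‖ ≤ a := by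
    have qζ := q1 _ cζ
    have qχ := q1 _ cχ
    have n0 := norm_nonneg (Bf φ κ χ F)
    have ce1 := mul_nonneg C1 e0
    have ce2 := mul_nonneg C2 e0
    refine ⟨18 + 4 * L₀ + 4 * e + C₁ * e + C₂ * e + L₁ + L₂ + (1 + (Bf φ κ ζ₁ ζ₁).re) +
      (1 + (Bf φ κ χ χ).re) + ‖Bf φ κ χ F‖, ?_, ?_, ?_, ?_, ?_, ?_, ?_, ?_⟩ <;> linarith
  refine final_arith a0 (mul_pos (mul_pos δ0 μ0) κ1) fun ε ε0 ε1 => ?_
  obtain ⟨ν, ν1, ν2, ν3, ν4⟩ := exists_nu r0 r1 ε0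
  obtain ⟨η, cη, hη'⟩ := exists_eta S cχ δ0 c0 ε0 hc q0 ν1 ν2
  have eη := cη.en S
  obtain ⟨s, t, P, R, g, s0, s1, t1, st, pP, R1, g1, g2, g3, g5, g6, key⟩ :=
    build S cη ε0 c0 c1' fun w hw => (hc w hw).1
  set V := fun w => s * F w + -t * η w with hV
  have eV : En φ V := eF.lin eη _ _
  have R0 : 0 ≤ R := by linarith [N_nonneg (fM P)]
  have sR := Real.sqrt_nonneg R
  refine ⟨s, ‖t‖, √R, sR, st, ?_, ?_, ?_⟩
  · -- the main inequality
    have h6 : ‖ip (fun w => 1 * fm P w + t * η w) ν‖ ≤ L₀ * ε + e * √R * ε := by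
      have a1 := hL₀ ε ν ε0.le ν1 ν2 ν4
      have a2 := nu_cs ε0.le ((eV.1.continuousOn.sub pP.fm.cont.continuousOn).mono diff_subset)
        ν1 ν2 ν4 g1 g2 g6
      rw [g3] at a2
      have i4 : ∀ f : ℂ → ℂ, ContinuousOn f D → Integrable (fun w => f w * conj (ν w)) vD :=
        fun f hf => by
          obtain ⟨M, hM⟩ := (isCompact_closedBall (0 : ℂ) r).exists_bound_of_continuousOn
            (hf.mono (Metric.closedBall_subset_ball r1))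
          refine (ν1.int.norm.const_mul M).mono' ((aesm_of_cont' hf).mul ν1.cj.1)
            (Eventually.of_forall fun w => ?_)
          rw [norm_mul, Complex.norm_conj]
          rcases le_or_gt ‖w‖ r with h | h
          · gcongr; exact hM w (by simpa using h)
          · simp [ν2 w h]
      have e1 : ip (fun w => 1 * fm P w + t * η w) ν = s * ip F ν - ip (V - fm P) ν := by
        rw [← ip_mul_left, ip, ip, ip, ← integral_sub (i4 _ (continuousOn_const.fun_mul sF.continuousOn))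
          (i4 _ (eV.1.continuousOn.sub pP.fm.cont.continuousOn))]
        refine int_congr fun w _ => ?_
        simp only [hV, Pi.sub_apply]; ring
      rw [e1]
      refine (norm_sub_le _ _).trans (add_le_add ?_ a2)
      rw [norm_mul, Complex.norm_real, Real.norm_of_nonneg s0]
      exact (mul_le_of_le_one_left (norm_nonneg _) s1).trans a1
    exact arith₁ ε0 ε1 R0 (main_ineq S cη δ0 δ2 hκ hC q1 hη' t1 pP R1 key h6) a1' a2'
  · have h1 := hC₁ V eV.1 g g1 g2 g5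
    rw [g3, hV, Bf_lin' κ eF eη (cζ.en S), κ2] at h1
    exact arith₂ s0 (mul_pos (mul_pos δ0 μ0) κ1).le t1 ε0 sR h1 (near_norm ε0 (hη' _ cζ))
      (hL₁ ε ν ε0.le ν1 ν2 ν4) a3' a4'
  · have h1 := hC₂ V eV.1 g g1 g2 g5
    rw [g3, hV, Bf_lin' κ eF eη (cχ.en S)] at h1
    have h3 := hL₂ ε ν ε0.le ν1 ν2 ν4
    rw [ip_sub_left cχ.l2' (Pol.const 1).l2 ν1, ν3] at h3
    exact arith₃ s0 t1 ε0 sR h1 (near_norm ε0 (hη' _ cχ)) h3 a5' a6' a7'

end Vale.Agent.P071
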