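import Vale.Agent.P071.PoincA

/-! P071 part Poinc: the Poincare inequality on a bounded Lipschitz domain. -/

open MeasureTheory

namespace Vale.Agent.P071

namespace PoincAux

open Set Metric
open scoped ENNReal

/-- the abstract translation bound -/
def Tr (Ω : Set ℂ) (V : ℂ → ℝ) (E : ℝ≥0∞) : Prop :=
  Measurable V ∧ ∀ A : Set ℂ, IsOpen A → ∀ h : ℂ, (∀ x ∈ A, ∀ t ∈ Icc (0 : ℝ) 1, x + t • h ∈ Ω) →
    ∫⁻ x in A, ENNReal.ofReal ((V (x + h) - V x) ^ 2) ≤ ENNReal.ofReal (‖h‖ ^ 2) * E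

/-- Poincare on the piece `A`, with centre `m` -/
def P (Ω : Set ℂ) (m : (ℂ → ℝ) → ℝ≥0∞ → ℝ) (A : Set ℂ) : Prop :=
  ∃ C : ℝ≥0∞, C ≠ ⊤ ∧ ∀ V E, Tr Ω V E → ∫⁻ x in A, ENNReal.ofReal ((V x - m V E) ^ 2) ≤ C * E

variable {Ω : Set ℂ} {m : (ℂ → ℝ) → ℝ≥0∞ → ℝ}

lemma P.mono {A B : Set ℂ} (h : P Ω m B) (hAB : A ⊆ B) : P Ω m A := by
  obtain ⟨C, hC, h⟩ := h
  exact ⟨C, hC, fun V E hV => (lintegral_mono_set hAB).trans (h V E hV)⟩

lemma P.empty : P Ω m ∅ := ⟨0, by simp, fun V E _ => by simp⟩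

lemma P.union {A B : Set ℂ} (hA : P Ω m A) (hB : P Ω m B) : P Ω m (A ∪ B) := by
  obtain ⟨C, hC, hA⟩ := hA
  obtain ⟨D, hD, hB⟩ := hB
  refine ⟨C + D, by simp [hC, hD], fun V E hV => (lintegral_union_le _ _ _).trans ?_⟩
  rw [add_mul]
  exact add_le_add (hA V E hV) (hB V E hV)

lemma P.compact {K S : Set ℂ} (hK : IsCompact K)
    (h : ∀ x ∈ K, ∃ r > 0, P Ω m (S ∩ ball x r)) : P Ω m (S ∩ K) := by
  refine hK.induction_on (p := fun s => P Ω m (S ∩ s)) (by simpa using P.empty)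
    (fun s t hst ht => ht.mono (inter_subset_inter_right _ hst))
    (fun s t hs ht => by rw [inter_union_distrib_left]; exact hs.union ht) fun x hx => ?_
  obtain ⟨r, hr, hP⟩ := h x hx
  exact ⟨ball x r, mem_nhdsWithin_of_mem_nhds (ball_mem_nhds x hr), hP⟩

lemma P.shift {A B : Set ℂ} (hA : IsOpen A) (hB : P Ω m B) (h : ℂ) (hAB : ∀ x ∈ A, x + h ∈ B)
    (hseg : ∀ x ∈ A, ∀ t ∈ Icc (0 : ℝ) 1, x + t • h ∈ Ω) : P Ω m A := by
  obtain ⟨C, hC, hB⟩ := hB
  refine ⟨2 * ENNReal.ofReal (‖h‖ ^ 2) + 2 * C, by finiteness, fun V E hV => ?_⟩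
  have hm := hV.1
  have h1 := hV.2 A hA h hseg
  have h2 : ∫⁻ x in A, ENNReal.ofReal ((V (x + h) - m V E) ^ 2) ≤ C * E := by
    refine le_trans ?_ (hB V E hV)
    have hA' : MeasurableSet ((fun x => x - h) ⁻¹' A) :=
      hA.measurableSet.preimage (by fun_prop)
    have := (measurePreserving_add_right volume h).setLIntegral_comp_preimage hA'
      (f := fun x => ENNReal.ofReal ((V x - m V E) ^ 2)) (by fun_prop)
    have e : (fun x => x + h) ⁻¹' ((fun x => x - h) ⁻¹' A) = A := by ext; simp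
    rw [e] at this
    rw [this]
    refine lintegral_mono_set fun y hy => ?_
    simpa using hAB _ hy
  calc ∫⁻ x in A, ENNReal.ofReal ((V x - m V E) ^ 2)
      ≤ ∫⁻ x in A, (2 * ENNReal.ofReal ((V (x + h) - V x) ^ 2) +
          2 * ENNReal.ofReal ((V (x + h) - m V E) ^ 2)) := by
        refine lintegral_mono fun x => ?_
        rw [← mul_add, ← ENNReal.ofReal_add (sq_nonneg _) (sq_nonneg _),
          ← ENNReal.ofReal_ofNat, ← ENNReal.ofReal_mul (by norm_num)]
        refine ENNReal.ofReal_le_ofReal ?_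
        nlinarith [sq_nonneg (V (x + h) - V x + (V (x + h) - m V E))]
    _ = 2 * (∫⁻ x in A, ENNReal.ofReal ((V (x + h) - V x) ^ 2)) +
          2 * ∫⁻ x in A, ENNReal.ofReal ((V (x + h) - m V E) ^ 2) := by
        rw [lintegral_add_left (by fun_prop), lintegral_const_mul _ (by fun_prop),
          lintegral_const_mul _ (by fun_prop)]
    _ ≤ 2 * (ENNReal.ofReal (‖h‖ ^ 2) * E) + 2 * (C * E) := by gcongr
    _ = _ := by ring

lemma exists_base {x₀ : ℂ} {r : ℝ} (hr : 0 < r) (hΩ : ball x₀ (3 * r) ⊆ Ω) :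
    ∃ m, P Ω m (ball x₀ r) := by
  have hv0 : volume (ball x₀ r) ≠ 0 := (measure_ball_pos _ _ hr).ne'
  have hv1 : volume (ball x₀ r) ≠ ⊤ := measure_ball_lt_top.ne
  have key : ∀ V E, ∃ c : ℝ, Tr Ω V E → ∫⁻ y in ball x₀ r, ENNReal.ofReal ((V y - c) ^ 2) ≤
      (ENNReal.ofReal ((2 * r) ^ 2) * volume (ball (0 : ℂ) (2 * r)) / volume (ball x₀ r)) * E := by
    intro V E
    by_cases hV : Tr Ω V E
    swap
    · exact ⟨0, fun h => absurd h hV⟩
    have hm := hV.1
    have hF : Measurable fun x => ∫⁻ y in ball x₀ r, ENNReal.ofReal ((V y - V x) ^ 2) :=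
      Measurable.lintegral_prod_right' (f := fun p : ℂ × ℂ => ENNReal.ofReal ((V p.2 - V p.1) ^ 2))
        (by fun_prop)
    obtain ⟨x, -, hx⟩ := exists_le_setLAverage hv0 hv1 hF.aemeasurable
    refine ⟨V x, fun _ => hx.trans ?_⟩
    rw [setLAverage_eq, ENNReal.div_eq_inv_mul, ENNReal.div_eq_inv_mul, mul_assoc]
    refine mul_le_mul_right ?_ _
    calc ∫⁻ x in ball x₀ r, ∫⁻ y in ball x₀ r, ENNReal.ofReal ((V y - V x) ^ 2)
        ≤ ∫⁻ x in ball x₀ r, ∫⁻ h in ball (0 : ℂ) (2 * r),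
            ENNReal.ofReal ((V (x + h) - V x) ^ 2) := by
          refine setLIntegral_mono' measurableSet_ball fun x hx => ?_
          have := (measurePreserving_add_left volume x).setLIntegral_comp_preimage
            (s := ball x₀ r) measurableSet_ball
            (f := fun y => ENNReal.ofReal ((V y - V x) ^ 2)) (by fun_prop)
          rw [← this]
          refine lintegral_mono_set fun h hh => ?_
          simp only [mem_preimage, mem_ball, dist_eq_norm, sub_zero] at hh hx ⊢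
          calc ‖h‖ = ‖(x + h - x₀) - (x - x₀)‖ := by congr 1; ring
            _ ≤ _ := norm_sub_le _ _
            _ < 2 * r := by linarith
      _ = ∫⁻ h in ball (0 : ℂ) (2 * r), ∫⁻ x in ball x₀ r,
            ENNReal.ofReal ((V (x + h) - V x) ^ 2) :=
          lintegral_lintegral_swap (Measurable.aemeasurable (by
            change Measurable fun p : ℂ × ℂ => ENNReal.ofReal ((V (p.1 + p.2) - V p.1) ^ 2)
            fun_prop))
      _ ≤ ∫⁻ _ in ball (0 : ℂ) (2 * r), ENNReal.ofReal ((2 * r) ^ 2) * E := by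
          refine setLIntegral_mono' measurableSet_ball fun h hh => ?_
          have hh' : ‖h‖ < 2 * r := by simpa using hh
          refine (hV.2 _ isOpen_ball h fun x hx t ht => hΩ ?_).trans ?_
          · rw [mem_ball, dist_eq_norm] at hx ⊢
            calc ‖x + t • h - x₀‖ = ‖(x - x₀) + t • h‖ := by congr 1; ring
              _ ≤ ‖x - x₀‖ + ‖t • h‖ := norm_add_le _ _
              _ < 3 * r := by
                rw [norm_smul, Real.norm_of_nonneg ht.1]
                nlinarith [ht.1, ht.2, norm_nonneg h]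
          · gcongr
      _ = _ := by rw [setLIntegral_const]; ring
  choose m hm using key
  exact ⟨m, _, by finiteness, hm⟩

lemma interior_all (hO : IsOpen Ω) (hc : IsConnected Ω) :
    ∃ m, ∀ y ∈ Ω, ∃ r > 0, P Ω m (ball y r) := by
  obtain ⟨x₀, hx₀⟩ := hc.nonempty
  obtain ⟨s₀, hs₀, hb₀⟩ := Metric.isOpen_iff.1 hO x₀ hx₀
  obtain ⟨m, hm⟩ := exists_base (Ω := Ω) (x₀ := x₀) (r := s₀ / 3) (by positivity)
    (by rwa [mul_div_cancel₀ _ (by norm_num)])
  refine ⟨m, ?_⟩
  have hU : IsOpen {y | ∃ r > 0, P Ω m (ball y r)} := by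
    refine Metric.isOpen_iff.2 ?_
    rintro y ⟨r, hr, hP⟩
    refine ⟨r, hr, fun z hz => ⟨r - dist z y, by simpa using hz, hP.mono ?_⟩⟩
    exact ball_subset_ball' (by linarith)
  refine hc.isPreconnected.subset_of_closure_inter_subset hU
    ⟨x₀, hx₀, s₀ / 3, by positivity, hm⟩ ?_
  rintro y ⟨hy, hyΩ⟩
  obtain ⟨s, hs, hb⟩ := Metric.isOpen_iff.1 hO y hyΩ
  obtain ⟨z, ⟨r, hr, hP⟩, hz⟩ := Metric.mem_closure_iff.1 hy (s / 2) (by positivity)
  refine ⟨min r (s / 2), by positivity, hP.shift isOpen_ball (z - y) ?_ ?_⟩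
  · intro x hx
    rw [mem_ball, dist_eq_norm] at hx ⊢
    rw [show x + (z - y) - z = x - y by ring]
    exact hx.trans_le (min_le_left _ _)
  · intro x hx t ht
    refine hb ?_
    rw [mem_ball, dist_eq_norm] at hx ⊢
    rw [dist_comm, dist_eq_norm] at hz
    calc ‖x + t • (z - y) - y‖ = ‖(x - y) + t • (z - y)‖ := by congr 1; ring
      _ ≤ ‖x - y‖ + ‖t • (z - y)‖ := norm_add_le _ _
      _ < s := by
        rw [norm_smul, Real.norm_of_nonneg ht.1]
        nlinarith [ht.1, ht.2, norm_nonneg (z - y), min_le_right r (s / 2)]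

lemma whole (hO : IsOpen Ω) (hb : Bornology.IsBounded Ω) (hc : IsConnected Ω) (hL : LipBdry Ω) :
    ∃ m, P Ω m Ω := by
  obtain ⟨m, hm⟩ := interior_all hO hc
  refine ⟨m, ?_⟩
  have hK : ∀ K, IsCompact K → K ⊆ Ω → P Ω m K := fun K hK hKΩ => by
    have := P.compact (Ω := Ω) (m := m) (S := univ) hK fun x hx => by simpa using hm x (hKΩ hx)
    simpa using this
  have := P.compact (Ω := Ω) (m := m) (S := Ω) hb.isCompact_closure fun p hp => ?_
  · exact this.mono fun x hx => ⟨hx, subset_closure hx⟩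
  by_cases hpΩ : p ∈ Ω
  · obtain ⟨r, hr, hP⟩ := hm p hpΩ
    exact ⟨r, hr, hP.mono inter_subset_right⟩
  obtain ⟨r, hr, e, he, L, γ, hγ, hchart⟩ := hL p ⟨hp, by rwa [hO.interior_eq]⟩
  set h : ℂ := ((r / 3 : ℝ) : ℂ) * Complex.I * (starRingEnd ℂ) e with hh
  have hee : e * (starRingEnd ℂ) e = 1 := by rw [Complex.mul_conj', he]; simp
  have hn : ‖h‖ = r / 3 := by
    simp only [hh, norm_mul, Complex.norm_real, Complex.norm_I, Complex.norm_conj, he, mul_one]
    exact Real.norm_of_nonneg (by positivity)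
  have heh : ∀ (z : ℂ) (t : ℝ), e * (z + t • h) = e * z + ((t * (r / 3) : ℝ) : ℂ) * Complex.I := by
    intro z t
    rw [hh, Complex.real_smul]
    push_cast
    linear_combination (t * (r / 3) * Complex.I) * hee
  have hin : ∀ z ∈ closedBall p (r / 3), ∀ t ∈ Icc (0 : ℝ) 1,
      γ (e * z).re < (e * z).im + t * (r / 3) → z + t • h ∈ Ω := by
    intro z hz t ht hlt
    refine (hchart _ ?_).2 ?_
    · rw [mem_closedBall, dist_eq_norm] at hz
      rw [mem_ball, dist_eq_norm]
      calc ‖z + t • h - p‖ = ‖(z - p) + t • h‖ := by congr 1; ring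
        _ ≤ ‖z - p‖ + ‖t • h‖ := norm_add_le _ _
        _ < r := by
          rw [norm_smul, Real.norm_of_nonneg ht.1, hn]
          nlinarith [ht.1, ht.2]
    · rw [heh]
      simpa using hlt
  have hγc := hγ.continuous
  have hcomp : IsCompact ((fun z => z + h) ''
      (closedBall p (r / 3) ∩ {z | γ (e * z).re ≤ (e * z).im})) :=
    ((isCompact_closedBall _ _).inter_right (isClosed_le (by fun_prop) (by fun_prop))).image
      (by fun_prop)
  have hlt : ∀ z ∈ Ω ∩ ball p (r / 3), γ (e * z).re < (e * z).im := fun z hz =>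
    (hchart z (ball_subset_ball (by linarith) hz.2)).1 hz.1
  refine ⟨r / 3, by positivity, (hK _ hcomp ?_).shift (hO.inter isOpen_ball) h ?_ ?_⟩
  · rintro _ ⟨z, ⟨hz, hz'⟩, rfl⟩
    have := hin z hz 1 ⟨zero_le_one, le_rfl⟩ (by simp only [mem_setOf_eq] at hz'; linarith)
    simpa using this
  · intro z hz
    exact ⟨z, ⟨ball_subset_closedBall hz.2, (hlt z hz).le⟩, rfl⟩
  · intro z hz t ht
    refine hin z (ball_subset_closedBall hz.2) t ht ?_
    have := hlt z hz
    have : 0 ≤ t * (r / 3) := mul_nonneg ht.1 (by positivity)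
    linarith

lemma setInt_test {Ω : Set ℂ} (hO : IsOpen Ω) (f : ℂ → ℝ) (φ : ℂ → ℝ) :
    ∫ z, Ω.indicator f z * φ z = ∫ z in Ω, f z * φ z := by
  rw [← integral_indicator hO.measurableSet]
  refine integral_congr_ae (ae_of_all _ fun z => ?_)
  by_cases hz : z ∈ Ω <;> simp [hz]

lemma H1_Tr (hO : IsOpen Ω) (hb : Bornology.IsBounded Ω) {v g₁ g₂ : ℂ → ℝ} (h : H1 Ω v g₁ g₂) :
    ∃ V, V =ᵐ[volume.restrict Ω] v ∧ Tr Ω V (ENNReal.ofReal (∫ z in Ω, (g₁ z ^ 2 + g₂ z ^ 2))) := by
  obtain ⟨hv, h1, h2, hw⟩ := h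
  have hm := hO.measurableSet
  haveI : IsFiniteMeasure (volume.restrict Ω) := ⟨by simpa using hb.measure_lt_top⟩
  set v' := hv.1.mk v
  have hvv : v =ᵐ[volume.restrict Ω] v' := hv.1.ae_eq_mk
  have hv' : MemLp v' 2 (volume.restrict Ω) := hv.ae_eq hvv
  have hW : Wk Ω (Ω.indicator v') (Ω.indicator g₁) (Ω.indicator g₂) := by
    refine ⟨(integrable_indicator_iff hm).2 (hv'.integrable (by norm_num)),
      (memLp_indicator_iff_restrict hm).2 hv', (memLp_indicator_iff_restrict hm).2 h1,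
      (memLp_indicator_iff_restrict hm).2 h2, fun ψ hψ h => ?_⟩
    obtain ⟨e1, e2⟩ := hw ψ hψ.1 hψ.2.1 hψ.2.2
    have hc' : Continuous (fderiv ℝ ψ) := hψ.1.continuous_fderiv (by simp)
    have hD : ∀ a : ℂ, MemLp (fun z => fderiv ℝ ψ z a) 2 (volume.restrict Ω) := fun a =>
      ((Continuous.memLp_of_hasCompactSupport (by fun_prop)
        (hψ.2.1.fderiv_apply ℝ a)).restrict Ω)
    have hψ2 : MemLp ψ 2 (volume.restrict Ω) := hψ.memLp.restrict Ω
    have e3 : ∀ z, (Ω.indicator g₁ z * h.re + Ω.indicator g₂ z * h.im) =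
        Ω.indicator (fun z => g₁ z * h.re + g₂ z * h.im) z := fun z => by
      by_cases hz : z ∈ Ω <;> simp [hz]
    simp only [e3]
    rw [setInt_test hO, setInt_test hO]
    have e4 : ∫ z in Ω, v' z * fderiv ℝ ψ z h = ∫ z in Ω,
        (h.re * (v z * fderiv ℝ ψ z 1) + h.im * (v z * fderiv ℝ ψ z Complex.I)) := by
      refine integral_congr_ae ?_
      filter_upwards [hvv] with z hz
      have : h = h.re • (1 : ℂ) + h.im • Complex.I := by simp
      conv_lhs => rw [this, map_add, map_smul, map_smul, ← hz]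
      simp only [smul_eq_mul]
      ring
    have e5 : ∫ z in Ω, (g₁ z * h.re + g₂ z * h.im) * ψ z = ∫ z in Ω,
        (h.re * (g₁ z * ψ z) + h.im * (g₂ z * ψ z)) :=
      integral_congr_ae (ae_of_all _ fun z => by ring)
    have i1 : ∀ a, Integrable (fun z => v z * fderiv ℝ ψ z a) (volume.restrict Ω) := fun a =>
      hv.integrable_mul (hD a)
    have i2 : Integrable (fun z => g₁ z * ψ z) (volume.restrict Ω) := h1.integrable_mul hψ2
    have i3 : Integrable (fun z => g₂ z * ψ z) (volume.restrict Ω) := h2.integrable_mul hψ2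
    rw [e4, e5, integral_add ((i1 1).const_mul _) ((i1 _).const_mul _),
      integral_add (i2.const_mul _) (i3.const_mul _)]
    simp only [integral_const_mul, e1, e2]
    ring
  refine ⟨Ω.indicator v', ?_, hv.1.stronglyMeasurable_mk.measurable.indicator hm,
    fun A hA h hseg => ?_⟩
  · filter_upwards [hvv, ae_restrict_mem hm] with z h1 h2
    simp [h1, h2]
  · refine (trans_bound hA hW hseg).trans (le_of_eq ?_)
    congr 2
    rw [← integral_indicator hm]
    refine integral_congr_ae (ae_of_all _ fun z => ?_)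
    by_cases hz : z ∈ Ω <;> simp [hz]

lemma H1_re (hO : IsOpen Ω) (hb : Bornology.IsBounded Ω) (c : ℝ) :
    H1 Ω (fun z => z.re - c) (fun _ => 1) (fun _ => 0) := by
  haveI : IsFiniteMeasure (volume.restrict Ω) := ⟨by simpa using hb.measure_lt_top⟩
  obtain ⟨R, hR⟩ := hb.exists_norm_le
  refine ⟨MemLp.sub ?_ (memLp_const c), memLp_const _, memLp_const _, fun ψ hψ hs hsub => ?_⟩
  · refine MemLp.of_bound (by fun_prop) R ?_
    filter_upwards [ae_restrict_mem hO.measurableSet] with z hz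
    exact (Complex.abs_re_le_norm z).trans (hR z hz)
  have hc' : Continuous (fderiv ℝ ψ) := hψ.continuous_fderiv (by simp)
  have hψc := hψ.continuous
  have hf : ∀ z : ℂ, fderiv ℝ (fun z : ℂ => z.re - c) z = Complex.reCLM := fun z =>
    (Complex.reCLM.hasFDerivAt.sub_const c).fderiv
  have key : ∀ a : ℂ, ∫ z in Ω, (z.re - c) * fderiv ℝ ψ z a = -∫ z in Ω, a.re * ψ z := by
    intro a
    rw [setIntegral_eq_integral_of_forall_compl_eq_zero, setIntegral_eq_integral_of_forall_compl_eq_zero,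
      integral_mul_fderiv_eq_neg_fderiv_mul_of_integrable]
    · simp [hf]
    · simp only [hf]
      exact Continuous.integrable_of_hasCompactSupport (by fun_prop) hs.mul_left
    · exact Continuous.integrable_of_hasCompactSupport (by fun_prop)
        (hs.fderiv_apply ℝ a).mul_left
    · exact Continuous.integrable_of_hasCompactSupport (by fun_prop) hs.mul_left
    · exact fun x _ => (Complex.reCLM.differentiableAt.sub_const c)
    · exact fun x _ => hψ.differentiable (by simp) x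
    · intro z hz
      rw [image_eq_zero_of_notMem_tsupport fun h => hz (hsub h), mul_zero]
    · intro z hz
      have : fderiv ℝ ψ z = 0 :=
        image_eq_zero_of_notMem_tsupport fun h => hz (hsub (tsupport_fderiv_subset ℝ h))
      simp [this]
  exact ⟨by simpa using key 1, by simpa using key Complex.I⟩

end PoincAux

open PoincAux

theorem poincare_lip {Ω : Set ℂ} (hO : IsOpen Ω) (hb : Bornology.IsBounded Ω)
    (hc : IsConnected Ω) (hL : LipBdry Ω) :
    ∃ C : ℝ, 0 < C ∧ ∀ v g₁ g₂, H1 Ω v g₁ g₂ → ∫ z in Ω, v z = 0 →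
      ∫ z in Ω, v z ^ 2 ≤ C * ∫ z in Ω, (g₁ z ^ 2 + g₂ z ^ 2) := by
  obtain ⟨m, C, hC, hP⟩ := whole hO hb hc hL
  haveI : IsFiniteMeasure (volume.restrict Ω) := ⟨by simpa using hb.measure_lt_top⟩
  refine ⟨C.toReal + 1, by positivity, fun v g₁ g₂ h h0 => ?_⟩
  obtain ⟨V, hV, hT⟩ := H1_Tr hO hb h
  have hE : 0 ≤ ∫ z in Ω, (g₁ z ^ 2 + g₂ z ^ 2) := integral_nonneg fun z => by positivity
  have h1 := hP V _ hT
  set c := m V (ENNReal.ofReal (∫ z in Ω, (g₁ z ^ 2 + g₂ z ^ 2)))
  have hvc : MemLp (fun z => v z - c) 2 (volume.restrict Ω) := h.1.sub (memLp_const c)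
  have e : ∫⁻ x in Ω, ENNReal.ofReal ((V x - c) ^ 2) = ENNReal.ofReal (∫ x in Ω, (v x - c) ^ 2) := by
    rw [ofReal_integral_eq_lintegral_ofReal hvc.integrable_sq (ae_of_all _ fun x => sq_nonneg _)]
    refine lintegral_congr_ae ?_
    filter_upwards [hV] with x hx
    rw [hx]
  rw [e, ← ENNReal.ofReal_toReal hC, ← ENNReal.ofReal_mul ENNReal.toReal_nonneg,
    ENNReal.ofReal_le_ofReal_iff (by positivity)] at h1
  have h2 : ∫ z in Ω, v z ^ 2 ≤ ∫ x in Ω, (v x - c) ^ 2 := by
    have hi : Integrable v (volume.restrict Ω) := h.1.integrable (by norm_num)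
    have : ∫ z in Ω, v z ^ 2 = ∫ z in Ω, (v z ^ 2 - 2 * c * v z) := by
      rw [integral_sub h.1.integrable_sq (hi.const_mul _), integral_const_mul, h0]
      simp
    rw [this]
    refine integral_mono (h.1.integrable_sq.sub (hi.const_mul _)) hvc.integrable_sq fun z => ?_
    simp only
    nlinarith [sq_nonneg c]
  nlinarith

theorem mu1_pos {Ω : Set ℂ} (hO : IsOpen Ω) (hb : Bornology.IsBounded Ω)
    (hc : IsConnected Ω) (hL : LipBdry Ω) : 0 < mu1 Ω := by
  obtain ⟨C, hC, hP⟩ := poincare_lip hO hb hc hL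
  haveI : IsFiniteMeasure (volume.restrict Ω) := ⟨by simpa using hb.measure_lt_top⟩
  refine lt_of_lt_of_le (inv_pos.2 hC) (le_csInf ?_ ?_)
  · refine ⟨_, _, _, _, H1_re hO hb (⨍ z in Ω, z.re), fun h0 => ?_, ?_, rfl⟩
    · have := Measure.eqOn_open_of_ae_eq h0 hO (by fun_prop) (by fun_prop)
      obtain ⟨x, hx⟩ := hc.nonempty
      obtain ⟨s, hs, hball⟩ := Metric.isOpen_iff.1 hO x hx
      have hx' : x + ((s / 2 : ℝ) : ℂ) ∈ Ω := hball (by
        rw [Metric.mem_ball, dist_eq_norm, add_sub_cancel_left, Complex.norm_real,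
          Real.norm_of_nonneg (by positivity)]
        linarith)
      have a1 := this hx
      have a2 := this hx'
      simp only [Complex.add_re, Complex.ofReal_re, Pi.zero_apply] at a1 a2
      linarith
    · exact integral_sub_average _ _
  · rintro q ⟨v, g₁, g₂, h, hne, h0, rfl⟩
    have h1 := hP v g₁ g₂ h h0
    have hpos : 0 < ∫ z in Ω, v z ^ 2 := by
      refine lt_of_le_of_ne (integral_nonneg fun z => sq_nonneg _) fun h2 => hne ?_
      have := (integral_eq_zero_iff_of_nonneg (fun z => sq_nonneg (v z)) h.1.integrable_sq).1 h2.symm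
      filter_upwards [this] with z hz
      simpa using hz
    rw [le_div_iff₀ hpos, inv_mul_le_iff₀ hC]
    exact h1

end Vale.Agent.P071
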