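import Vale.Agent.P071.Defs

/-! P071 part Poinc, first half: the translation bound for weakly differentiable functions. -/

open MeasureTheory Set
open scoped ENNReal InnerProductSpace

noncomputable section
namespace Vale.Agent.P071.PoincAux

/-- test functions supported in `A` -/
def Test (A : Set ℂ) (ψ : ℂ → ℝ) : Prop :=
  ContDiff ℝ (⊤ : ℕ∞) ψ ∧ HasCompactSupport ψ ∧ tsupport ψ ⊆ A

lemma Test.memLp {A : Set ℂ} {ψ : ℂ → ℝ} (h : Test A ψ) : MemLp ψ 2 volume :=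
  h.1.continuous.memLp_of_hasCompactSupport h.2.1

lemma inner_toLp {f g : ℂ → ℝ} (hf : MemLp f 2 volume) (hg : MemLp g 2 volume) :
    ⟪hf.toLp f, hg.toLp g⟫_ℝ = ∫ x, f x * g x := by
  rw [L2.inner_def]
  refine integral_congr_ae ?_
  filter_upwards [hf.coeFn_toLp, hg.coeFn_toLp] with x h1 h2
  simp [h1, h2, mul_comm]

lemma norm_toLp {f : ℂ → ℝ} (hf : MemLp f 2 volume) :
    ‖hf.toLp f‖ = √(∫ x, f x ^ 2) := by
  rw [norm_eq_sqrt_real_inner, inner_toLp]
  simp [sq]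

lemma cs {f g : ℂ → ℝ} (hf : MemLp f 2 volume) (hg : MemLp g 2 volume) :
    |∫ x, f x * g x| ≤ √(∫ x, f x ^ 2) * √(∫ x, g x ^ 2) := by
  rw [← inner_toLp hf hg, ← norm_toLp hf, ← norm_toLp hg]
  exact abs_real_inner_le_norm _ _

/-- the subspace of `L²` of classes of test functions -/
def testSub (A : Set ℂ) : Submodule ℝ (Lp ℝ 2 (volume : Measure ℂ)) where
  carrier := {f | ∃ ψ, Test A ψ ∧ f =ᵐ[volume] ψ}
  add_mem' := by
    rintro f g ⟨ψ, hψ, hf⟩ ⟨φ, hφ, hg⟩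
    refine ⟨ψ + φ, ⟨hψ.1.add hφ.1, hψ.2.1.add hφ.2.1, ?_⟩, ?_⟩
    · exact (tsupport_add ψ φ).trans (union_subset hψ.2.2 hφ.2.2)
    · filter_upwards [Lp.coeFn_add f g, hf, hg] with x h1 h2 h3
      rw [h1, Pi.add_apply, h2, h3, Pi.add_apply]
  zero_mem' := ⟨0, ⟨contDiff_const, HasCompactSupport.zero, by simp⟩, Lp.coeFn_zero _ _ _⟩
  smul_mem' := by
    rintro c f ⟨ψ, hψ, hf⟩
    refine ⟨c • ψ, ⟨hψ.1.const_smul c, hψ.2.1.smul_left (f := fun _ => c), ?_⟩, ?_⟩
    · exact (tsupport_smul_subset_right (fun _ => c) ψ).trans hψ.2.2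
    · filter_upwards [Lp.coeFn_smul c f, hf] with x h1 h2
      simp [h1, h2]

lemma dual_bound {A : Set ℂ} (hA : IsOpen A) {w : ℂ → ℝ} (hw : MemLp w 2 volume) {K : ℝ}
    (hK : 0 ≤ K) (h : ∀ ψ, Test A ψ → |∫ x, w x * ψ x| ≤ K * √(∫ x, ψ x ^ 2)) :
    ∫ x in A, w x ^ 2 ≤ K ^ 2 := by
  have hwA : MemLp (A.indicator w) 2 volume := hw.indicator hA.measurableSet
  set W := hw.toLp w
  set WA := hwA.toLp (A.indicator w)
  have hmem : WA ∈ (testSub A).topologicalClosure := by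
    rw [← Submodule.orthogonal_orthogonal_eq_closure, Submodule.mem_orthogonal]
    intro f hf
    have h0 : ∀ᵐ x, x ∈ A → f x = 0 := by
      refine hA.ae_eq_zero_of_integral_contDiff_smul_eq_zero
        (((Lp.memLp f).locallyIntegrable (by norm_num)).locallyIntegrableOn A) ?_
      intro g hg hgc hgs
      have ht : Test A g := ⟨hg, hgc, hgs⟩
      have := (Submodule.mem_orthogonal _ _).1 hf (ht.memLp.toLp g) ⟨g, ht, ht.memLp.coeFn_toLp⟩
      rw [L2.inner_def] at this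
      rw [← this]
      refine integral_congr_ae ?_
      filter_upwards [ht.memLp.coeFn_toLp] with x h1
      simp [h1, mul_comm]
    rw [L2.inner_def]
    refine integral_eq_zero_of_ae ?_
    filter_upwards [h0, hwA.coeFn_toLp] with x h1 h2
    by_cases hx : x ∈ A
    · simp [h1 hx]
    · simp [WA, h2, hx]
  have hcl : IsClosed {f : Lp ℝ 2 (volume : Measure ℂ) | |⟪W, f⟫_ℝ| ≤ K * ‖f‖} :=
    isClosed_le (by fun_prop) (by fun_prop)
  have hsub : (testSub A : Set _) ⊆ {f : Lp ℝ 2 (volume : Measure ℂ) | |⟪W, f⟫_ℝ| ≤ K * ‖f‖} := by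
    rintro f ⟨ψ, hψ, hf⟩
    have : f = hψ.memLp.toLp ψ := Lp.ext (hf.trans hψ.memLp.coeFn_toLp.symm)
    simp only [mem_setOf_eq]
    rw [this, inner_toLp, norm_toLp]
    exact h ψ hψ
  have hWA : |⟪W, WA⟫_ℝ| ≤ K * ‖WA‖ := hcl.closure_subset_iff.2 hsub hmem
  have e1 : ⟪W, WA⟫_ℝ = ∫ x in A, w x ^ 2 := by
    rw [inner_toLp, ← integral_indicator hA.measurableSet]
    refine integral_congr_ae (ae_of_all _ fun x => ?_)
    by_cases hx : x ∈ A <;> simp [hx, sq]
  have e2 : ‖WA‖ = √(∫ x in A, w x ^ 2) := by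
    rw [norm_toLp, ← integral_indicator hA.measurableSet]
    congr 1
    refine integral_congr_ae (ae_of_all _ fun x => ?_)
    by_cases hx : x ∈ A <;> simp [hx]
  have hn : 0 ≤ ∫ x in A, w x ^ 2 := integral_nonneg fun x => sq_nonneg _
  rw [e1, e2, abs_of_nonneg hn] at hWA
  have hs := Real.sq_sqrt hn
  have hs0 := Real.sqrt_nonneg (∫ x in A, w x ^ 2)
  nlinarith [sq_nonneg (K - √(∫ x in A, w x ^ 2))]

/-- the weak derivative identity after extension by zero -/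
structure Wk (Ω : Set ℂ) (V G₁ G₂ : ℂ → ℝ) : Prop where
  int : Integrable V volume
  mV : MemLp V 2 volume
  m1 : MemLp G₁ 2 volume
  m2 : MemLp G₂ 2 volume
  weak : ∀ ψ, Test Ω ψ → ∀ h : ℂ,
    ∫ z, V z * fderiv ℝ ψ z h = -∫ z, (G₁ z * h.re + G₂ z * h.im) * ψ z

lemma trans_test {Ω A : Set ℂ} {V G₁ G₂ : ℂ → ℝ} (hW : Wk Ω V G₁ G₂) {h : ℂ}
    (hseg : ∀ x ∈ A, ∀ t ∈ Icc (0 : ℝ) 1, x + t • h ∈ Ω) {ψ : ℂ → ℝ} (hψ : Test A ψ) :
    |∫ x, (V (x + h) - V x) * ψ x| ≤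
      ‖h‖ * √(∫ z, (G₁ z ^ 2 + G₂ z ^ 2)) * √(∫ x, ψ x ^ 2) := by
  have hd : Differentiable ℝ ψ := hψ.1.differentiable (by simp)
  have hc' : Continuous (fderiv ℝ ψ) := hψ.1.continuous_fderiv (by simp)
  obtain ⟨M, hM⟩ := (hψ.2.1.fderiv ℝ).exists_bound_of_continuous hc'
  obtain ⟨M₀, hM₀⟩ := hψ.2.1.exists_bound_of_continuous hψ.1.continuous
  have hG : MemLp (fun z => G₁ z * h.re + G₂ z * h.im) 2 volume :=
    (hW.m1.mul_const _).add (hW.m2.mul_const _)
  have hGb : √(∫ z, (G₁ z * h.re + G₂ z * h.im) ^ 2) ≤ ‖h‖ * √(∫ z, (G₁ z ^ 2 + G₂ z ^ 2)) := by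
    rw [← Real.sqrt_sq (norm_nonneg h), ← Real.sqrt_mul (sq_nonneg _), ← integral_const_mul]
    refine Real.sqrt_le_sqrt (integral_mono hG.integrable_sq
      ((hW.m1.integrable_sq.add hW.m2.integrable_sq).const_mul _) fun z => ?_)
    simp only [Complex.sq_norm, Complex.normSq_apply]
    nlinarith [sq_nonneg (G₁ z * h.im - G₂ z * h.re)]
  have hint : ∀ t : ℝ, Integrable (fun y => V y * ψ (y - t • h)) volume := fun t =>
    hW.int.mul_bdd (c := M₀) (hψ.1.continuous.comp (by fun_prop)).aestronglyMeasurable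
      (ae_of_all _ fun y => hM₀ _)
  have hder : ∀ t : ℝ, HasDerivAt (fun t : ℝ => ∫ y, V y * ψ (y - t • h))
      (∫ y, V y * fderiv ℝ ψ (y - t • h) (-h)) t := by
    intro t
    refine (hasDerivAt_integral_of_dominated_loc_of_deriv_le (s := univ)
      (F := fun t y => V y * ψ (y - t • h))
      (F' := fun t y => V y * fderiv ℝ ψ (y - t • h) (-h))
      (bound := fun y => ‖V y‖ * (M * ‖h‖)) Filter.univ_mem
      (Filter.Eventually.of_forall fun t => (hint t).aestronglyMeasurable) (hint t)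
      ?_ ?_ (hW.int.norm.mul_const _) ?_).2
    · exact hW.int.aestronglyMeasurable.mul
        (Continuous.aestronglyMeasurable (by fun_prop))
    · refine ae_of_all _ fun y s _ => ?_
      rw [norm_mul]
      refine mul_le_mul_of_nonneg_left ?_ (norm_nonneg _)
      refine (ContinuousLinearMap.le_opNorm _ _).trans ?_
      rw [norm_neg]
      exact mul_le_mul_of_nonneg_right (hM _) (norm_nonneg _)
    · refine ae_of_all _ fun y s _ => ?_
      refine HasDerivAt.const_mul _ ?_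
      have h1 : HasDerivAt (fun s : ℝ => y - s • h) (-h) s := by
        simpa using ((hasDerivAt_id s).smul_const h).const_sub y
      exact (hd _).hasFDerivAt.comp_hasDerivAt s h1
  have hb : ∀ t ∈ Ico (0 : ℝ) 1, ‖∫ y, V y * fderiv ℝ ψ (y - t • h) (-h)‖ ≤
      ‖h‖ * √(∫ z, (G₁ z ^ 2 + G₂ z ^ 2)) * √(∫ x, ψ x ^ 2) := by
    intro t ht
    have hT : Test Ω (fun y => ψ (y - t • h)) := by
      refine ⟨hψ.1.comp (contDiff_id.sub contDiff_const), ?_, ?_⟩
      · exact hψ.2.1.comp_homeomorph (Homeomorph.subRight (t • h))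
      · intro y hy
        have : y - t • h ∈ tsupport ψ := by
          have := tsupport_comp_subset_preimage ψ (f := fun y : ℂ => y - t • h) (by fun_prop)
          exact this hy
        simpa using hseg _ (hψ.2.2 this) t (Ico_subset_Icc_self ht)
    have hw := hW.weak _ hT h
    have hf : ∀ y, fderiv ℝ (fun y => ψ (y - t • h)) y = fderiv ℝ ψ (y - t • h) := by
      intro y
      have := ((hd (y - t • h)).hasFDerivAt.comp y ((hasFDerivAt_id y).sub_const (t • h))).fderiv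
      simpa [Function.comp_def] using this
    simp only [hf] at hw
    simp only [map_neg, mul_neg, integral_neg, hw, neg_neg, Real.norm_eq_abs]
    refine (cs hG hT.memLp).trans ?_
    rw [integral_sub_right_eq_self (fun y => ψ y ^ 2) (t • h)]
    exact mul_le_mul_of_nonneg_right hGb (Real.sqrt_nonneg _)
  have key := norm_image_sub_le_of_norm_deriv_le_segment_01'
    (fun t _ => (hder t).hasDerivWithinAt) hb
  have e : ∫ x, (V (x + h) - V x) * ψ x =
      (∫ y, V y * ψ (y - (1 : ℝ) • h)) - ∫ y, V y * ψ (y - (0 : ℝ) • h) := by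
    rw [← integral_add_right_eq_self (fun y => V y * ψ (y - (1 : ℝ) • h)) h,
      ← integral_sub ((hint 1).comp_add_right h) (hint 0)]
    simp [sub_mul]
  rw [e]
  exact key

lemma trans_bound {Ω A : Set ℂ} (hA : IsOpen A) {V G₁ G₂ : ℂ → ℝ} (hW : Wk Ω V G₁ G₂) {h : ℂ}
    (hseg : ∀ x ∈ A, ∀ t ∈ Icc (0 : ℝ) 1, x + t • h ∈ Ω) :
    ∫⁻ x in A, ENNReal.ofReal ((V (x + h) - V x) ^ 2) ≤
      ENNReal.ofReal (‖h‖ ^ 2) * ENNReal.ofReal (∫ z, (G₁ z ^ 2 + G₂ z ^ 2)) := by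
  have hw : MemLp (fun x => V (x + h) - V x) 2 volume :=
    (hW.mV.comp_measurePreserving (measurePreserving_add_right volume h)).sub hW.mV
  have hE : 0 ≤ ∫ z, (G₁ z ^ 2 + G₂ z ^ 2) := integral_nonneg fun z => by positivity
  have := dual_bound hA hw (K := ‖h‖ * √(∫ z, (G₁ z ^ 2 + G₂ z ^ 2))) (by positivity)
    fun ψ hψ => trans_test hW hseg hψ
  rw [← ofReal_integral_eq_lintegral_ofReal hw.integrable_sq.integrableOn
    (ae_of_all _ fun x => sq_nonneg _), ← ENNReal.ofReal_mul (sq_nonneg _)]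
  refine ENNReal.ofReal_le_ofReal ?_
  rwa [mul_pow, Real.sq_sqrt hE] at this

end Vale.Agent.P071.PoincAux
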