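import Vale.Agent.P071.Cut

/-! P071 part Pol: polynomials in `w` and `w̄`. -/

open MeasureTheory ComplexConjugate Filter Topology Set

namespace Vale.Agent.P071

variable {f g : ℂ → ℂ}

lemma Pol.smooth (h : Pol f) {n : WithTop ℕ∞} : ContDiff ℝ n f := by
  induction h with
  | mono c j l => exact (contDiff_const.mul (contDiff_id.pow j)).mul (contDiff_conj.pow l)
  | add _ _ h1 h2 => exact h1.add h2
lemma Pol.cont (h : Pol f) : Continuous f := (h.smooth (n := 0)).continuous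
lemma Pol.diff (h : Pol f) : Differentiable ℝ f := (h.smooth (n := 1)).differentiable (by simp)
lemma Pol.l2 (h : Pol f) : L2 f := L2.of_cont h.cont
lemma Pol.congr (h : Pol f) (e : ∀ w, g w = f w) : Pol g := (funext e : g = f) ▸ h
lemma Pol.const (c : ℂ) : Pol fun _ => c := (Pol.mono c 0 0).congr (by simp)
lemma Pol.id : Pol fun w => w := (Pol.mono 1 1 0).congr (by simp)
lemma Pol.cid : Pol fun w => conj w := (Pol.mono 1 0 1).congr (by simp)
lemma Pol.mul (hf : Pol f) (hg : Pol g) : Pol fun w => f w * g w := by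
  induction hf with
  | mono c j l =>
    induction hg with
    | mono c' j' l' => exact (Pol.mono (c * c') (j + j') (l + l')).congr fun w => by ring
    | add _ _ h1 h2 => exact (h1.add h2).congr fun w => by ring
  | add _ _ h1 h2 => exact (h1.add h2).congr fun w => by ring
lemma Pol.cmul (hf : Pol f) (c : ℂ) : Pol fun w => c * f w := (Pol.const c).mul hf
lemma Pol.sub (hf : Pol f) (hg : Pol g) : Pol fun w => f w - g w :=
  (hf.add (hg.cmul (-1))).congr fun w => by ring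
lemma Pol.cj (hf : Pol f) : Pol fun w => conj (f w) := by
  induction hf with
  | mono c j l => exact (Pol.mono (conj c) l j).congr fun w => by simp; ring
  | add _ _ h1 h2 => exact (h1.add h2).congr fun w => by simp
lemma Pol.dd : Pol dd := (Pol.const 1).sub (Pol.id.mul Pol.cid)

lemma dz_mono (c : ℂ) (j l : ℕ) (w : ℂ) :
    dz (fun w => c * w ^ j * conj w ^ l) w = c * j * w ^ (j - 1) * conj w ^ l := by
  have h1 : DifferentiableAt ℂ (fun w : ℂ => c * w ^ j) w := by fun_prop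
  have h2 : DifferentiableAt ℂ (fun w : ℂ => w ^ l) w := by fun_prop
  rw [dz_mul (by fun_prop) (by fun_prop), dz_hol h1]
  simp only [← map_pow]
  rw [dz_conj, db_hol h2]; simp [mul_assoc]
lemma db_mono (c : ℂ) (j l : ℕ) (w : ℂ) :
    db (fun w => c * w ^ j * conj w ^ l) w = c * l * w ^ j * conj w ^ (l - 1) := by
  have h1 : DifferentiableAt ℂ (fun w : ℂ => c * w ^ j) w := by fun_prop
  have h2 : DifferentiableAt ℂ (fun w : ℂ => w ^ l) w := by fun_prop
  rw [db_mul (by fun_prop) (by fun_prop), db_hol h1]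
  simp only [← map_pow]
  rw [db_conj, dz_hol h2]; simp; ring

lemma Pol.dz' (hf : Pol f) : Pol (dz f) := by
  induction hf with
  | mono c j l => exact (Pol.mono _ _ _).congr (dz_mono c j l)
  | add hf hg h1 h2 => exact (h1.add h2).congr fun w => dz_add (hf.diff w) (hg.diff w)
lemma Pol.db' (hf : Pol f) : Pol (db f) := by
  induction hf with
  | mono c j l => exact (Pol.mono _ _ _).congr (db_mono c j l)
  | add hf hg h1 h2 => exact (h1.add h2).congr fun w => db_add (hf.diff w) (hg.diff w)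

lemma norm_pow_sub_one {w : ℂ} (hw : w ∈ D) (l : ℕ) : ‖(w * conj w) ^ l - 1‖ ≤ l * ‖dd w‖ := by
  have h1 := mem_D.1 hw
  induction l with
  | zero => simp
  | succ l ih =>
    have e : (w * conj w) ^ (l + 1) - 1 = w * conj w * ((w * conj w) ^ l - 1) - dd w := by
      rw [dd]; ring
    have h2 : ‖w * conj w‖ ≤ 1 := by
      rw [norm_mul, Complex.norm_conj]; nlinarith [norm_nonneg w]
    rw [e]
    refine (norm_sub_le _ _).trans ?_
    rw [norm_mul]; push_cast
    nlinarith [mul_le_of_le_one_left (norm_nonneg ((w * conj w) ^ l - 1)) h2]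

theorem Pol.helm (hf : Pol f) : ∃ θ, Adm θ ∧ dz θ = f := by
  induction hf with
  | mono c j l =>
    set c' := c / (j + 1 : ℕ) with hc
    have key : ∀ (a : ℂ) (s : ℕ) (w : ℂ), dz (fun w => c' * w ^ (j + 1) * conj w ^ l +
        a * w ^ 0 * conj w ^ s) w = c * w ^ j * conj w ^ l := fun a s w => by
      rw [dz_add ((Pol.mono _ _ _).diff w) ((Pol.mono _ _ _).diff w), dz_mono, dz_mono, hc,
        div_mul_cancel₀ _ (by exact_mod_cast j.succ_ne_zero)]; simp
    have bd : ∀ (x : ℂ) (s m : ℕ), ∀ w ∈ D, ‖x‖ ≤ 1 →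
        |(c' * x ^ s * ((w * conj w) ^ m - 1)).im| ≤ ‖c'‖ * m * ‖P071.dd w‖ := fun x s m w hw hx => by
      refine (Complex.abs_im_le_norm _).trans ?_
      rw [norm_mul, norm_mul, norm_pow, mul_assoc, mul_assoc]
      exact mul_le_mul_of_nonneg_left ((mul_le_of_le_one_left (norm_nonneg _)
        (pow_le_one₀ (norm_nonneg _) hx)).trans (norm_pow_sub_one hw m)) (norm_nonneg _)
    rcases le_total l (j + 1) with h | h
    · obtain ⟨s, hs⟩ := Nat.exists_eq_add_of_le h
      refine ⟨_, ⟨(Pol.mono _ _ _).add (Pol.mono _ _ _), ‖c'‖ * l, fun w hw => ?_⟩,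
        funext (key (conj c') s)⟩
      refine le_of_eq_of_le ?_ (bd w s l w hw (mem_D.1 hw).le)
      have e : c' * w ^ (j + 1) * conj w ^ l + conj c' * w ^ 0 * conj w ^ s =
          c' * w ^ s * ((w * conj w) ^ l - 1) + (c' * w ^ s + conj (c' * w ^ s)) := by
        rw [hs]; simp; ring
      rw [e, Complex.add_conj, Complex.add_im, Complex.ofReal_im, add_zero]
    · obtain ⟨s, hs⟩ := Nat.exists_eq_add_of_le h
      refine ⟨_, ⟨(Pol.mono _ _ _).add (Pol.mono _ _ _), ‖c'‖ * (j + 1 : ℕ), fun w hw => ?_⟩,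
        funext (key (-c') s)⟩
      refine le_of_eq_of_le ?_ (bd (conj w) s (j + 1) w hw (by simpa using (mem_D.1 hw).le))
      congr 2
      rw [hs]; ring
  | add _ _ h1 h2 =>
    obtain ⟨θ, ⟨p, C, hC⟩, e⟩ := h1
    obtain ⟨θ', ⟨p', C', hC'⟩, e'⟩ := h2
    refine ⟨_, ⟨p.add p', C + C', fun w hw => ?_⟩, funext fun w => ?_⟩
    · rw [Complex.add_im, add_mul]
      exact (abs_add_le _ _).trans (add_le_add (hC w hw) (hC' w hw))
    · rw [dz_add (p.diff w) (p'.diff w), e, e']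

lemma Pol.unif (hg : Continuous g) {ε : ℝ} (hε : 0 < ε) :
    ∃ K, Pol K ∧ ∀ w ∈ D, ‖g w - K w‖ ≤ ε := by
  let s := Metric.closedBall (0 : ℂ) 1
  have h := polynomialFunctions.starClosure_topologicalClosure s ▸
    StarSubalgebra.mem_top (x := ContinuousMap.restrict s ⟨g, hg⟩)
  rw [← SetLike.mem_coe, StarSubalgebra.topologicalClosure_coe, Metric.mem_closure_iff] at h
  obtain ⟨p, hp, hd⟩ := h ε hε
  have : ∃ K, Pol K ∧ ∀ w : s, p w = K w := by
    clear hd
    rw [SetLike.mem_coe, polynomialFunctions.starClosure_eq_adjoin_X] at hp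
    induction hp using Algebra.adjoin_induction with
    | mem f hf =>
      push _ ∈ _ at hf
      rw [star_eq_iff_star_eq, eq_comm (b := f)] at hf
      obtain (rfl | rfl) := hf
      · exact ⟨_, Pol.id, fun w => by simp⟩
      · exact ⟨_, Pol.cid, fun w => by simp⟩
    | algebraMap r => exact ⟨_, Pol.const r, fun w => by simp⟩
    | add _ _ _ _ h1 h2 =>
      obtain ⟨K, p, e⟩ := h1
      obtain ⟨K', p', e'⟩ := h2
      exact ⟨_, p.add p', fun w => by simp [e, e']⟩
    | mul _ _ _ _ h1 h2 =>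
      obtain ⟨K, p, e⟩ := h1
      obtain ⟨K', p', e'⟩ := h2
      exact ⟨_, p.mul p', fun w => by simp [e, e']⟩
  obtain ⟨K, hK, e⟩ := this
  refine ⟨K, hK, fun w hw => ?_⟩
  have := (ContinuousMap.dist_apply_le_dist (⟨w, Metric.ball_subset_closedBall hw⟩ : s)).trans hd.le
  rw [e, dist_eq_norm] at this
  exact this

theorem Pol.dense (hg : L2 g) {ε : ℝ} (hε : 0 < ε) :
    ∃ K, Pol K ∧ N (fun w => g w - K w) ≤ ε := by
  obtain ⟨h, h1, -⟩ := MemLp.exists_boundedContinuous_integral_rpow_sub_le (μ := vD) (p := 2)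
    two_pos (f := g) (by simpa using hg) (ε := ε / 4) (by positivity)
  have n0 := N_nonneg fun _ => (1 : ℂ)
  obtain ⟨K, hK, h2⟩ := Pol.unif h.continuous (ε := √(ε / 4 / (N (fun _ => 1) + 1)))
    (by positivity)
  refine ⟨K, hK, ?_⟩
  have h3 : N (fun w => g w - h w) ≤ ε / 4 := by simpa [N] using h1
  have h4 : N (fun w => h w - K w) ≤ ε / 4 := by
    refine (N_mono (Pol.const 1).l2 _ fun w hw => by simpa using h2 w hw.1).trans ?_
    rw [Real.sq_sqrt (by positivity), div_mul_eq_mul_div, div_le_iff₀ (by positivity)]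
    nlinarith
  have h5 := sqrt_N_add (hg.sub' (L2.of_cont h.continuous)) ((L2.of_cont h.continuous).sub' hK.l2)
  simp only [sub_add_sub_cancel] at h5
  have h6 := Real.sqrt_le_sqrt h3
  have h7 := Real.sqrt_le_sqrt h4
  have h8 := Real.sq_sqrt (N_nonneg fun w => g w - K w)
  have h9 : √(ε / 4) ^ 2 = ε / 4 := Real.sq_sqrt (by positivity)
  nlinarith [Real.sqrt_nonneg (N fun w => g w - K w)]

/-- The operator `P ↦ (1 - |w|²)⁻¹ ∂̄ ((1 - |w|²)² P)`. -/
noncomputable def Phi (P : ℂ → ℂ) (w : ℂ) : ℂ := -2 * w * P w + dd w * db P w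

lemma Phi_mono (c : ℂ) (j l : ℕ) (w : ℂ) : Phi (fun w => c * w ^ j * conj w ^ l) w =
    c * l * w ^ j * conj w ^ (l - 1) - c * (l + 2) * w ^ (j + 1) * conj w ^ l := by
  rw [Phi, db_mono, dd]
  cases l with
  | zero => simp; ring
  | succ l => simp; ring

lemma Pol.good (hf : Pol f) : ∃ P h, Pol P ∧ Pol h ∧ (∀ w, dz h w = 0) ∧
    ∀ w, f w = (1 + w * conj w) * h w + Phi P w := by
  have add : ∀ {f g : ℂ → ℂ}, (∃ P h, Pol P ∧ Pol h ∧ (∀ w, dz h w = 0) ∧
      ∀ w, f w = (1 + w * conj w) * h w + Phi P w) → (∃ P h, Pol P ∧ Pol h ∧ (∀ w, dz h w = 0) ∧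
      ∀ w, g w = (1 + w * conj w) * h w + Phi P w) → ∃ P h, Pol P ∧ Pol h ∧ (∀ w, dz h w = 0) ∧
      ∀ w, f w + g w = (1 + w * conj w) * h w + Phi P w := by
    rintro f g ⟨P, h, p1, p2, p3, p4⟩ ⟨P', h', q1, q2, q3, q4⟩
    refine ⟨_, _, p1.add q1, p2.add q2, fun w => ?_, fun w => ?_⟩
    · rw [dz_add (p2.diff w) (q2.diff w), p3, q3, add_zero]
    · rw [p4, q4, Phi, Phi, Phi, db_add (p1.diff w) (q1.diff w)]; ring
  induction hf with
  | add _ _ h1 h2 => exact add h1 h2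
  | mono c j l =>
    induction j generalizing c l with
    | zero =>
      have h0 : (2 * l + 4 : ℂ) ≠ 0 := by exact_mod_cast (by omega : 2 * l + 4 ≠ 0)
      refine ⟨_, _, Pol.mono (c / (2 * l + 4)) 0 (l + 1), Pol.mono (c / (2 * l + 4) * (l + 3)) 0 l,
        fun w => by rw [dz_mono]; simp, fun w => ?_⟩
      rw [Phi_mono]; simp; field_simp; ring
    | succ j ih =>
      have h0 : (l + 2 : ℂ) ≠ 0 := by exact_mod_cast (by omega : l + 2 ≠ 0)
      have := add (ih (c / (l + 2) * l) (l - 1)) ⟨_, _, Pol.mono (-(c / (l + 2))) j l, Pol.const 0,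
        by simp, fun _ => rfl⟩
      obtain ⟨P, h, p1, p2, p3, p4⟩ := this
      refine ⟨P, h, p1, p2, p3, fun w => ?_⟩
      rw [← p4, Phi_mono]; field_simp; ring

theorem Pol.frame (hf : Pol f) : ∃ P y, Pol P ∧ Pol y ∧ (∀ w, dz y w = f w) ∧
    ∀ w, (1 + w * conj w) * y w = Phi P w := by
  obtain ⟨θ, ⟨p, -⟩, e⟩ := hf.helm
  obtain ⟨P, h, p1, p2, p3, p4⟩ := (((Pol.const 1).add (Pol.id.mul Pol.cid)).mul p).good
  refine ⟨P, _, p1, p.sub p2, fun w => ?_, fun w => ?_⟩
  · rw [dz_sub (p.diff w) (p2.diff w), p3, e, sub_zero]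
  · linear_combination p4 w

lemma lin_bound (hf : ContDiffOn ℝ 1 f D) (h0 : f 0 = 0) {r : ℝ} (hr : r < 1) :
    ∃ C : ℝ, 0 ≤ C ∧ ∀ w, ‖w‖ ≤ r → ‖f w‖ ≤ C * ‖w‖ := by
  have sub : Metric.closedBall (0 : ℂ) r ⊆ D := Metric.closedBall_subset_ball hr
  obtain ⟨C, hC⟩ := (isCompact_closedBall (0 : ℂ) r).exists_bound_of_continuousOn
    ((hf.continuousOn_fderiv_of_isOpen isOpen_D le_rfl).mono sub)
  refine ⟨max C 0, le_max_right _ _, fun w hw => ?_⟩
  have := (convex_closedBall (0 : ℂ) r).norm_image_sub_le_of_norm_fderiv_le (𝕜 := ℝ)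
    (fun x hx => ContDiffOn.dAt hf isOpen_D (by simp) (sub hx))
    (fun x hx => (hC x hx).trans (le_max_left C 0)) (x := 0) (y := w)
    (by simpa using (norm_nonneg w).trans hw) (by simpa using hw)
  simpa [h0] using this

lemma div_w_cont (hf : ContinuousOn f D) : ContinuousOn (fun w => f w / w) (D \ {0}) :=
  (hf.mono diff_subset).div continuousOn_id fun _ hw => hw.2

lemma div_w_bdd (hf : ContDiffOn ℝ 1 f D) (h0 : f 0 = 0) :
    ∃ C : ℝ, 0 ≤ C ∧ ∀ w, w ≠ 0 → ‖w‖ ≤ 1 / 2 → ‖f w / w‖ ≤ C := by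
  obtain ⟨C, C0, hC⟩ := lin_bound hf h0 (r := 1 / 2) (by norm_num)
  refine ⟨C, C0, fun w h1 h2 => ?_⟩
  rw [norm_div, div_le_iff₀ (norm_pos_iff.2 h1)]; exact hC w h2

lemma L2.div_w (hf : ContDiffOn ℝ 1 f D) (h0 : f 0 = 0) (h2 : L2 f) : L2 fun w => f w / w := by
  obtain ⟨C, C0, hC⟩ := div_w_bdd hf h0
  have h3 : MemLp (fun w => C + 2 * ‖f w‖) 2 vD := (memLp_const C).add (h2.norm.const_mul 2)
  refine h3.of_le (aesm_of_cont (div_w_cont hf.continuousOn)) (ae_D0.mono fun w hw => ?_)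
  rw [Real.norm_of_nonneg (by positivity)]
  rcases le_or_gt ‖w‖ (1 / 2) with h | h
  · exact (hC w hw.2 h).trans (le_add_of_nonneg_right (by positivity))
  · rw [norm_div, div_le_iff₀ (by linarith)]
    nlinarith [norm_nonneg (f w)]

theorem Pol.approx (hf : ContDiffOn ℝ 1 f D) (h2 : L2 f) {ε : ℝ} (hε : 0 < ε) :
    ∃ K, Pol K ∧ L2 (fun w => (f w + (1 + w * conj w) ^ 2 * K w) / w) ∧
      N (fun w => (f w + (1 + w * conj w) ^ 2 * K w) / w) ≤ ε := by
  have n1 : ∀ w : ℂ, ‖1 + w * conj w‖ = 1 + ‖w‖ ^ 2 := fun w => by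
    rw [Complex.mul_conj, Complex.normSq_eq_norm_sq]; norm_cast
    exact Real.norm_of_nonneg (by positivity)
  have n0 : ∀ w : ℂ, (1 + w * conj w) ^ 2 ≠ 0 := fun w =>
    pow_ne_zero _ (norm_pos_iff.1 (by rw [n1]; positivity))
  have sm : ContDiff ℝ 1 fun w : ℂ => (1 + w * conj w) ^ 2 := by fun_prop
  have hs : ContDiffOn ℝ 1 (fun w => f w / (1 + w * conj w) ^ 2 - f 0) D := by
    simp only [div_eq_mul_inv]
    exact (hf.mul (sm.contDiffOn.inv fun w _ => n0 w)).sub contDiffOn_const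
  have hl : L2 fun w => f w / (1 + w * conj w) ^ 2 - f 0 := by
    refine L2.sub' (h2.of_le ((hf.continuousOn.mono diff_subset).div sm.continuous.continuousOn
      fun w _ => n0 w) 1 fun w _ => ?_) (Pol.const _).l2
    rw [norm_div, norm_pow, n1, one_mul]
    exact div_le_self (norm_nonneg _) (one_le_pow₀ (by nlinarith))
  have hk := L2.div_w hs (by simp) hl
  obtain ⟨K, hK, hN⟩ := Pol.dense hk (ε := ε / 16) (by positivity)
  have e : EqOn (fun w => (1 + w * conj w) ^ 2 * ((f w / (1 + w * conj w) ^ 2 - f 0) / w - K w))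
      (fun w => (f w + (1 + w * conj w) ^ 2 * (-f 0 - w * K w)) / w) (D \ {0}) := fun w hw => by
    have := n0 w
    have h0 : w ≠ 0 := hw.2
    simp only
    generalize (1 + w * conj w) ^ 2 = x at this
    field_simp; ring
  refine ⟨_, (Pol.const (-f 0)).sub (Pol.id.mul hK),
    ((hk.sub' hK.l2).mul_cont sm.continuous).congr e, ?_⟩
  rw [← N_congr e]
  refine (N_mono (hk.sub' hK.l2) 4 fun w hw => ?_).trans (by linarith)
  have := mem_D.1 hw.1
  rw [norm_mul, norm_pow, n1]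
  gcongr
  have h1 : ‖w‖ ^ 2 ≤ 1 := by nlinarith [norm_nonneg w]
  nlinarith [sq_nonneg ‖w‖]

end Vale.Agent.P071
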