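import Vale.Agent.P071.Defs
import Vale.Agent.P071.Disc

/-! P071 part Pull: transplanting an eigenfunction to the disc. -/

open MeasureTheory

namespace Vale.Agent.P071

namespace PullAux
open Complex Set Filter

lemma det_smul_one (c : ℂ) : |(c • (1 : ℂ →L[ℝ] ℂ)).det| = ‖c‖ ^ 2 := by
  rw [ContinuousLinearMap.det, ← LinearMap.det_toMatrix basisOneI, Matrix.det_fin_two,
    Complex.sq_norm]
  simp [LinearMap.toMatrix_apply, normSq_apply, add_nonneg, mul_self_nonneg]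

lemma intK {Ω : Set ℂ} {f g : ℂ → ℝ} (hf : ContinuousOn f Ω) (hg : Continuous g) {K : Set ℂ}
    (hK : IsCompact K) (hKΩ : K ⊆ Ω) (hs : Function.support g ⊆ K) :
    Integrable fun x => f x * g x :=
  (integrableOn_iff_integrable_of_support_subset ((Function.support_mul_subset_right f g).trans
    hs)).1 (((hf.mono hKΩ).mul hg.continuousOn).integrableOn_compact hK)

lemma cont_fd {Ω : Set ℂ} (hO : IsOpen Ω) {v : ℂ → ℝ} (hv : ContDiffOn ℝ 1 v Ω) (h : ℂ) :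
    ContinuousOn (fun z => fderiv ℝ v z h) Ω :=
  (hv.continuousOn_fderiv_of_isOpen hO le_rfl).clm_apply continuousOn_const

lemma ibp {Ω : Set ℂ} (hO : IsOpen Ω) {v : ℂ → ℝ} (hv : ContDiffOn ℝ 1 v Ω) {ψ : ℂ → ℝ}
    (h1 : ContDiff ℝ (⊤ : ℕ∞) ψ) (h2 : HasCompactSupport ψ) (h3 : tsupport ψ ⊆ Ω) (h : ℂ) :
    ∫ z in Ω, v z * fderiv ℝ ψ z h = -∫ z in Ω, fderiv ℝ v z h * ψ z := by
  have s1 : Function.support (fun z => fderiv ℝ ψ z h) ⊆ tsupport ψ := fun z hz =>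
    support_fderiv_subset ℝ fun e => hz (by simp [e])
  rw [setIntegral_eq_integral_of_forall_compl_eq_zero, setIntegral_eq_integral_of_forall_compl_eq_zero]
  · refine integral_mul_fderiv_eq_neg_fderiv_mul_of_integrable
      (intK (cont_fd hO hv h) h1.continuous h2 h3 (subset_tsupport _))
      (intK hv.continuousOn ((h1.continuous_fderiv (by simp)).clm_apply continuous_const) h2 h3 s1)
      (intK hv.continuousOn h1.continuous h2 h3 (subset_tsupport _))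
      (fun x hx => (hv.differentiableOn one_ne_zero).differentiableAt (hO.mem_nhds (h3 hx)))
      fun x _ => h1.differentiable (by simp) x
  · intro x hx
    rw [Function.notMem_support.1 fun e => hx (h3 (subset_tsupport _ e)), mul_zero]
  · intro x hx
    rw [Function.notMem_support.1 fun e => hx (h3 (s1 e)), mul_zero]

lemma uniq {Ω : Set ℂ} (hO : IsOpen Ω) [IsFiniteMeasure (volume.restrict Ω)] {v g : ℂ → ℝ}
    (hv : ContDiffOn ℝ 1 v Ω) (hg : MemLp g 2 (volume.restrict Ω)) (h : ℂ)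
    (hw : ∀ ψ : ℂ → ℝ, ContDiff ℝ (⊤ : ℕ∞) ψ → HasCompactSupport ψ → tsupport ψ ⊆ Ω →
      ∫ z in Ω, v z * fderiv ℝ ψ z h = -∫ z in Ω, g z * ψ z) :
    g =ᵐ[volume.restrict Ω] fun z => fderiv ℝ v z h := by
  have hg1 : IntegrableOn g Ω := hg.integrable one_le_two
  have := hO.ae_eq_zero_of_integral_contDiff_smul_eq_zero (μ := volume)
    (f := fun z => g z - fderiv ℝ v z h) (hg1.locallyIntegrableOn.sub
      ((cont_fd hO hv h).locallyIntegrableOn hO.measurableSet)) fun ψ h1 h2 h3 => by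
      have e := (hw ψ h1 h2 h3).symm.trans (ibp hO hv h1 h2 h3 h)
      obtain ⟨C, hC⟩ := h1.continuous.bounded_above_of_compact_support h2
      rw [neg_inj, ← sub_eq_zero, ← integral_sub (hg1.mul_bdd
        h1.continuous.aestronglyMeasurable (Eventually.of_forall hC))
        (intK (cont_fd hO hv h) h1.continuous h2 h3 (subset_tsupport _)).integrableOn,
        setIntegral_eq_integral_of_forall_compl_eq_zero fun x hx => by
          rw [Function.notMem_support.1 fun e => hx (h3 (subset_tsupport _ e))]; simp] at e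
      rw [← e]; congr 1; ext x; simp only [smul_eq_mul]; ring
  rw [EventuallyEq, ae_restrict_iff' hO.measurableSet]
  filter_upwards [this] with x hx hx' using sub_eq_zero.1 (hx hx')

/-- real test functions -/
def RT (a : ℂ → ℝ) : Prop :=
  ContDiffOn ℝ 1 a D ∧ (∃ C : ℝ, ∀ w ∈ D, ‖a w‖ ≤ C) ∧
    MemLp (fun w => fderiv ℝ a w 1) 2 vD ∧ MemLp (fun w => fderiv ℝ a w I) 2 vD

structure Conf (Ω : Set ℂ) (φ ψ : ℂ → ℂ) : Prop where
  hO : IsOpen Ω
  hb : Bornology.IsBounded Ω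
  hφ : DifferentiableOn ℂ φ D
  inj : Set.InjOn φ D
  im : φ '' D = Ω
  hψ : DifferentiableOn ℂ ψ Ω
  inv : ∀ w ∈ D, ψ (φ w) = w

variable {Ω : Set ℂ} {φ ψ : ℂ → ℂ}

lemma Conf.fd (c : Conf Ω φ ψ) {w : ℂ} (hw : w ∈ D) :
    HasFDerivAt φ (deriv φ w • (1 : ℂ →L[ℝ] ℂ)) w :=
  (c.hφ.differentiableAt (Metric.isOpen_ball.mem_nhds hw)).hasDerivAt.complexToReal_fderiv

lemma Conf.cv (c : Conf Ω φ ψ) (g : ℂ → ℝ) :
    ∫ z in Ω, g z = ∫ w in D, ‖deriv φ w‖ ^ 2 * g (φ w) := by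
  rw [← c.im, integral_image_eq_integral_abs_det_fderiv_smul volume measurableSet_ball
    (fun w hw => (c.fd hw).hasFDerivWithinAt) c.inj]
  simp only [det_smul_one, smul_eq_mul]

lemma Conf.iv (c : Conf Ω φ ψ) (g : ℂ → ℝ) :
    IntegrableOn g Ω ↔ IntegrableOn (fun w => ‖deriv φ w‖ ^ 2 * g (φ w)) D := by
  rw [← c.im, integrableOn_image_iff_integrableOn_abs_det_fderiv_smul volume measurableSet_ball
    (fun w hw => (c.fd hw).hasFDerivWithinAt) c.inj]
  simp only [det_smul_one, smul_eq_mul]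

lemma Conf.fin (c : Conf Ω φ ψ) : IsFiniteMeasure (volume.restrict Ω) :=
  isFiniteMeasure_restrict.2 c.hb.measure_lt_top.ne

lemma Conf.maps (c : Conf Ω φ ψ) : MapsTo φ D Ω := fun _ hw => c.im ▸ mem_image_of_mem φ hw

lemma Conf.maps' (c : Conf Ω φ ψ) : MapsTo ψ Ω D := by
  rw [← c.im]; rintro _ ⟨w, hw, rfl⟩; rwa [c.inv w hw]

lemma Conf.chain (c : Conf Ω φ ψ) {v a : ℂ → ℝ} (hv : ContDiffOn ℝ 1 v Ω)
    (ha : ∀ w ∈ D, a w = v (φ w)) {w : ℂ} (hw : w ∈ D) (h : ℂ) : fderiv ℝ a w h =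
      (deriv φ w * h).re * fderiv ℝ v (φ w) 1 + (deriv φ w * h).im * fderiv ℝ v (φ w) I := by
  have e : a =ᶠ[nhds w] v ∘ φ := mem_of_superset (Metric.isOpen_ball.mem_nhds hw) ha
  rw [e.fderiv_eq, ((((hv.differentiableOn one_ne_zero).differentiableAt
    (c.hO.mem_nhds (c.maps hw))).hasFDerivAt).comp w (c.fd hw)).fderiv, ← smul_eq_mul,
    ← smul_eq_mul (deriv φ w * h).im, ← map_smul, ← map_smul, ← map_add]
  show fderiv ℝ v (φ w) (deriv φ w * h) = _
  congr 1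
  apply Complex.ext <;> simp

lemma Conf.bil (c : Conf Ω φ ψ) {v a v' a' : ℂ → ℝ} (hv : ContDiffOn ℝ 1 v Ω)
    (ha : ∀ w ∈ D, a w = v (φ w)) (hv' : ContDiffOn ℝ 1 v' Ω) (ha' : ∀ w ∈ D, a' w = v' (φ w)) :
    EqOn (fun w => ‖deriv φ w‖ ^ 2 * (fderiv ℝ v (φ w) 1 * fderiv ℝ v' (φ w) 1 +
      fderiv ℝ v (φ w) I * fderiv ℝ v' (φ w) I))
      (fun w => fderiv ℝ a w 1 * fderiv ℝ a' w 1 + fderiv ℝ a w I * fderiv ℝ a' w I) D := by
  intro w hw
  simp only [c.chain hv ha hw, c.chain hv' ha' hw, Complex.sq_norm, normSq_apply]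
  simp
  ring

lemma Conf.cd (c : Conf Ω φ ψ) {a : ℂ → ℝ} (ha : RT a) : ContDiffOn ℝ 1 (a ∘ ψ) Ω :=
  ha.1.comp ((c.hψ.contDiffOn c.hO).restrict_scalars ℝ) c.maps'

lemma Conf.back (c : Conf Ω φ ψ) (a : ℂ → ℝ) : ∀ w ∈ D, a w = (a ∘ ψ) (φ w) := fun w hw => by
  simp [c.inv w hw]

lemma memLp_both {μ : Measure ℂ} {v : ℂ → ℝ} :
    MemLp (fun w => fderiv ℝ v w 1) 2 μ ∧ MemLp (fun w => fderiv ℝ v w I) 2 μ ↔
    Integrable (fun w => fderiv ℝ v w 1 * fderiv ℝ v w 1 + fderiv ℝ v w I * fderiv ℝ v w I) μ := by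
  have m := fun h => (measurable_fderiv_apply_const ℝ v h).aestronglyMeasurable (μ := μ)
  rw [memLp_two_iff_integrable_sq (m 1), memLp_two_iff_integrable_sq (m I)]
  simp only [← sq]
  exact (integrable_add_iff_of_nonneg ((m 1).pow 2) (Eventually.of_forall fun _ => sq_nonneg _)
    (Eventually.of_forall fun _ => sq_nonneg _)).symm

lemma Conf.h1 (c : Conf Ω φ ψ) {a : ℂ → ℝ} (ha : RT a) :
    H1 Ω (a ∘ ψ) (fun z => fderiv ℝ (a ∘ ψ) z 1) fun z => fderiv ℝ (a ∘ ψ) z I := by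
  have := c.fin
  obtain ⟨C, hC⟩ := ha.2.1
  have h2 := memLp_both.2 ((c.iv _).2 ((integrableOn_congr_fun
    (c.bil (c.cd ha) (c.back a) (c.cd ha) (c.back a)) measurableSet_ball).2 (memLp_both.1 ha.2.2)))
  exact ⟨MemLp.of_bound ((c.cd ha).continuousOn.aestronglyMeasurable c.hO.measurableSet) C
    ((ae_restrict_iff' c.hO.measurableSet).2 (Eventually.of_forall fun z hz => hC _ (c.maps' hz))),
    h2.1, h2.2, fun χ h1 h2 h3 => ⟨ibp c.hO (c.cd ha) h1 h2 h3 1, ibp c.hO (c.cd ha) h1 h2 h3 I⟩⟩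

lemma Conf.cv' (c : Conf Ω φ ψ) (a : ℂ → ℝ) (F : ℝ → ℂ → ℝ) :
    ∫ z in Ω, F ((a ∘ ψ) z) z = ∫ w in D, ‖deriv φ w‖ ^ 2 * F (a w) (φ w) := by
  rw [c.cv]
  exact setIntegral_congr_fun measurableSet_ball fun w hw => by simp [c.inv w hw]

lemma Conf.poinc (c : Conf Ω φ ψ) {a : ℂ → ℝ} (ha : RT a)
    (h0 : ∫ w in D, ‖deriv φ w‖ ^ 2 * a w = 0) :
    mu1 Ω * ∫ w in D, ‖deriv φ w‖ ^ 2 * a w ^ 2 ≤
      ∫ w in D, (fderiv ℝ a w 1 * fderiv ℝ a w 1 + fderiv ℝ a w I * fderiv ℝ a w I) := by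
  rw [← c.cv' a fun x _ => x ^ 2, ← setIntegral_congr_fun measurableSet_ball
    (c.bil (c.cd ha) (c.back a) (c.cd ha) (c.back a)), ← c.cv fun z => fderiv ℝ (a ∘ ψ) z 1 *
      fderiv ℝ (a ∘ ψ) z 1 + fderiv ℝ (a ∘ ψ) z I * fderiv ℝ (a ∘ ψ) z I]
  simp only [← sq]
  rcases (integral_nonneg (μ := volume.restrict Ω)
    (f := fun z => (a ∘ ψ) z ^ 2) fun z => sq_nonneg _).eq_or_lt with h | h
  · rw [← h, mul_zero]
    exact integral_nonneg fun z => by positivity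
  · rw [← le_div_iff₀ h]
    refine csInf_le ⟨0, ?_⟩ ⟨_, _, _, c.h1 ha, fun e => h.ne' ?_,
      (c.cv' a fun x _ => x).trans h0, rfl⟩
    · rintro _ ⟨v, g₁, g₂, -, -, -, rfl⟩
      exact div_nonneg (integral_nonneg fun z => by positivity)
        (integral_nonneg fun z => by positivity)
    · refine integral_eq_zero_of_ae ?_
      filter_upwards [e] with z hz
      rw [hz]; simp

lemma fd_re {a : ℂ → ℂ} (ha : ContDiffOn ℝ 1 a D) (L : ℂ →L[ℝ] ℝ) {w : ℂ} (hw : w ∈ D) (h : ℂ) :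
    fderiv ℝ (L ∘ a) w h = L (fderiv ℝ a w h) := by
  rw [(L.hasFDerivAt.comp w ((ha.differentiableOn one_ne_zero).differentiableAt
    (Metric.isOpen_ball.mem_nhds hw)).hasFDerivAt).fderiv]; rfl

lemma Test.fd {a : ℂ → ℂ} (ha : Test a) :
    L2 (fun w => fderiv ℝ a w 1) ∧ L2 fun w => fderiv ℝ a w I := by
  constructor
  · convert ha.2.2.1.add ha.2.2.2 using 1
    ext w; simp only [dz, db, Pi.add_apply]; ring
  · convert (ha.2.2.1.sub ha.2.2.2).const_mul I using 1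
    ext w; simp only [dz, db, Pi.sub_apply]
    linear_combination (fderiv ℝ a w I) * I_mul_I

lemma Test.rt {a : ℂ → ℂ} (ha : Test a) (L : ℂ →L[ℝ] ℝ) : RT (L ∘ a) := by
  obtain ⟨C, hC⟩ := ha.2.1
  have e : ∀ h, L ∘ (fun w => fderiv ℝ a w h) =ᵐ[vD] fun w => fderiv ℝ (L ∘ a) w h := fun h =>
    (ae_restrict_iff' measurableSet_ball).2 (Eventually.of_forall fun w hw =>
      (fd_re ha.1 L hw h).symm)
  exact ⟨L.contDiff.comp_contDiffOn ha.1, ⟨‖L‖ * C, fun w hw => (L.le_opNorm _).trans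
    (mul_le_mul_of_nonneg_left (hC w hw) (norm_nonneg _))⟩,
    (memLp_congr_ae (e 1)).1 (L.comp_memLp' (Test.fd ha).1),
    (memLp_congr_ae (e I)).1 (L.comp_memLp' (Test.fd ha).2)⟩

lemma fd_of {a : ℂ → ℝ} (ha : ContDiffOn ℝ 1 a D) {w : ℂ} (hw : w ∈ D) (h : ℂ) :
    fderiv ℝ (fun w => (a w : ℂ)) w h = fderiv ℝ a w h := by
  have := (ofRealCLM.hasFDerivAt.comp w ((ha.differentiableOn one_ne_zero).differentiableAt
    (Metric.isOpen_ball.mem_nhds hw)).hasFDerivAt).fderiv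
  exact congrArg (fun L => L h) this

lemma RT.test {a : ℂ → ℝ} (ha : RT a) : Test fun w => (a w : ℂ) := by
  have e : ∀ h, MemLp (fun w => fderiv ℝ a w h) 2 vD →
      L2 fun w => fderiv ℝ (fun w => (a w : ℂ)) w h := fun h hh =>
    (memLp_congr_ae ((ae_restrict_iff' measurableSet_ball).2 (Eventually.of_forall fun w hw =>
      fd_of ha.1 hw h))).2 hh.ofReal
  refine ⟨ofRealCLM.contDiff.comp_contDiffOn ha.1, by simpa using ha.2.1, ?_, ?_⟩
  · simpa only [dz, div_eq_mul_inv] using!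
      ((e 1 ha.2.2.1).sub ((e I ha.2.2.2).const_mul I)).mul_const 2⁻¹
  · simpa only [db, div_eq_mul_inv] using!
      ((e 1 ha.2.2.1).add ((e I ha.2.2.2).const_mul I)).mul_const 2⁻¹

lemma integral_reim {f g : ℂ → ℝ} (hf : IntegrableOn f D) (hg : IntegrableOn g D) {F : ℂ → ℂ}
    (h : ∀ w ∈ D, F w = f w + g w * I) : ∫ w in D, F w = (∫ w in D, f w : ℝ) + (∫ w in D, g w : ℝ) * I := by
  rw [setIntegral_congr_fun measurableSet_ball h, integral_add hf.ofReal (hg.ofReal.mul_const _),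
    integral_mul_const, integral_complex_ofReal, integral_complex_ofReal]

end PullAux

open PullAux Complex Filter in
theorem pull {Ω : Set ℂ} (hO : IsOpen Ω) (hb : Bornology.IsBounded Ω) (hμ : 0 < mu1 Ω)
    {φ ψ : ℂ → ℂ} (hφ : DifferentiableOn ℂ φ D) (inj : Set.InjOn φ D) (im : φ '' D = Ω)
    (ne : ∀ w ∈ D, deriv φ w ≠ 0) (hψ : DifferentiableOn ℂ ψ Ω) (inv : ∀ w ∈ D, ψ (φ w) = w)
    {u : ℂ → ℝ} (hu : InV Ω u) (hsm : ContDiffOn ℝ 3 u Ω) (hcl : ContinuousOn u (closure Ω)) :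
    Setup φ (mu1 Ω) (fun w => (u (φ w) : ℂ)) := by
  have c : Conf Ω φ ψ := ⟨hO, hb, hφ, inj, im, hψ, inv⟩
  have := c.fin
  obtain ⟨g₁, g₂, hH, hw⟩ := hu
  have hu1 : ContDiffOn ℝ 1 u Ω := hsm.of_le (by norm_num)
  have e1 := uniq hO hu1 hH.2.1 1 fun χ a1 a2 a3 => (hH.2.2.2 χ a1 a2 a3).1
  have e2 := uniq hO hu1 hH.2.2.1 I fun χ a1 a2 a3 => (hH.2.2.2 χ a1 a2 a3).2
  have hs : ContDiffOn ℝ 3 (fun w => u (φ w)) D :=
    hsm.comp ((hφ.contDiffOn Metric.isOpen_ball).restrict_scalars ℝ) c.maps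
  have hrt : RT fun w => u (φ w) := by
    obtain ⟨C, hC⟩ := hb.isCompact_closure.exists_bound_of_continuousOn hcl
    exact ⟨hs.of_le (by norm_num), ⟨C, fun w hw => hC _ (subset_closure (c.maps hw))⟩,
      memLp_both.2 ((integrableOn_congr_fun (c.bil hu1 (fun _ _ => rfl) hu1 fun _ _ => rfl)
        measurableSet_ball).1 ((c.iv _).1 (memLp_both.1
          ⟨(memLp_congr_ae e1).1 hH.2.1, (memLp_congr_ae e2).1 hH.2.2.1⟩)))⟩
  have hJ : IntegrableOn (fun w => ‖deriv φ w‖ ^ 2) D := by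
    simpa using (c.iv fun _ => 1).1 (integrable_const 1)
  have hJa : ∀ a a', RT a → RT a' → IntegrableOn (fun w => ‖deriv φ w‖ ^ 2 * (a w * a' w)) D := by
    intro a a' ha ha'
    obtain ⟨C, hC⟩ := ha.2.1
    obtain ⟨C', hC'⟩ := ha'.2.1
    refine hJ.mul_bdd (c := C * C') ((ha.1.continuousOn.mul ha'.1.continuousOn).aestronglyMeasurable
      measurableSet_ball) ((ae_restrict_iff' measurableSet_ball).2
        (Eventually.of_forall fun w hw => ?_))
    rw [norm_mul]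
    exact mul_le_mul (hC w hw) (hC' w hw) (norm_nonneg _) ((norm_nonneg _).trans (hC w hw))
  have hG : ∀ a a', RT a → RT a' → IntegrableOn (fun w => fderiv ℝ a w 1 * fderiv ℝ a' w 1 +
      fderiv ℝ a w I * fderiv ℝ a' w I) D := fun a a' ha ha' =>
    (ha.2.2.1.integrable_mul ha'.2.2.1).add (ha.2.2.2.integrable_mul ha'.2.2.2)
  have one : RT fun _ => 1 := ⟨contDiffOn_const, ⟨1, by simp⟩, by simp, by simp⟩
  have weakR : ∀ a, RT a → ∫ w in D, (fderiv ℝ (fun w => u (φ w)) w 1 * fderiv ℝ a w 1 +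
      fderiv ℝ (fun w => u (φ w)) w I * fderiv ℝ a w I) =
      mu1 Ω * ∫ w in D, ‖deriv φ w‖ ^ 2 * (u (φ w) * a w) := fun a ha => by
    rw [← c.cv' a fun x z => u z * x, ← hw _ _ _ (c.h1 ha), ← setIntegral_congr_fun
      measurableSet_ball (c.bil hu1 (fun _ _ => rfl) (c.cd ha) (c.back a)), ← c.cv fun z =>
        fderiv ℝ u z 1 * fderiv ℝ (a ∘ ψ) z 1 + fderiv ℝ u z I * fderiv ℝ (a ∘ ψ) z I]
    refine integral_congr_ae ?_
    filter_upwards [e1, e2] with z h1 h2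
    rw [h1, h2]
  obtain ⟨R, hR⟩ := hb.exists_norm_le
  refine ⟨hφ, ⟨R, fun w hw => hR _ (c.maps hw)⟩, ne,
    (memLp_two_iff_integrable_sq_norm (measurable_deriv φ).aestronglyMeasurable).2 hJ, hμ,
    fun w => conj_ofReal _, ofRealCLM.contDiff.comp_contDiffOn hs, hrt.test,
    fun a ha h0 => ?_, fun a ha => ?_⟩
  · have r1 := Test.rt ha reCLM
    have r2 := Test.rt ha imCLM
    rw [integral_reim (hJa _ _ one r1) (hJa _ _ one r2) fun w _ => by
      apply Complex.ext <;> simp [-ofReal_pow]] at h0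
    have z1 := congrArg re h0
    have z2 := congrArg Complex.im h0
    simp only [one_mul, add_re, ofReal_re, mul_re, I_re, mul_zero, ofReal_im, I_im, mul_one,
      sub_self, add_zero, zero_re, add_im, mul_im, zero_add, zero_im] at z1 z2
    have := add_le_add (c.poinc r1 z1) (c.poinc r2 z2)
    simp only [sq ((reCLM ∘ a) _), sq ((imCLM ∘ a) _)] at this
    rw [← mul_add, ← integral_add (hJa _ _ r1 r1) (hJa _ _ r2 r2),
      ← integral_add (hG _ _ r1 r1) (hG _ _ r2 r2)] at this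
    refine le_of_eq_of_le ?_ (this.trans_eq (Eq.symm ?_))
    · congr 2; ext w
      simp only [norm_mul, mul_pow, Complex.sq_norm (a w), normSq_apply, Function.comp,
        reCLM_apply, imCLM_apply]
      ring
    · refine setIntegral_congr_fun measurableSet_ball fun w hw => ?_
      simp only [fd_re ha.1 _ hw, dz, db, Complex.sq_norm, normSq_apply]
      simp
      ring
  · have r1 := Test.rt ha reCLM
    have r2 := Test.rt ha imCLM
    rw [integral_reim (hG _ _ hrt r1) (hG _ _ hrt r2), weakR _ r1, weakR _ r2,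
      integral_reim (hJa _ _ hrt r1) (hJa _ _ hrt r2) fun w _ => by
        apply Complex.ext <;> simp [-ofReal_pow]]
    · push_cast; ring
    · intro w hw
      simp only [fd_re ha.1 _ hw, dz, db, fd_of hrt.1 hw, reCLM_apply, imCLM_apply]
      apply Complex.ext <;> simp <;> ring

end Vale.Agent.P071
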