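import Mathlib

/-! P071 part RMT: the Riemann mapping theorem (bounded domains suffice).  Standalone. -/

namespace Vale.Agent.P071

open Filter Metric Set Topology Complex

namespace RMTAux

lemma montel {Ω : Set ℂ} (hO : IsOpen Ω) (F : ℕ → ℂ → ℂ) (hd : ∀ n, DifferentiableOn ℂ (F n) Ω)
    (hm : ∀ n, MapsTo (F n) Ω (ball 0 1)) (U : Ultrafilter ℕ) :
    ∃ f : ℂ → ℂ, TendstoLocallyUniformlyOn F f U Ω := by
  have h1 : ∀ z ∈ Ω, ∃ w, Tendsto (F · z) U (𝓝 w) := fun z hz => by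
    obtain ⟨w, -, hw⟩ := (isCompact_closedBall (0 : ℂ) 1).ultrafilter_le_nhds (U.map (F · z))
      (le_principal_iff.2 (mem_map.2 (univ_mem' fun n => ball_subset_closedBall (hm n hz))))
    exact ⟨w, hw⟩
  choose! f hf using h1
  refine ⟨f, Metric.tendstoLocallyUniformlyOn_iff.2 fun ε hε x hx => ?_⟩
  obtain ⟨r, hr, hrΩ⟩ := Metric.isOpen_iff.1 hO x hx
  have h2 : ∀ n, ∀ y ∈ ball x r, dist (F n y) (F n x) ≤ 2 / r * dist y x := fun n y hy =>
    dist_le_div_mul_dist_of_mapsTo_ball ((hd n).mono hrΩ) (fun z hz => by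
      have a1 := mem_ball_zero_iff.1 (hm n (hrΩ hz))
      have a2 := mem_ball_zero_iff.1 (hm n hx)
      rw [mem_closedBall, dist_eq_norm]
      linarith [norm_sub_le (F n z) (F n x)]) hy
  have h3 : ∀ y ∈ ball x r, dist (f y) (f x) ≤ 2 / r * dist y x := fun y hy =>
    le_of_tendsto' ((hf y (hrΩ hy)).dist (hf x hx)) fun n => h2 n y hy
  refine ⟨ball x (min r (ε * r / 8)), mem_nhdsWithin_of_mem_nhds (ball_mem_nhds _ (by positivity)),
    ?_⟩
  filter_upwards [Metric.tendsto_nhds.1 (hf x hx) (ε / 2) (by positivity)] with n hn y hy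
  have hy1 : y ∈ ball x r := ball_subset_ball (min_le_left _ _) hy
  have hy2 : 2 / r * dist y x ≤ ε / 4 := by
    have : dist y x ≤ ε * r / 8 := (mem_ball.1 hy).le.trans (min_le_right _ _)
    calc _ ≤ 2 / r * (ε * r / 8) := by gcongr
      _ = _ := by field_simp; norm_num
  have := dist_triangle4 (f y) (f x) (F n x) (F n y)
  rw [dist_comm (f x), dist_comm (F n x) (F n y)] at this
  linarith [h2 n y hy1, h3 y hy1]

lemma hurwitz {Ω V : Set ℂ} (hO : IsOpen Ω) (hc : IsPreconnected Ω) (hV : IsOpen V) (hVΩ : V ⊆ Ω)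
    {F : ℕ → ℂ → ℂ} {f : ℂ → ℂ} {p : Filter ℕ} [p.NeBot]
    (hF : TendstoLocallyUniformlyOn F f p Ω) (hd : ∀ n, DifferentiableOn ℂ (F n) Ω)
    {c : ℕ → ℂ} {b : ℂ} (hb : b ∈ V) (hcb : Tendsto c p (𝓝 (f b)))
    (hne : ∀ n, ∀ z ∈ V, F n z ≠ c n) : ∀ z ∈ Ω, f z = f b := by
  have ha : AnalyticOnNhd ℂ f Ω :=
    (hF.differentiableOn (Eventually.of_forall hd) hO).analyticOnNhd hO
  rcases (ha b (hVΩ hb)).eventually_eq_or_eventually_ne (analyticAt_const (v := f b)) with h | h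
  · exact ha.eqOn_of_preconnected_of_eventuallyEq analyticOnNhd_const hc (hVΩ hb) h
  exfalso
  obtain ⟨r, hr, h1⟩ := (nhds_basis_closedBall (x := b)).mem_iff.1
    (inter_mem (hV.mem_nhds hb) (eventually_nhdsWithin_iff.1 h))
  have h2 : closedBall b r ⊆ V := fun z hz => (h1 hz).1
  obtain ⟨z0, hz0, hmin⟩ := (isCompact_sphere b r).exists_isMinOn
    (NormedSpace.sphere_nonempty.2 hr.le) (f := fun z => ‖f z - f b‖)
    (((ha.continuousOn.mono (sphere_subset_closedBall.trans (h2.trans hVΩ))).sub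
      continuousOn_const).norm)
  have hε : 0 < ‖f z0 - f b‖ := norm_pos_iff.2 (sub_ne_zero.2
    ((h1 (sphere_subset_closedBall hz0)).2 (ne_of_mem_sphere hz0 hr.ne')))
  set ε := ‖f z0 - f b‖
  have hu := Metric.tendstoUniformlyOn_iff.1 ((tendstoLocallyUniformlyOn_iff_forall_isCompact hO).1
    hF _ (h2.trans hVΩ) (isCompact_closedBall b r)) (ε / 4) (by positivity)
  obtain ⟨n, hn, hn'⟩ := (hu.and (Metric.tendsto_nhds.1 hcb (ε / 4) (by positivity))).exists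
  have h3 : DifferentiableOn ℂ (fun z => (F n z - c n)⁻¹) V :=
    (((hd n).mono hVΩ).sub_const _).inv fun z hz => sub_ne_zero.2 (hne n z hz)
  have h4 : ‖(F n b - c n)⁻¹‖ ≤ (ε / 2)⁻¹ := by
    refine norm_le_of_forall_mem_frontier_norm_le (f := fun z => (F n z - c n)⁻¹) isBounded_ball
      (h3.diffContOnCl_ball h2) (fun z hz => ?_) (subset_closure (mem_ball_self hr))
    rw [frontier_ball b hr.ne'] at hz
    have a1 : ε ≤ ‖f z - f b‖ := hmin hz
    have a2 := hn z (sphere_subset_closedBall hz)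
    have a3 := dist_triangle4 (f z) (F n z) (c n) (f b)
    rw [norm_inv]
    refine inv_anti₀ (by positivity) ?_
    rw [← dist_eq_norm] at a1 ⊢
    linarith
  rw [norm_inv, inv_le_inv₀ (norm_pos_iff.2 (sub_ne_zero.2 (hne n b hb))) (by positivity),
    ← dist_eq_norm] at h4
  have a2 := hn b (mem_closedBall_self hr.le)
  have a3 := dist_triangle_left (F n b) (c n) (f b)
  rw [dist_comm (f b) (c n)] at a3
  linarith

/-- injective holomorphic maps into the disc -/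
def Good (Ω : Set ℂ) (f : ℂ → ℂ) : Prop :=
  DifferentiableOn ℂ f Ω ∧ MapsTo f Ω (ball 0 1) ∧ InjOn f Ω ∧ ∀ z ∈ Ω, deriv f z ≠ 0

/-- disc automorphism -/
noncomputable def mob (a w : ℂ) : ℂ := (w - a) / (1 - (starRingEnd ℂ) a * w)

lemma den_ne {a w : ℂ} (ha : ‖a‖ < 1) (hw : ‖w‖ < 1) : 1 - (starRingEnd ℂ) a * w ≠ 0 := by
  intro h
  have := congrArg norm (sub_eq_zero.1 h)
  rw [norm_one, norm_mul, RCLike.norm_conj] at this
  nlinarith [norm_nonneg a, norm_nonneg w]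

lemma norm_mob {a w : ℂ} (ha : ‖a‖ < 1) (hw : ‖w‖ < 1) : ‖mob a w‖ < 1 := by
  rw [mob, norm_div, div_lt_one (norm_pos_iff.2 (den_ne ha hw)), ← sq_lt_sq₀ (norm_nonneg _)
    (norm_nonneg _), Complex.sq_norm, Complex.sq_norm]
  have h1 : normSq a < 1 := by rw [← Complex.sq_norm]; nlinarith [norm_nonneg a]
  have h2 : normSq w < 1 := by rw [← Complex.sq_norm]; nlinarith [norm_nonneg w]
  have : normSq (1 - (starRingEnd ℂ) a * w) - normSq (w - a) = (1 - normSq a) * (1 - normSq w) := by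
    simp [normSq_apply]; ring
  nlinarith

lemma hasDerivAt_mob {a w : ℂ} (ha : ‖a‖ < 1) (hw : ‖w‖ < 1) :
    HasDerivAt (mob a) ((1 - (starRingEnd ℂ) a * a) / (1 - (starRingEnd ℂ) a * w) ^ 2) w := by
  have := ((hasDerivAt_id w).sub_const a).div
    (((hasDerivAt_id w).const_mul ((starRingEnd ℂ) a)).const_sub 1) (den_ne ha hw)
  refine this.congr_deriv ?_
  simp only [id]; ring

lemma Good.deriv_mob {Ω : Set ℂ} (hO : IsOpen Ω) {f : ℂ → ℂ} (hf : Good Ω f) {a : ℂ}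
    (ha : ‖a‖ < 1) {z : ℂ} (hz : z ∈ Ω) : HasDerivAt (fun z => mob a (f z))
      ((1 - (starRingEnd ℂ) a * a) / (1 - (starRingEnd ℂ) a * f z) ^ 2 * deriv f z) z :=
  (hasDerivAt_mob ha (mem_ball_zero_iff.1 (hf.2.1 hz))).comp z
    (hf.1.differentiableAt (hO.mem_nhds hz)).hasDerivAt

lemma Good.mob {Ω : Set ℂ} (hO : IsOpen Ω) {f : ℂ → ℂ} (hf : Good Ω f) {a : ℂ} (ha : ‖a‖ < 1) :
    Good Ω fun z => mob a (f z) := by
  have hm : ∀ z ∈ Ω, ‖f z‖ < 1 := fun z hz => mem_ball_zero_iff.1 (hf.2.1 hz)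
  refine ⟨fun z hz => (hf.deriv_mob hO ha hz).differentiableAt.differentiableWithinAt,
    fun z hz => mem_ball_zero_iff.2 (norm_mob ha (hm z hz)), fun z hz w hw h => hf.2.2.1 hz hw ?_,
    fun z hz => ?_⟩
  · simp only [RMTAux.mob] at h
    rw [div_eq_div_iff (den_ne ha (hm z hz)) (den_ne ha (hm w hw))] at h
    refine mul_left_cancel₀ (den_ne ha ha) ?_
    linear_combination h
  · rw [(hf.deriv_mob hO ha hz).deriv]
    exact mul_ne_zero (div_ne_zero (den_ne ha ha) (pow_ne_zero _ (den_ne ha (hm z hz))))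
      (hf.2.2.2 z hz)

lemma Good.sqrt {Ω : Set ℂ} (hO : IsOpen Ω) (hs : IsSimplyConnected Ω) {g : ℂ → ℂ}
    (hg : Good Ω g) (h0 : ∀ z ∈ Ω, g z ≠ 0) : ∃ h, Good Ω h ∧ (∀ z, h z ^ 2 = g z) ∧
      ∀ z ∈ Ω, deriv h z = deriv g z / (2 * h z) := by
  obtain ⟨h, hc, hh⟩ := exists_continuousOn_pow_eq hs hO hg.1.continuousOn
    (by rintro ⟨z, hz, e⟩; exact h0 z hz e) two_ne_zero
  have h1 : ∀ z ∈ Ω, 2 * h z ≠ 0 := fun z hz e => h0 z hz (by
    rw [← hh]; simpa using e)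
  have hd : ∀ z ∈ Ω, HasDerivAt h (deriv g z / (2 * h z)) z := fun z hz => by
    have a1 := hasDerivAt_iff_tendsto_slope.1 (hg.1.differentiableAt (hO.mem_nhds hz)).hasDerivAt
    have a2 : Tendsto (fun w => h w + h z) (𝓝[≠] z) (𝓝 (2 * h z)) := by
      rw [two_mul]
      exact ((hc.continuousAt (hO.mem_nhds hz)).tendsto.mono_left nhdsWithin_le_nhds).add_const _
    refine hasDerivAt_iff_tendsto_slope.2 ((a1.div a2 (h1 z hz)).congr' ?_)
    filter_upwards [a2.eventually_ne (h1 z hz)] with w hw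
    simp only [Pi.div_apply, slope_def_field, ← hh]
    rw [div_right_comm, sq_sub_sq, mul_div_cancel_left₀ _ hw]
  refine ⟨h, ⟨fun z hz => (hd z hz).differentiableAt.differentiableWithinAt, fun z hz => ?_,
    fun z hz w hw e => hg.2.2.1 hz hw (by rw [← hh, ← hh, e]), fun z hz => ?_⟩, hh,
    fun z hz => (hd z hz).deriv⟩
  · have := mem_ball_zero_iff.1 (hg.2.1 hz)
    rw [← hh, norm_pow] at this
    rw [mem_ball_zero_iff]
    nlinarith [norm_nonneg (h z)]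
  · rw [(hd z hz).deriv]; exact div_ne_zero (hg.2.2.2 z hz) (h1 z hz)

lemma improve {Ω : Set ℂ} (hO : IsOpen Ω) (hs : IsSimplyConnected Ω) {x₀ : ℂ} (hx : x₀ ∈ Ω)
    {f : ℂ → ℂ} (hf : Good Ω f) (h0 : f x₀ = 0) {c : ℂ} (hc : ‖c‖ < 1) (hn : c ∉ f '' Ω) :
    ∃ k, Good Ω k ∧ k x₀ = 0 ∧ ‖deriv f x₀‖ < ‖deriv k x₀‖ := by
  obtain ⟨h, hh, e1, e2⟩ := (hf.mob hO hc).sqrt hO hs fun z hz => div_ne_zero
    (sub_ne_zero.2 fun e => hn ⟨z, hz, e⟩) (den_ne hc (mem_ball_zero_iff.1 (hf.2.1 hz)))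
  have hd : ‖h x₀‖ < 1 := mem_ball_zero_iff.1 (hh.2.1 hx)
  refine ⟨_, hh.mob hO hd, by simp [mob], ?_⟩
  have e3 : ‖h x₀‖ ^ 2 = ‖c‖ := by rw [← norm_pow, e1, h0]; simp [mob]
  have hc0 : c ≠ 0 := fun e => hn ⟨x₀, hx, h0.trans e.symm⟩
  have hd0 : 0 < ‖h x₀‖ := by
    have := norm_pos_iff.2 hc0
    rw [← e3] at this
    exact lt_of_le_of_ne (norm_nonneg _) fun e => by simp [← e] at this
  have e4 : ∀ a : ℂ, ‖a‖ < 1 → ‖1 - (starRingEnd ℂ) a * a‖ = 1 - ‖a‖ ^ 2 := fun a ha => by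
    rw [conj_mul', ← ofReal_pow, ← ofReal_one, ← ofReal_sub, norm_real,
      Real.norm_of_nonneg (by nlinarith [norm_nonneg a])]
  rw [(hh.deriv_mob hO hd hx).deriv, e2 x₀ hx, (hf.deriv_mob hO hc hx).deriv, h0]
  simp only [norm_mul, norm_div, norm_pow, e4 _ hd, e4 _ hc, mul_zero, sub_zero, norm_one,
    norm_ofNat, ← e3]
  have hp := norm_pos_iff.2 (hf.2.2.2 x₀ hx)
  set d := ‖h x₀‖
  have h1 : 0 < 1 - d ^ 2 := by nlinarith
  have : (1 - d ^ 2) / (1 - d ^ 2) ^ 2 * ((1 - (d ^ 2) ^ 2) / 1 ^ 2 * ‖deriv f x₀‖ / (2 * d)) =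
      (1 + d ^ 2) / (2 * d) * ‖deriv f x₀‖ := by field_simp; ring
  rw [this]
  refine lt_mul_of_one_lt_left hp ((one_lt_div (by positivity)).2 ?_)
  nlinarith

lemma exists_bij {Ω : Set ℂ} (hO : IsOpen Ω) (hb : Bornology.IsBounded Ω)
    (hs : IsSimplyConnected Ω) {x₀ : ℂ} (hx : x₀ ∈ Ω) :
    ∃ f, Good Ω f ∧ f x₀ = 0 ∧ f '' Ω = ball 0 1 := by
  have hc : IsPreconnected Ω := hs.isPathConnected.isConnected.isPreconnected
  set S : Set ℝ := {s | ∃ f, Good Ω f ∧ f x₀ = 0 ∧ s = ‖deriv f x₀‖}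
  obtain ⟨R, hR, hRΩ⟩ := hb.subset_ball_lt 0 x₀
  have hR' : (R : ℂ) ≠ 0 := ofReal_ne_zero.2 hR.ne'
  have g0 : Good Ω fun z => (z - x₀) / R := by
    refine ⟨by fun_prop, fun z hz => ?_, fun z _ w _ e => by simpa [hR'] using e, fun z _ => ?_⟩
    · rw [mem_ball_zero_iff, norm_div, norm_real, Real.norm_of_nonneg hR.le, div_lt_one hR]
      exact mem_ball_iff_norm.1 (hRΩ hz)
    · simp [hR']
  have hS0 : _ ∈ S := ⟨_, g0, by simp, rfl⟩
  obtain ⟨r, hr, hrΩ⟩ := Metric.isOpen_iff.1 hO x₀ hx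
  have hSb : BddAbove S := ⟨1 / r, by
    rintro _ ⟨f, hf, h0, rfl⟩
    exact norm_deriv_le_div_of_mapsTo_ball (hf.1.mono hrΩ)
      (fun z hz => h0 ▸ ball_subset_closedBall (hf.2.1 (hrΩ hz))) hr⟩
  obtain ⟨u, -, hu, huS⟩ := exists_seq_tendsto_sSup ⟨_, hS0⟩ hSb
  choose F hF hF0 hFu using huS
  obtain ⟨f, hf⟩ := montel hO F (fun n => (hF n).1) (fun n => (hF n).2.1) (hyperfilter ℕ)
  have hd := hf.differentiableOn (Eventually.of_forall fun n => (hF n).1) hO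
  have hf' := hf.deriv (Eventually.of_forall fun n => (hF n).1) hO
  have e1 : ‖deriv f x₀‖ = sSup S := by
    refine tendsto_nhds_unique (hf'.tendsto_at hx).norm ?_
    have := hu.mono_left Nat.hyperfilter_le_atTop
    rwa [funext hFu] at this
  have e2 : deriv f x₀ ≠ 0 := norm_pos_iff.1 (e1 ▸
    (norm_pos_iff.2 (g0.2.2.2 x₀ hx)).trans_le (le_csSup hSb hS0))
  have nc : ∀ w, ¬∀ z ∈ Ω, f z = w := fun w h => e2 (by
    rw [EventuallyEq.deriv_eq (f := fun _ => w) (mem_of_superset (hO.mem_nhds hx) h), deriv_const])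
  have e3 : f x₀ = 0 := tendsto_nhds_unique (hf.tendsto_at hx) (by simp [hF0])
  have gf : Good Ω f := by
    refine ⟨hd, ?_, fun a ha b hb e => by_contra fun hab => nc (f b) ?_, fun b hb e => e2 ?_⟩
    · have h1 := ((hd.analyticOnNhd hO).is_constant_or_isOpen hc).resolve_left
        (fun ⟨w, h⟩ => nc w h) Ω subset_rfl hO
      rw [mapsTo_iff_image_subset, ← interior_closedBall 0 one_ne_zero]
      refine interior_maximal ?_ h1
      rintro _ ⟨z, hz, rfl⟩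
      exact isClosed_closedBall.mem_of_tendsto (hf.tendsto_at hz)
        (Eventually.of_forall fun n => ball_subset_closedBall ((hF n).2.1 hz))
    · exact hurwitz hO hc (hO.sdiff isClosed_singleton) sdiff_subset hf (fun n => (hF n).1)
        (c := fun n => F n a) ⟨hb, Ne.symm hab⟩ (e ▸ hf.tendsto_at ha)
        fun n z hz h => hz.2 ((hF n).2.2.1 hz.1 ha h)
    · exact (hurwitz hO hc hO subset_rfl hf' (fun n => (hF n).1.deriv hO) (c := fun _ => 0) hb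
        (e ▸ tendsto_const_nhds) (fun n z hz => (hF n).2.2.2 z hz) x₀ hx).trans e
  refine ⟨f, gf, e3, gf.2.1.image_subset.antisymm fun c hc => by_contra fun hn => ?_⟩
  obtain ⟨k, hk, hk0, hlt⟩ := improve hO hs hx gf e3 (mem_ball_zero_iff.1 hc) hn
  exact hlt.not_ge (e1 ▸ le_csSup hSb ⟨k, hk, hk0, rfl⟩)

end RMTAux

theorem riemann_map {Ω : Set ℂ} (hO : IsOpen Ω) (hb : Bornology.IsBounded Ω)
    (hs : IsSimplyConnected Ω) {x₀ : ℂ} (hx : x₀ ∈ Ω) :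
    ∃ φ : ℂ → ℂ, DifferentiableOn ℂ φ (Metric.ball 0 1) ∧ Set.InjOn φ (Metric.ball 0 1) ∧
      φ '' Metric.ball 0 1 = Ω ∧ φ 0 = x₀ ∧ (∀ w ∈ Metric.ball (0 : ℂ) 1, deriv φ w ≠ 0) ∧
      ∃ ψ : ℂ → ℂ, DifferentiableOn ℂ ψ Ω ∧ ∀ w ∈ Metric.ball (0 : ℂ) 1, ψ (φ w) = w := by
  obtain ⟨f, hf, h0, him⟩ := RMTAux.exists_bij hO hb hs hx
  have hbij : BijOn f Ω (ball 0 1) := ⟨hf.2.1, hf.2.2.1, him.ge⟩
  have hi := hbij.invOn_invFunOn
  have hbij' := hbij.symm hi.symm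
  set φ := Function.invFunOn f Ω
  have hd : ∀ w ∈ ball (0 : ℂ) 1, HasStrictDerivAt φ (deriv f (φ w))⁻¹ w := fun w hw => by
    have hz := hbij'.mapsTo hw
    have := (hf.1.analyticAt (hO.mem_nhds hz)).hasStrictDerivAt.to_local_left_inverse
      (hf.2.2.2 _ hz) (g := φ) (mem_of_superset (hO.mem_nhds hz) fun z hz => hi.1 hz)
    rwa [hi.2 hw] at this
  refine ⟨φ, fun w hw => (hd w hw).hasDerivAt.differentiableAt.differentiableWithinAt,
    hbij'.injOn, hbij'.image_eq, h0 ▸ hi.1 hx, fun w hw => ?_, f, hf.1, fun w hw => hi.2 hw⟩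
  rw [(hd w hw).hasDerivAt.deriv]
  exact inv_ne_zero (hf.2.2.2 _ (hbij'.mapsTo hw))

end Vale.Agent.P071
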