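import Vale.Agent.P071.Pol

/-! P071 part Tang: the spectral inequality for tangential fields. -/

open MeasureTheory ComplexConjugate Filter Topology Set

noncomputable section
namespace Vale.Agent.P071
namespace TangAux

variable {φ U G : ℂ → ℂ} {μ : ℝ}

lemma hol_deriv (S : Setup φ μ U) : DifferentiableOn ℂ (deriv φ) D := S.hol.deriv isOpen_D

lemma dAt_deriv (S : Setup φ μ U) {w : ℂ} (hw : w ∈ D) : DifferentiableAt ℂ (deriv φ) w :=
  (hol_deriv S).differentiableAt (isOpen_D.mem_nhds hw)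

lemma cd_deriv (S : Setup φ μ U) : ContDiffOn ℝ 1 (deriv φ) D :=
  ((hol_deriv S).contDiffOn isOpen_D).restrict_scalars ℝ

lemma cd_phi (S : Setup φ μ U) : ContDiffOn ℝ 1 φ D :=
  (S.hol.contDiffOn isOpen_D).restrict_scalars ℝ

lemma l2_mul {f g : ℂ → ℂ} (hf : L2 f) (hg : ContinuousOn g D) (C : ℝ) (hC : ∀ w ∈ D, ‖g w‖ ≤ C) :
    L2 fun w => f w * g w := by
  refine hf.of_le_mul (c := C) (hf.1.mul (aesm_of_cont' hg)) (ae_D.mono fun w hw => ?_)
  rw [norm_mul, mul_comm]; gcongr; exact hC w hw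

lemma l2_pol {f g : ℂ → ℂ} (hf : L2 f) (hg : Pol g) : L2 fun w => f w * g w := by
  obtain ⟨C, -, hC⟩ := bdd_of_cont hg.cont
  exact l2_mul hf hg.cont.continuousOn C hC

lemma test_pol {f : ℂ → ℂ} (hf : Pol f) : Test f := by
  obtain ⟨C, -, hC⟩ := bdd_of_cont hf.cont
  exact ⟨hf.smooth.contDiffOn, ⟨C, hC⟩, hf.dz'.l2, hf.db'.l2⟩

/-- (a) the boundary condition, integrated by parts. -/
lemma weak_bc (S : Setup φ μ U) (hG : ContDiffOn ℝ 1 G (D \ {0}))
    (h1 : L2 fun w => deriv φ w * G w) (h2 : L2 (db G)) (bc : BC φ G) {θ : ℂ → ℂ} (hθ : Adm θ) :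
    (ip (fun w => deriv φ w * G w) (dz θ)).re =
      -(ip (db G) (fun w => conj (deriv φ w) * θ w)).re := by
  have hd := (cd_deriv S).mono (sdiff_subset (t := {0}))
  have hc : ContDiffOn ℝ 1 (fun w => deriv φ w * G w * conj (θ w)) (D \ {0}) :=
    (hd.mul hG).mul hθ.1.cj.smooth.contDiffOn
  have e : EqOn (db fun w => deriv φ w * G w * conj (θ w))
      (fun w => deriv φ w * G w * conj (dz θ w) + db G w * conj (conj (deriv φ w) * θ w))
      (D \ {0}) := fun w hw => by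
    have a1 := ContDiffOn.dAt hd isOpen_D0 (by simp) hw
    have a2 := ContDiffOn.dAt hG isOpen_D0 (by simp) hw
    rw [db_mul (a1.fun_mul a2) (hθ.1.cj.diff w), db_mul a1 a2, db_hol (dAt_deriv S hw.1), db_conj]
    simp; ring
  have i1 := h1.int_mul hθ.1.dz'.l2.cj
  have i2 := h2.int_mul (l2_pol S.area.cj hθ.1).cj
  have hi : Integrable (db fun w => deriv φ w * G w * conj (θ w)) vD :=
    (i1.add i2).congr (ae_D0.mono fun w hw => (e hw).symm)
  have t := (Complex.continuous_re.tendsto _).comp (cut_ibp hc hi)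
  have := tendsto_nhds_unique t (bc θ hθ)
  rw [int_congr e, integral_add i1 i2] at this
  simp only [ip]
  simp only [Complex.neg_re, Complex.add_re] at this
  linarith

/-- The Dirichlet energy. -/
def E (a : ℂ → ℂ) : ℝ := 2 * (N (dz a) + N (db a))

lemma poinc' (S : Setup φ μ U) {a : ℂ → ℂ} (ha : Test a)
    (h0 : ∫ w in D, ((‖deriv φ w‖ ^ 2 : ℝ) : ℂ) * a w = 0) :
    μ * N (fun w => deriv φ w * a w) ≤ E a := by
  refine (S.poinc a ha h0).trans (le_of_eq ?_)
  rw [integral_const_mul, integral_add ha.2.2.1.int_sq ha.2.2.2.int_sq]; rfl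

lemma area_pos (S : Setup φ μ U) : 0 < N (deriv φ) := by
  refine lt_of_le_of_ne (N_nonneg _) fun h => ?_
  have := (integral_eq_zero_iff_of_nonneg (fun _ => by positivity) S.area.int_sq).1 h.symm
  have h2 : ∀ᵐ w ∂vD, False := by
    filter_upwards [this, ae_D] with w h1 h2
    exact S.ne w h2 (by simpa using h1)
  rw [eventually_false_iff_eq_bot, ae_eq_bot, Measure.restrict_eq_zero] at h2
  exact (Metric.measure_ball_pos volume (0 : ℂ) one_pos).ne' h2

lemma int_J (S : Setup φ μ U) {a : ℂ → ℂ} (ha : ContinuousOn a D) (C : ℝ)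
    (hC : ∀ w ∈ D, ‖a w‖ ≤ C) : Integrable (fun w => ((‖deriv φ w‖ ^ 2 : ℝ) : ℂ) * a w) vD := by
  refine ((l2_mul S.area ha C hC).int_mul S.area.cj).congr (Eventually.of_forall fun w => ?_)
  simp only
  rw [← Complex.normSq_eq_norm_sq, ← Complex.mul_conj]; ring

/-- The plane wave. -/
def ew (φ : ℂ → ℂ) (s : ℝ) (w : ℂ) : ℂ := Complex.exp (Complex.I * s / 2 * (φ w + conj (φ w)))

lemma norm_ew (φ : ℂ → ℂ) (s : ℝ) (w : ℂ) : ‖ew φ s w‖ = 1 := by
  rw [ew, Complex.add_conj, Complex.norm_exp]; simp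

lemma conj_ew (φ : ℂ → ℂ) (s : ℝ) (w : ℂ) : conj (ew φ s w) = ew φ (-s) w := by
  rw [ew, ew, ← Complex.exp_conj]; congr 1; simp [map_ofNat, add_comm, neg_div]

lemma cd_ew (S : Setup φ μ U) (s : ℝ) : ContDiffOn ℝ 1 (ew φ s) D :=
  (contDiffOn_const.mul ((cd_phi S).add (ContDiffOn.cj (cd_phi S)))).cexp

lemma fd_exp {f : ℂ → ℂ} {w : ℂ} (hf : DifferentiableAt ℝ f w) (v : ℂ) :
    fderiv ℝ (fun w => Complex.exp (f w)) w v = Complex.exp (f w) * fderiv ℝ f w v := by
  rw [hf.hasFDerivAt.cexp.fderiv]; simp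

lemma dz_ew (S : Setup φ μ U) (s : ℝ) {w : ℂ} (hw : w ∈ D) :
    dz (ew φ s) w = Complex.I * s / 2 * (deriv φ w * ew φ s w) := by
  have a0 := S.hol.differentiableAt (isOpen_D.mem_nhds hw)
  have a1 := ContDiffOn.dAt (cd_phi S) isOpen_D (by simp) hw
  have a2 := a1.fun_add (DifferentiableAt.cj a1)
  have : dz (fun w => Complex.I * s / 2 * (φ w + conj (φ w))) w = Complex.I * s / 2 * deriv φ w := by
    rw [dz_const_mul _ a2, dz_add a1 (DifferentiableAt.cj a1), dz_conj, dz_hol a0, db_hol a0]; simp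
  unfold ew
  rw [← mul_assoc, ← this]
  simp only [dz, fd_exp (a2.const_mul _)]; ring

lemma db_ew (S : Setup φ μ U) (s : ℝ) {w : ℂ} (hw : w ∈ D) :
    db (ew φ s) w = Complex.I * s / 2 * (conj (deriv φ w) * ew φ s w) := by
  have a0 := S.hol.differentiableAt (isOpen_D.mem_nhds hw)
  have a1 := ContDiffOn.dAt (cd_phi S) isOpen_D (by simp) hw
  have a2 := a1.fun_add (DifferentiableAt.cj a1)
  have : db (fun w => Complex.I * s / 2 * (φ w + conj (φ w))) w =
      Complex.I * s / 2 * conj (deriv φ w) := by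
    rw [db_const_mul _ a2, db_add a1 (DifferentiableAt.cj a1), db_conj, dz_hol a0, db_hol a0]; simp
  unfold ew
  rw [← mul_assoc, ← this]
  simp only [db, fd_exp (a2.const_mul _)]; ring

lemma l2_ew (S : Setup φ μ U) (s : ℝ) {f : ℂ → ℂ} (hf : L2 f) : L2 fun w => f w * ew φ s w :=
  l2_mul hf (cd_ew S s).continuousOn 1 fun w _ => (norm_ew φ s w).le

lemma N_ew (φ : ℂ → ℂ) (s : ℝ) (f : ℂ → ℂ) : N (fun w => f w * ew φ s w) = N f := by
  simp [N, norm_ew]

lemma test_ew (S : Setup φ μ U) (s : ℝ) : Test (ew φ s) :=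
  ⟨cd_ew S s, ⟨1, fun w _ => (norm_ew φ s w).le⟩,
    ((l2_ew S s S.area).cmul _).congr fun _ hw => (dz_ew S s hw.1).symm,
    ((l2_ew S s S.area.cj).cmul _).congr fun _ hw => (db_ew S s hw.1).symm⟩

lemma nc (s : ℝ) : ‖Complex.I * s / 2‖ ^ 2 = s ^ 2 / 4 := by
  simp [div_pow]; norm_num

lemma N_dz_ew (S : Setup φ μ U) (s : ℝ) : N (dz (ew φ s)) = s ^ 2 / 4 * N (deriv φ) := by
  rw [N_congr fun _ hw => dz_ew S s hw.1, N_const_mul, N_ew, nc]

lemma N_db_ew (S : Setup φ μ U) (s : ℝ) : N (db (ew φ s)) = s ^ 2 / 4 * N (deriv φ) := by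
  rw [N_congr fun _ hw => db_ew S s hw.1, N_const_mul, N_ew, nc, N_cj]

lemma int_div_dd {b f : ℂ → ℂ} (hb : Pol b) {C : ℝ} (hC : ∀ w ∈ D, ‖b w‖ ≤ C * ‖dd w‖)
    (hf : L2 f) : Integrable (fun w => b w * f w / dd w) vD := by
  have := l2_mul hf (g := fun w => b w / dd w)
    (hb.cont.continuousOn.div continuous_dd.continuousOn fun w hw => dd_ne hw) C fun w hw => by
      rw [norm_div, div_le_iff₀ (norm_dd_pos hw)]; exact hC w hw
  exact this.int.congr (Eventually.of_forall fun w => by simp only; ring)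

lemma cross_z (S : Setup φ μ U) (s : ℝ) {b : ℂ → ℂ} (hb : Pol b) {C : ℝ}
    (hC : ∀ w ∈ D, ‖b w‖ ≤ C * ‖dd w‖) : ip (dz b) (dz (ew φ s)) =
      s ^ 2 / 4 * ip (fun w => deriv φ w * b w) (fun w => deriv φ w * ew φ s w) := by
  have c1 := ContDiffOn.cj (cd_deriv S)
  have c2 := cd_ew S (-s)
  have e : EqOn (dz fun w => b w * (conj (deriv φ w) * ew φ (-s) w))
      (fun w => dz b w * conj (deriv φ w * ew φ s w) - Complex.I * s / 2 *
        (deriv φ w * b w * conj (deriv φ w * ew φ s w))) (D \ {0}) := fun w hw => by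
    have a1 := ContDiffOn.dAt c1 isOpen_D (by simp) hw.1
    have a2 := ContDiffOn.dAt c2 isOpen_D (by simp) hw.1
    rw [dz_mul (hb.diff w) (a1.fun_mul a2), dz_mul a1 a2, dz_conj, db_hol (dAt_deriv S hw.1),
      dz_ew S _ hw.1]
    simp only [map_mul, conj_ew, map_zero]; push_cast; ring
  have i1 := hb.dz'.l2.int_mul (l2_ew S s S.area).cj
  have i2 := ((l2_pol S.area hb).int_mul (l2_ew S s S.area).cj).const_mul (Complex.I * s / 2)
  have := stokes_z (hb.smooth.contDiffOn.mul (c1.mul c2))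
    ((i1.sub i2).congr (ae_D0.mono fun w hw => (e hw).symm))
    (int_div_dd hb hC (l2_ew S _ S.area.cj))
  rw [int_congr e, integral_sub i1 i2, integral_const_mul, sub_eq_zero] at this
  rw [ip_congr (fun _ _ => rfl) fun _ hw => dz_ew S s hw.1, ip_mul_right, ip, this, ip]
  simp only [map_div₀, map_mul, Complex.conj_I, Complex.conj_ofReal, map_ofNat]
  linear_combination (-(s : ℂ) ^ 2 / 4 *
    ∫ w in D, deriv φ w * b w * (conj (deriv φ w) * conj (ew φ s w))) * Complex.I_mul_I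

lemma cross_b (S : Setup φ μ U) (s : ℝ) {b : ℂ → ℂ} (hb : Pol b) {C : ℝ}
    (hC : ∀ w ∈ D, ‖b w‖ ≤ C * ‖dd w‖) : ip (db b) (db (ew φ s)) =
      s ^ 2 / 4 * ip (fun w => deriv φ w * b w) (fun w => deriv φ w * ew φ s w) := by
  have c1 := cd_deriv S
  have c2 := cd_ew S (-s)
  have e : EqOn (db fun w => b w * (deriv φ w * ew φ (-s) w))
      (fun w => db b w * conj (conj (deriv φ w) * ew φ s w) - Complex.I * s / 2 *
        (deriv φ w * b w * conj (deriv φ w * ew φ s w))) (D \ {0}) := fun w hw => by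
    have a1 := ContDiffOn.dAt c1 isOpen_D (by simp) hw.1
    have a2 := ContDiffOn.dAt c2 isOpen_D (by simp) hw.1
    rw [db_mul (hb.diff w) (a1.fun_mul a2), db_mul a1 a2, db_hol (dAt_deriv S hw.1),
      db_ew S _ hw.1]
    simp only [map_mul, conj_ew, Complex.conj_conj]; push_cast; ring
  have i1 := hb.db'.l2.int_mul (l2_ew S s S.area.cj).cj
  have i2 := ((l2_pol S.area hb).int_mul (l2_ew S s S.area).cj).const_mul (Complex.I * s / 2)
  have := stokes_b (hb.smooth.contDiffOn.mul (c1.mul c2))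
    ((i1.sub i2).congr (ae_D0.mono fun w hw => (e hw).symm))
    (int_div_dd hb hC (l2_ew S _ S.area))
  rw [int_congr e, integral_sub i1 i2, integral_const_mul, sub_eq_zero] at this
  rw [ip_congr (fun _ _ => rfl) fun _ hw => db_ew S s hw.1, ip_mul_right, ip, this, ip]
  simp only [map_div₀, map_mul, Complex.conj_I, Complex.conj_ofReal, map_ofNat]
  linear_combination (-(s : ℂ) ^ 2 / 4 *
    ∫ w in D, deriv φ w * b w * (conj (deriv φ w) * conj (ew φ s w))) * Complex.I_mul_I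

/-- (b) the Dirichlet inequality below `μ` (Filonov's trick). -/
lemma dirichlet_lt (S : Setup φ μ U) {b : ℂ → ℂ} (hb : Pol b) {C : ℝ}
    (hC : ∀ w ∈ D, ‖b w‖ ≤ C * ‖dd w‖) (s : ℝ) (hs : s ^ 2 < μ) :
    s ^ 2 * N (fun w => deriv φ w * b w) ≤ E b := by
  have te := test_ew S s
  have A := area_pos S
  have h0 : ∫ w in D, ((‖deriv φ w‖ ^ 2 : ℝ) : ℂ) * ew φ s w ≠ 0 := fun h => by
    have := poinc' S te h
    rw [E, N_dz_ew S, N_db_ew S, N_ew] at this
    nlinarith
  obtain ⟨B, -, hB⟩ := bdd_of_cont hb.cont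
  set β := (∫ w in D, ((‖deriv φ w‖ ^ 2 : ℝ) : ℂ) * b w) /
    ∫ w in D, ((‖deriv φ w‖ ^ 2 : ℝ) : ℂ) * ew φ s w with hβ
  have ez : EqOn (dz fun w => b w - β * ew φ s w) (fun w => dz b w - β * dz (ew φ s) w) (D \ {0}) :=
    fun w hw => by
      have a2 := ContDiffOn.dAt te.1 isOpen_D (by simp) hw.1
      rw [dz_sub (hb.diff w) (a2.const_mul _), dz_const_mul _ a2]
  have eb : EqOn (db fun w => b w - β * ew φ s w) (fun w => db b w - β * db (ew φ s) w) (D \ {0}) :=
    fun w hw => by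
      have a2 := ContDiffOn.dAt te.1 isOpen_D (by simp) hw.1
      rw [db_sub (hb.diff w) (a2.const_mul _), db_const_mul _ a2]
  have tv : Test fun w => b w - β * ew φ s w := by
    refine ⟨hb.smooth.contDiffOn.sub (contDiffOn_const.mul te.1), ⟨B + ‖β‖, fun w hw => ?_⟩,
      (hb.dz'.l2.sub' (te.2.2.1.cmul β)).congr fun w hw => (ez hw).symm,
      (hb.db'.l2.sub' (te.2.2.2.cmul β)).congr fun w hw => (eb hw).symm⟩
    refine (norm_sub_le _ _).trans ?_
    rw [norm_mul, norm_ew, mul_one]; linarith [hB w hw]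
  have hv := poinc' S tv (by
    have i1 := int_J S hb.cont.continuousOn B hB
    have i2 := (int_J S te.1.continuousOn 1 fun w _ => (norm_ew φ s w).le).const_mul β
    have : (fun w => ((‖deriv φ w‖ ^ 2 : ℝ) : ℂ) * (b w - β * ew φ s w)) = fun w =>
        ((‖deriv φ w‖ ^ 2 : ℝ) : ℂ) * b w - β * (((‖deriv φ w‖ ^ 2 : ℝ) : ℂ) * ew φ s w) :=
      funext fun w => by ring
    rw [this, integral_sub i1 i2, integral_const_mul, hβ, div_mul_cancel₀ _ h0, sub_self])
  have e3 : (fun w => deriv φ w * (b w - β * ew φ s w)) =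
      fun w => deriv φ w * b w - β * (deriv φ w * ew φ s w) := funext fun w => by ring
  have hv' := (mul_le_mul_of_nonneg_right hs.le (N_nonneg _)).trans hv
  rw [E, N_congr ez, N_congr eb, e3, N_sub (l2_pol S.area hb) ((l2_ew S s S.area).cmul β),
    N_sub hb.dz'.l2 (te.2.2.1.cmul β), N_sub hb.db'.l2 (te.2.2.2.cmul β), ip_mul_right,
    ip_mul_right, ip_mul_right, cross_z S s hb hC, cross_b S s hb hC, N_const_mul, N_const_mul,
    N_const_mul, N_dz_ew S, N_db_ew S, N_ew] at hv'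
  have e4 : ∀ x : ℂ, (conj β * (s ^ 2 / 4 * x)).re = s ^ 2 / 4 * (conj β * x).re := fun x => by
    have : conj β * (s ^ 2 / 4 * x) = ((s ^ 2 / 4 : ℝ) : ℂ) * (conj β * x) := by push_cast; ring
    rw [this, Complex.re_ofReal_mul]
  rw [e4] at hv'
  rw [E]; linarith

lemma dirichlet (S : Setup φ μ U) {b : ℂ → ℂ} (hb : Pol b) {C : ℝ}
    (hC : ∀ w ∈ D, ‖b w‖ ≤ C * ‖dd w‖) : μ * N (fun w => deriv φ w * b w) ≤ E b := by
  have t : Tendsto (fun l : ℝ => l * N (fun w => deriv φ w * b w)) (𝓝[<] μ)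
      (𝓝 (μ * N (fun w => deriv φ w * b w))) :=
    ((continuous_id.mul continuous_const).tendsto μ).mono_left nhdsWithin_le_nhds
  refine le_of_tendsto t ?_
  filter_upwards [Ioo_mem_nhdsLT S.pos] with l hl
  have := dirichlet_lt S hb hC (√l) (by rw [Real.sq_sqrt hl.1.le]; exact hl.2)
  rwa [Real.sq_sqrt hl.1.le] at this

lemma jac {f q : ℂ → ℂ} (hf : Pol f) (hq : Pol q) {C : ℝ} (hC : ∀ w ∈ D, ‖q w‖ ≤ C * ‖dd w‖) :
    ∫ w in D, db q w * dz f w = ∫ w in D, dz q w * db f w := by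
  have h1 := stokes_b (hq.mul hf.dz').smooth.contDiffOn (hq.mul hf.dz').db'.l2.int
    (int_div_dd hq hC hf.dz'.l2)
  have h2 := stokes_z (hq.mul hf.db').smooth.contDiffOn (hq.mul hf.db').dz'.l2.int
    (int_div_dd hq hC hf.db'.l2)
  simp only [db_mul (hq.diff _) (hf.dz'.diff _)] at h1
  simp only [dz_mul (hq.diff _) (hf.db'.diff _), dz_db_comm hf.smooth.contDiffAt] at h2
  rw [integral_add (hq.db'.mul hf.dz').l2.int (hq.mul hf.dz'.db').l2.int] at h1
  rw [integral_add (hq.dz'.mul hf.db').l2.int (hq.mul hf.dz'.db').l2.int] at h2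
  linear_combination h1 - h2

lemma N_db_eq {θ : ℂ → ℂ} (hθ : Adm θ) : N (db θ) = N (dz θ) := by
  obtain ⟨p, C, hC⟩ := hθ
  have := jac p (p.sub p.cj) (C := 2 * C) fun w hw => by
    rw [Complex.sub_conj]; simpa [mul_assoc] using hC w hw
  simp only [db_sub (p.diff _) (p.cj.diff _), dz_sub (p.diff _) (p.cj.diff _), db_conj, dz_conj,
    sub_mul] at this
  rw [integral_sub (p.db'.mul p.dz').l2.int (p.dz'.cj.mul p.dz').l2.int,
    integral_sub (p.dz'.mul p.db').l2.int (p.db'.cj.mul p.db').l2.int] at this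
  have h1 := ip_self (dz θ)
  have h2 := ip_self (db θ)
  simp only [ip, mul_comm] at h1 h2 this
  rw [h1, h2] at this
  exact_mod_cast (sub_right_inj.1 this).symm

lemma par {f g : ℂ → ℂ} (hf : L2 f) (hg : L2 g) :
    N (fun w => 2⁻¹ * (f w + conj (g w))) + N (fun w => 2⁻¹ * (f w - conj (g w))) =
      (N f + N g) / 2 := by
  rw [N_const_mul, N_const_mul, N_add hf hg.cj, N_sub hf hg.cj, N_cj]; norm_num; ring

/-- (c) the inequality for admissible polynomials, after subtracting a real constant. -/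
lemma adm_ineq (S : Setup φ μ U) {θ : ℂ → ℂ} (hθ : Adm θ) : ∃ θ', Adm θ' ∧ dz θ' = dz θ ∧
    μ * N (fun w => deriv φ w * θ' w) ≤ 4 * N (dz θ) := by
  have hN := N_db_eq hθ
  obtain ⟨p, C, hC⟩ := hθ
  have A := area_pos S
  set c : ℝ := (∫ w in D, ‖deriv φ w‖ ^ 2 * (θ w).re) / N (deriv φ) with hc
  have pa := ((p.add p.cj).cmul 2⁻¹).sub (Pol.const c)
  have pq := (p.sub p.cj).cmul 2⁻¹
  have ea : ∀ w, 2⁻¹ * (θ w + conj (θ w)) - c = (((θ w).re - c : ℝ) : ℂ) := fun w => by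
    rw [Complex.add_conj]; push_cast; ring
  have eq : ∀ w, 2⁻¹ * (θ w - conj (θ w)) = ((θ w).im : ℂ) * Complex.I := fun w => by
    rw [Complex.sub_conj]; push_cast; ring
  have h1 := dirichlet S pq (C := C) fun w hw => by rw [eq]; simpa using hC w hw
  obtain ⟨B, -, hB⟩ := bdd_of_cont p.cont
  have h2 := poinc' S (test_pol pa) (by
    have i1 : Integrable (fun w => ‖deriv φ w‖ ^ 2 * (θ w).re) vD := by
      refine (int_J S p.cont.continuousOn B hB).re.congr (Eventually.of_forall fun w => ?_)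
      exact Complex.re_ofReal_mul _ _
    simp only [ea, ← Complex.ofReal_mul, integral_complex_ofReal, Complex.ofReal_eq_zero, mul_sub]
    rw [integral_sub i1 (S.area.int_sq.mul_const c), integral_mul_const, hc, sub_eq_zero]
    exact (mul_div_cancel₀ _ A.ne').symm)
  refine ⟨fun w => θ w - c, ⟨p.sub (Pol.const c), C, by simpa using hC⟩, funext fun w => ?_, ?_⟩
  · rw [dz_sub (p.diff w) (differentiableAt_const _)]; simp
  have e1 : N (fun w => deriv φ w * (θ w - c)) =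
      N (fun w => deriv φ w * (2⁻¹ * (θ w + conj (θ w)) - c)) +
        N (fun w => deriv φ w * (2⁻¹ * (θ w - conj (θ w)))) := by
    rw [N, N, N, ← integral_add (l2_pol S.area pa).int_sq (l2_pol S.area pq).int_sq]
    refine integral_congr_ae (Eventually.of_forall fun w => ?_)
    simp only [ea, eq, norm_mul, mul_pow, Complex.norm_real, Complex.norm_I, Real.norm_eq_abs,
      sq_abs]
    rw [Complex.sq_norm (θ w - c), Complex.normSq_apply]; simp; ring
  have d1 := fun w => (p.diff w).fun_add (p.cj.diff w)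
  have d2 := fun w => (p.diff w).fun_sub (p.cj.diff w)
  have z1 : dz (fun w => 2⁻¹ * (θ w + conj (θ w)) - c) = fun w => 2⁻¹ * (dz θ w + conj (db θ w)) :=
    funext fun w => by
      rw [dz_sub ((d1 w).const_mul _) (differentiableAt_const _), dz_const_mul _ (d1 w),
        dz_add (p.diff w) (p.cj.diff w), dz_conj]; simp
  have z2 : db (fun w => 2⁻¹ * (θ w + conj (θ w)) - c) = fun w => 2⁻¹ * (db θ w + conj (dz θ w)) :=
    funext fun w => by
      rw [db_sub ((d1 w).const_mul _) (differentiableAt_const _), db_const_mul _ (d1 w),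
        db_add (p.diff w) (p.cj.diff w), db_conj]; simp
  have z3 : dz (fun w => 2⁻¹ * (θ w - conj (θ w))) = fun w => 2⁻¹ * (dz θ w - conj (db θ w)) :=
    funext fun w => by rw [dz_const_mul _ (d2 w), dz_sub (p.diff w) (p.cj.diff w), dz_conj]
  have z4 : db (fun w => 2⁻¹ * (θ w - conj (θ w))) = fun w => 2⁻¹ * (db θ w - conj (dz θ w)) :=
    funext fun w => by rw [db_const_mul _ (d2 w), db_sub (p.diff w) (p.cj.diff w), db_conj]
  rw [E, z1, z2] at h2
  rw [E, z3, z4] at h1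
  have q1 := par p.dz'.l2 p.db'.l2
  have q2 := par p.db'.l2 p.dz'.l2
  rw [e1]; linarith

end TangAux
open TangAux

theorem tang {φ U G : ℂ → ℂ} {μ : ℝ} (S : Setup φ μ U) (hG : ContDiffOn ℝ 1 G (D \ {0}))
    (h1 : L2 fun w => deriv φ w * G w) (h2 : L2 (db G)) (bc : BC φ G) :
    μ * N (fun w => deriv φ w * G w) ≤ 4 * N (db G) := by
  set g := fun w => deriv φ w * G w with hg
  obtain ⟨x, hx, x0⟩ : ∃ x, √(N g) = x ∧ 0 ≤ x := ⟨_, rfl, Real.sqrt_nonneg _⟩
  obtain ⟨y, hy, y0⟩ : ∃ y, √(N (db G)) = y ∧ 0 ≤ y := ⟨_, rfl, Real.sqrt_nonneg _⟩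
  obtain ⟨m, hm, m0⟩ : ∃ m, √μ = m ∧ 0 < m := ⟨_, rfl, Real.sqrt_pos.2 S.pos⟩
  have ex : N g = x ^ 2 := by rw [← hx, Real.sq_sqrt (N_nonneg _)]
  have ey : N (db G) = y ^ 2 := by rw [← hy, Real.sq_sqrt (N_nonneg _)]
  have em : μ = m ^ 2 := by rw [← hm, Real.sq_sqrt S.pos.le]
  have key : ∀ δ : ℝ, 0 < δ → m * x ^ 2 ≤ 2 * y * x + δ * (2 * y + m * x) := fun δ hδ => by
    obtain ⟨K, pK, hK⟩ := Pol.dense h1 (ε := δ ^ 2) (by positivity)
    obtain ⟨θ₀, a0, e0⟩ := pK.helm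
    obtain ⟨θ, a1, e1, hθ⟩ := adm_ineq S a0
    have w1 := weak_bc S hG h1 h2 bc a1
    rw [e1, e0] at w1
    rw [e0] at hθ
    have s1 : √(N fun w => g w - K w) ≤ δ := Real.sqrt_le_iff.2 ⟨hδ.le, hK⟩
    have s2 : √(N K) ≤ x + δ := by
      have := sqrt_N_add h1 ((h1.sub' pK.l2).cmul (-1))
      rw [N_const_mul] at this
      simp only [hg] at s1
      simp only [neg_mul, one_mul, neg_sub, add_sub_cancel, norm_neg, norm_one, one_pow] at this
      linarith
    have s3 : m * √(N fun w => conj (deriv φ w) * θ w) ≤ 2 * √(N K) := by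
      have e : N (fun w => conj (deriv φ w) * θ w) = N fun w => deriv φ w * θ w := by simp [N]
      rw [e, ← hm, ← Real.sqrt_mul S.pos.le]
      refine Real.sqrt_le_iff.2 ⟨by positivity, ?_⟩
      rw [mul_pow, Real.sq_sqrt (N_nonneg _)]; linarith
    have s4 := norm_ip_le h2 (l2_pol S.area.cj a1.1)
    have s5 := norm_ip_le h1 (h1.sub' pK.l2)
    have s6 := congrArg Complex.re (ip_sub_right h1 pK.l2 h1)
    rw [ip_self, Complex.sub_re, Complex.ofReal_re, w1, ex] at s6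
    have s7 := (Complex.re_le_norm _).trans s5
    have s8 := (neg_le_abs _).trans ((Complex.abs_re_le_norm _).trans s4)
    rw [hy] at s8
    rw [hx] at s7
    have s9 : x ^ 2 ≤ x * δ + y * √(N fun w => conj (deriv φ w) * θ w) := by
      have := mul_le_mul_of_nonneg_left s1 x0
      simp only [hg] at this s6 s7
      linarith
    nlinarith [mul_le_mul_of_nonneg_left s9 m0.le, mul_le_mul_of_nonneg_left s3 y0,
      mul_le_mul_of_nonneg_left s2 y0]
  have k2 : m * x ^ 2 ≤ 2 * y * x := by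
    refine le_of_forall_pos_le_add fun ε hε => ?_
    have hp : 0 < 2 * y + m * x + 1 := by positivity
    refine (key (ε / (2 * y + m * x + 1)) (by positivity)).trans ?_
    rw [div_mul_eq_mul_div, add_le_add_iff_left, div_le_iff₀ hp]; nlinarith
  rw [ex, ey, em]
  rcases x0.eq_or_lt with h | h
  · rw [← h]; nlinarith
  · have : m * x ≤ 2 * y := le_of_mul_le_mul_right (by nlinarith) h
    nlinarith [mul_nonneg m0.le x0]

end Vale.Agent.P071
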