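import Vale.Agent.P071.Main
import Vale.Agent.P071.Pull
import Vale.Agent.P071.Poinc
import Vale.Agent.P071.RMT

/-! P071: no interior critical points, and the hot spots inequalities. -/

open MeasureTheory Filter Topology Set

namespace Vale.Agent.P071

theorem no_crit {Ω : Set ℂ} (hO : IsOpen Ω) (hb : Bornology.IsBounded Ω) (hc : IsConnected Ω)
    (hL : LipBdry Ω) (hs : IsSimplyConnected Ω) {u : ℂ → ℝ} (hu : InV Ω u)
    (hsm : ContDiffOn ℝ 3 u Ω) (hcl : ContinuousOn u (closure Ω)) (hne : ∃ x ∈ Ω, u x ≠ 0) :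
    ∀ x ∈ Ω, fderiv ℝ u x ≠ 0 := by
  intro x hx h0
  obtain ⟨φ, h1, h2, h3, h4, h5, ψ, h6, h7⟩ := riemann_map hO hb hs hx
  have S := pull hO hb (mu1_pos hO hb hc hL) h1 h2 h3 h5 h6 h7 hu hsm hcl
  refine core S ?_ ?_
  · obtain ⟨y, hy, hy0⟩ := hne
    rw [← h3] at hy
    obtain ⟨w, hw, rfl⟩ := hy
    exact ⟨w, hw, by simpa using hy0⟩
  · have d1 : DifferentiableAt ℝ u (φ 0) := by
      rw [h4]; exact (hsm.contDiffAt (hO.mem_nhds hx)).differentiableAt (by simp)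
    have d2 : DifferentiableAt ℝ φ 0 :=
      (h1.differentiableAt (isOpen_D.mem_nhds (by simp))).restrictScalars ℝ
    have := (Complex.ofRealCLM.hasFDerivAt.comp (0 : ℂ) (d1.hasFDerivAt.comp 0 d2.hasFDerivAt)).fderiv
    have e : (fun w => (u (φ w) : ℂ)) = Complex.ofRealCLM ∘ u ∘ φ := rfl
    rw [dz, e, this, h4, h0]; simp

theorem hot_spots {Ω : Set ℂ} (hO : IsOpen Ω) (hb : Bornology.IsBounded Ω) (hne : Ω.Nonempty)
    {u : ℂ → ℝ} (hcl : ContinuousOn u (closure Ω)) (h : ∀ x ∈ Ω, fderiv ℝ u x ≠ 0) :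
    ∃ q ∈ frontier Ω, IsMaxOn u (frontier Ω) q ∧ ∀ x ∈ Ω, u x < u q := by
  obtain ⟨q, hq, hm⟩ := hb.isCompact_closure.exists_isMaxOn hne.closure hcl
  have key : ∀ x ∈ Ω, u x < u q := fun x hx => by
    refine lt_of_le_of_ne (hm (subset_closure hx)) fun e => h x hx ?_
    refine IsLocalMax.fderiv_eq_zero ?_
    filter_upwards [hO.mem_nhds hx] with y hy
    exact e ▸ hm (subset_closure hy)
  refine ⟨q, ?_, hm.on_subset frontier_subset_closure, key⟩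
  rw [hO.frontier_eq]
  exact ⟨hq, fun h1 => lt_irrefl _ (key q h1)⟩

theorem hot_spots₂ {Ω : Set ℂ} (hO : IsOpen Ω) (hb : Bornology.IsBounded Ω) (hne : Ω.Nonempty)
    {u : ℂ → ℝ} (hcl : ContinuousOn u (closure Ω)) (h : ∀ x ∈ Ω, fderiv ℝ u x ≠ 0) :
    ∃ p ∈ frontier Ω, ∃ q ∈ frontier Ω, IsMinOn u (frontier Ω) p ∧ IsMaxOn u (frontier Ω) q ∧
      ∀ x ∈ Ω, u p < u x ∧ u x < u q := by
  obtain ⟨q, hq, h1, h2⟩ := hot_spots hO hb hne hcl h
  obtain ⟨p, hp, h3, h4⟩ := hot_spots hO hb hne hcl.neg (u := -u) fun x hx => by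
    rw [fderiv_neg]; exact neg_ne_zero.2 (h x hx)
  exact ⟨p, hp, q, hq, fun y hy => (neg_le_neg_iff.1 (h3 hy) : u p ≤ u y), h1,
    fun x hx => ⟨neg_lt_neg_iff.1 (h4 x hx), h2 x hx⟩⟩

end Vale.Agent.P071
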