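import Vale.Agent.P071.Disc

/-! P071 part W: Wirtinger calculus, square integrable functions on the disc. -/

open MeasureTheory ComplexConjugate Filter Topology Set

noncomputable section
namespace Vale.Agent.P071

variable {f g : ℂ → ℂ} {w : ℂ}

lemma fderiv_eq_W (f : ℂ → ℂ) (w v : ℂ) : fderiv ℝ f w v = dz f w * v + db f w * conj v := by
  have h : v = v.re • (1 : ℂ) + v.im • Complex.I := by
    simp [Complex.re_add_im]
  have h2 : conj v = (v.re : ℂ) - v.im * Complex.I := by
    apply Complex.ext <;> simp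
  have h3 : v = (v.re : ℂ) + v.im * Complex.I := (Complex.re_add_im v).symm
  calc fderiv ℝ f w v = fderiv ℝ f w (v.re • (1 : ℂ) + v.im • Complex.I) := by rw [← h]
    _ = v.re * fderiv ℝ f w 1 + v.im * fderiv ℝ f w Complex.I := by
        rw [map_add, map_smul, map_smul]; simp
    _ = _ := by
        rw [h2]; nth_rewrite 3 [h3]
        unfold dz db
        linear_combination (v.im * fderiv ℝ f w Complex.I) * Complex.I_mul_I

lemma norm_fderiv_le (f : ℂ → ℂ) (w : ℂ) : ‖fderiv ℝ f w‖ ≤ ‖dz f w‖ + ‖db f w‖ := by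
  refine ContinuousLinearMap.opNorm_le_bound _ (by positivity) fun v => ?_
  rw [fderiv_eq_W]
  refine (norm_add_le _ _).trans (le_of_eq ?_)
  rw [norm_mul, norm_mul, Complex.norm_conj]; ring

lemma norm_dz_le (f : ℂ → ℂ) (w : ℂ) : ‖dz f w‖ ≤ ‖fderiv ℝ f w‖ := by
  have h1 := (fderiv ℝ f w).le_opNorm 1
  have h2 := (fderiv ℝ f w).le_opNorm Complex.I
  have h3 := norm_sub_le (fderiv ℝ f w 1) (Complex.I * fderiv ℝ f w Complex.I)
  rw [dz, norm_div]; simp at *; linarith

lemma norm_db_le (f : ℂ → ℂ) (w : ℂ) : ‖db f w‖ ≤ ‖fderiv ℝ f w‖ := by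
  have h1 := (fderiv ℝ f w).le_opNorm 1
  have h2 := (fderiv ℝ f w).le_opNorm Complex.I
  have h3 := norm_add_le (fderiv ℝ f w 1) (Complex.I * fderiv ℝ f w Complex.I)
  rw [db, norm_div]; simp at *; linarith

lemma dz_congr (h : f =ᶠ[𝓝 w] g) : dz f w = dz g w := by simp only [dz, h.fderiv_eq]
lemma db_congr (h : f =ᶠ[𝓝 w] g) : db f w = db g w := by simp only [db, h.fderiv_eq]
lemma dz_congr_on {s : Set ℂ} (hs : IsOpen s) (h : EqOn f g s) : EqOn (dz f) (dz g) s :=
  fun _ hw => dz_congr (h.eventuallyEq_of_mem (hs.mem_nhds hw))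
lemma db_congr_on {s : Set ℂ} (hs : IsOpen s) (h : EqOn f g s) : EqOn (db f) (db g) s :=
  fun _ hw => db_congr (h.eventuallyEq_of_mem (hs.mem_nhds hw))

lemma dz_add (hf : DifferentiableAt ℝ f w) (hg : DifferentiableAt ℝ g w) :
    dz (fun w => f w + g w) w = dz f w + dz g w := by
  simp only [dz, fderiv_fun_add hf hg, ContinuousLinearMap.add_apply]; ring
lemma db_add (hf : DifferentiableAt ℝ f w) (hg : DifferentiableAt ℝ g w) :
    db (fun w => f w + g w) w = db f w + db g w := by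
  simp only [db, fderiv_fun_add hf hg, ContinuousLinearMap.add_apply]; ring
lemma dz_sub (hf : DifferentiableAt ℝ f w) (hg : DifferentiableAt ℝ g w) :
    dz (fun w => f w - g w) w = dz f w - dz g w := by
  simp only [dz, fderiv_fun_sub hf hg, ContinuousLinearMap.sub_apply]; ring
lemma db_sub (hf : DifferentiableAt ℝ f w) (hg : DifferentiableAt ℝ g w) :
    db (fun w => f w - g w) w = db f w - db g w := by
  simp only [db, fderiv_fun_sub hf hg, ContinuousLinearMap.sub_apply]; ring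
lemma dz_neg (f : ℂ → ℂ) (w : ℂ) : dz (fun w => -f w) w = -dz f w := by
  simp only [dz, fderiv_fun_neg, ContinuousLinearMap.neg_apply]; ring
lemma db_neg (f : ℂ → ℂ) (w : ℂ) : db (fun w => -f w) w = -db f w := by
  simp only [db, fderiv_fun_neg, ContinuousLinearMap.neg_apply]; ring
lemma dz_mul (hf : DifferentiableAt ℝ f w) (hg : DifferentiableAt ℝ g w) :
    dz (fun w => f w * g w) w = dz f w * g w + f w * dz g w := by
  simp only [dz, fderiv_fun_mul hf hg, ContinuousLinearMap.add_apply,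
    ContinuousLinearMap.smul_apply, smul_eq_mul]; ring
lemma db_mul (hf : DifferentiableAt ℝ f w) (hg : DifferentiableAt ℝ g w) :
    db (fun w => f w * g w) w = db f w * g w + f w * db g w := by
  simp only [db, fderiv_fun_mul hf hg, ContinuousLinearMap.add_apply,
    ContinuousLinearMap.smul_apply, smul_eq_mul]; ring
@[simp] lemma dz_const (c w : ℂ) : dz (fun _ => c) w = 0 := by simp [dz]
@[simp] lemma db_const (c w : ℂ) : db (fun _ => c) w = 0 := by simp [db]
lemma dz_const_mul (c : ℂ) (hf : DifferentiableAt ℝ f w) :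
    dz (fun w => c * f w) w = c * dz f w := by
  rw [dz_mul (differentiableAt_const c) hf]; simp
lemma db_const_mul (c : ℂ) (hf : DifferentiableAt ℝ f w) :
    db (fun w => c * f w) w = c * db f w := by
  rw [db_mul (differentiableAt_const c) hf]; simp

lemma fderiv_conj (f : ℂ → ℂ) (w v : ℂ) :
    fderiv ℝ (fun w => conj (f w)) w v = conj (fderiv ℝ f w v) := by
  have := Complex.conjCLE.comp_fderiv (f := f) (x := w)
  have e : (fun w => conj (f w)) = Complex.conjCLE ∘ f := by funext w; simp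
  rw [e, this]; simp
lemma dz_conj (f : ℂ → ℂ) (w : ℂ) : dz (fun w => conj (f w)) w = conj (db f w) := by
  simp only [dz, db, fderiv_conj, map_div₀, map_add, map_mul, Complex.conj_I, map_ofNat]; ring
lemma db_conj (f : ℂ → ℂ) (w : ℂ) : db (fun w => conj (f w)) w = conj (dz f w) := by
  simp only [dz, db, fderiv_conj, map_div₀, map_sub, map_mul, Complex.conj_I, map_ofNat]; ring

lemma fderiv_hol (hf : DifferentiableAt ℂ f w) (v : ℂ) : fderiv ℝ f w v = deriv f w * v := by
  rw [(hf.hasDerivAt.hasFDerivAt.restrictScalars ℝ).fderiv]; simp [mul_comm]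
lemma dz_hol (hf : DifferentiableAt ℂ f w) : dz f w = deriv f w := by
  simp only [dz, fderiv_hol hf]; linear_combination (-deriv f w / 2) * Complex.I_mul_I
lemma db_hol (hf : DifferentiableAt ℂ f w) : db f w = 0 := by
  simp only [db, fderiv_hol hf]; linear_combination (deriv f w / 2) * Complex.I_mul_I
@[simp] lemma dz_id (w : ℂ) : dz (fun w => w) w = 1 := by rw [dz_hol differentiableAt_fun_id]; simp
@[simp] lemma db_id (w : ℂ) : db (fun w => w) w = 0 := db_hol differentiableAt_id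
@[simp] lemma dz_cid (w : ℂ) : dz (fun w => conj w) w = 0 := by rw [dz_conj (fun w => w)]; simp
@[simp] lemma db_cid (w : ℂ) : db (fun w => conj w) w = 1 := by rw [db_conj (fun w => w)]; simp

@[fun_prop] lemma contDiff_conj {n : WithTop ℕ∞} : ContDiff ℝ n (fun w : ℂ => conj w) :=
  Complex.conjCLE.contDiff
@[fun_prop] lemma differentiable_conj : Differentiable ℝ (fun w : ℂ => conj w) :=
  Complex.conjCLE.differentiable
lemma ContDiffOn.cj {n : WithTop ℕ∞} {s : Set ℂ} (h : ContDiffOn ℝ n f s) :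
    ContDiffOn ℝ n (fun w => conj (f w)) s := contDiff_conj.comp_contDiffOn h
lemma DifferentiableAt.cj (h : DifferentiableAt ℝ f w) :
    DifferentiableAt ℝ (fun w => conj (f w)) w := (differentiable_conj _).comp w h
@[fun_prop] lemma contDiff_dd {n : WithTop ℕ∞} : ContDiff ℝ n dd := by unfold dd; fun_prop
@[fun_prop] lemma differentiable_dd : Differentiable ℝ dd :=
  (contDiff_dd (n := 1)).differentiable (by simp)
@[fun_prop] lemma continuous_dd : Continuous dd := (contDiff_dd (n := 0)).continuous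
@[simp] lemma dz_dd (w : ℂ) : dz dd w = -conj w := by
  unfold dd
  rw [dz_sub (by fun_prop) (by fun_prop), dz_mul (by fun_prop) (by fun_prop)]; simp
@[simp] lemma db_dd (w : ℂ) : db dd w = -w := by
  unfold dd
  rw [db_sub (by fun_prop) (by fun_prop), db_mul (by fun_prop) (by fun_prop)]; simp
@[simp] lemma conj_dd (w : ℂ) : conj (dd w) = dd w := by simp [dd, mul_comm]
lemma dd_eq (w : ℂ) : dd w = ((1 - ‖w‖ ^ 2 : ℝ) : ℂ) := by
  rw [dd, Complex.mul_conj, Complex.normSq_eq_norm_sq]; simp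
lemma mem_D {w : ℂ} : w ∈ D ↔ ‖w‖ < 1 := by simp
lemma norm_dd (hw : w ∈ D) : ‖dd w‖ = 1 - ‖w‖ ^ 2 := by
  have := mem_D.1 hw
  rw [dd_eq, Complex.norm_real, Real.norm_of_nonneg (by nlinarith [norm_nonneg w])]
lemma norm_dd_pos (hw : w ∈ D) : 0 < ‖dd w‖ := by
  have := mem_D.1 hw
  rw [norm_dd hw]; nlinarith [norm_nonneg w]
lemma dd_ne (hw : w ∈ D) : dd w ≠ 0 := norm_pos_iff.1 (norm_dd_pos hw)
lemma norm_dd_le (hw : w ∈ D) : ‖dd w‖ ≤ 1 := by rw [norm_dd hw]; nlinarith [norm_nonneg w]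
lemma isOpen_D : IsOpen D := Metric.isOpen_ball
lemma isOpen_D0 : IsOpen (D \ {0}) := isOpen_D.sdiff isClosed_singleton

lemma ContDiffOn.dz' {m n : WithTop ℕ∞} {s : Set ℂ} (hf : ContDiffOn ℝ n f s) (hs : IsOpen s)
    (h : m + 1 ≤ n) : ContDiffOn ℝ m (dz f) s := by
  have := hf.fderiv_of_isOpen hs h
  unfold dz
  exact ((this.clm_apply contDiffOn_const).sub
    (contDiffOn_const.mul (this.clm_apply contDiffOn_const))).div_const _
lemma ContDiffOn.db' {m n : WithTop ℕ∞} {s : Set ℂ} (hf : ContDiffOn ℝ n f s) (hs : IsOpen s)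
    (h : m + 1 ≤ n) : ContDiffOn ℝ m (db f) s := by
  have := hf.fderiv_of_isOpen hs h
  unfold db
  exact ((this.clm_apply contDiffOn_const).add
    (contDiffOn_const.mul (this.clm_apply contDiffOn_const))).div_const _
lemma ContDiffOn.dAt {n : WithTop ℕ∞} {s : Set ℂ} (hf : ContDiffOn ℝ n f s) (hs : IsOpen s)
    (h : n ≠ 0) (hw : w ∈ s) : DifferentiableAt ℝ f w :=
  (hf.contDiffAt (hs.mem_nhds hw)).differentiableAt h

lemma dz_db_comm (hf : ContDiffAt ℝ 2 f w) : dz (db f) w = db (dz f) w := by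
  have hs := hf.isSymmSndFDerivAt (by simp)
  have hd : DifferentiableAt ℝ (fderiv ℝ f) w :=
    (hf.fderiv_right (m := 1) (by norm_num)).differentiableAt (by simp)
  have h1 : ∀ v, DifferentiableAt ℝ (fun w => fderiv ℝ f w v) w := fun v =>
    hd.clm_apply (differentiableAt_const _)
  have h2 : ∀ v u, fderiv ℝ (fun w => fderiv ℝ f w v) w u = fderiv ℝ (fderiv ℝ f) w u v := by
    intro v u
    rw [fderiv_clm_apply hd (differentiableAt_const _)]; simp
  have e1 : db f = fun w => 2⁻¹ * (fderiv ℝ f w 1 + Complex.I * fderiv ℝ f w Complex.I) := by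
    funext w; rw [db]; ring
  have e2 : dz f = fun w => 2⁻¹ * (fderiv ℝ f w 1 - Complex.I * fderiv ℝ f w Complex.I) := by
    funext w; rw [dz]; ring
  rw [e1, e2, dz_const_mul _ ((h1 _).fun_add ((h1 _).const_mul _)),
    db_const_mul _ ((h1 _).fun_sub ((h1 _).const_mul _)), dz_add (h1 _) ((h1 _).const_mul _),
    db_sub (h1 _) ((h1 _).const_mul _), dz_const_mul _ (h1 _), db_const_mul _ (h1 _)]
  simp only [dz, db, h2]
  rw [hs.eq 1 Complex.I]; ring

/-! ### Square integrable functions -/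

instance : IsFiniteMeasure vD := ⟨by simpa using measure_ball_lt_top⟩

lemma ae_D : ∀ᵐ w ∂vD, w ∈ D := ae_restrict_mem isOpen_D.measurableSet
lemma ae_D0 : ∀ᵐ w ∂vD, w ∈ D \ {0} := by
  have : ∀ᵐ w ∂vD, w ≠ 0 := ae_restrict_of_ae (by simp [ae_iff])
  filter_upwards [ae_D, this] with w h1 h2 using ⟨h1, h2⟩
lemma vD_eq : vD = volume.restrict (D \ {0}) :=
  Measure.restrict_congr_set (diff_null_ae_eq_self (by simp)).symm

lemma aesm_of_cont {E : Type*} [NormedAddCommGroup E] {f : ℂ → E} (h : ContinuousOn f (D \ {0})) :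
    AEStronglyMeasurable f vD := by
  rw [vD_eq]; exact h.aestronglyMeasurable isOpen_D0.measurableSet
lemma aesm_of_cont' {E : Type*} [NormedAddCommGroup E] {f : ℂ → E} (h : ContinuousOn f D) :
    AEStronglyMeasurable f vD := h.aestronglyMeasurable isOpen_D.measurableSet

lemma L2.of_le (hf : L2 f) (hg : ContinuousOn g (D \ {0})) (C : ℝ)
    (h : ∀ w ∈ D \ {0}, ‖g w‖ ≤ C * ‖f w‖) : L2 g :=
  hf.of_le_mul (aesm_of_cont hg) (ae_D0.mono h)
lemma L2.of_bdd (hg : ContinuousOn g (D \ {0})) (C : ℝ) (h : ∀ w ∈ D \ {0}, ‖g w‖ ≤ C) : L2 g :=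
  MemLp.of_bound (aesm_of_cont hg) C (ae_D0.mono h)
lemma bdd_of_cont (hg : Continuous g) : ∃ C : ℝ, 0 ≤ C ∧ ∀ w ∈ D, ‖g w‖ ≤ C := by
  obtain ⟨C, hC⟩ := (isCompact_closedBall (0 : ℂ) 1).exists_bound_of_continuousOn hg.continuousOn
  exact ⟨max C 0, le_max_right _ _, fun w hw =>
    (hC w (Metric.ball_subset_closedBall hw)).trans (le_max_left _ _)⟩
lemma L2.of_cont (hg : Continuous g) : L2 g := by
  obtain ⟨C, -, hC⟩ := bdd_of_cont hg
  exact L2.of_bdd hg.continuousOn C fun w hw => hC w hw.1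
lemma L2.mul_cont (hf : L2 f) (hg : Continuous g) : L2 fun w => g w * f w := by
  obtain ⟨C, -, hC⟩ := bdd_of_cont hg
  refine hf.of_le_mul (c := C) (hg.aestronglyMeasurable.mul hf.1) (ae_D.mono fun w hw => ?_)
  rw [norm_mul]; gcongr; exact hC w hw
lemma L2.congr (hf : L2 f) (h : EqOn f g (D \ {0})) : L2 g :=
  hf.ae_eq (ae_D0.mono h)
lemma L2.add' (hf : L2 f) (hg : L2 g) : L2 fun w => f w + g w := hf.add hg
lemma L2.sub' (hf : L2 f) (hg : L2 g) : L2 fun w => f w - g w := hf.sub hg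
lemma L2.cmul (hf : L2 f) (c : ℂ) : L2 fun w => c * f w := hf.const_mul c
lemma L2.cj (hf : L2 f) : L2 fun w => conj (f w) := hf.star
lemma L2.int (hf : L2 f) : Integrable f vD := hf.integrable (by norm_num)
lemma L2.int_mul (hf : L2 f) (hg : L2 g) : Integrable (fun w => f w * g w) vD :=
  hf.integrable_mul hg
lemma L2.int_sq (hf : L2 f) : Integrable (fun w => ‖f w‖ ^ 2) vD :=
  (memLp_two_iff_integrable_sq_norm hf.1).1 hf
lemma int_congr {E : Type*} [NormedAddCommGroup E] [NormedSpace ℝ E] {f g : ℂ → E}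
    (h : EqOn f g (D \ {0})) : ∫ w in D, f w = ∫ w in D, g w :=
  integral_congr_ae (ae_D0.mono h)

/-- The squared norm. -/
def N (f : ℂ → ℂ) : ℝ := ∫ w in D, ‖f w‖ ^ 2
/-- The Hermitian product. -/
def ip (f g : ℂ → ℂ) : ℂ := ∫ w in D, f w * conj (g w)

lemma N_nonneg (f : ℂ → ℂ) : 0 ≤ N f := integral_nonneg fun _ => by positivity
lemma ip_self (f : ℂ → ℂ) : ip f f = N f := by
  rw [ip, N, ← integral_complex_ofReal]
  simp [Complex.mul_conj, Complex.normSq_eq_norm_sq]
lemma ip_conj (f g : ℂ → ℂ) : conj (ip f g) = ip g f := by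
  rw [ip, ip, ← integral_conj]; simp [mul_comm]
lemma N_congr (h : EqOn f g (D \ {0})) : N f = N g := int_congr fun w hw => by simp [h hw]
lemma ip_congr {f' g' : ℂ → ℂ} (h : EqOn f f' (D \ {0})) (h' : EqOn g g' (D \ {0})) :
    ip f g = ip f' g' := int_congr fun w hw => by simp [h hw, h' hw]
lemma N_mono (hg : L2 g) (C : ℝ) (h : ∀ w ∈ D \ {0}, ‖f w‖ ≤ C * ‖g w‖) :
    N f ≤ C ^ 2 * N g := by
  rw [N, N, ← integral_const_mul]
  refine integral_mono_of_nonneg (Eventually.of_forall fun _ => by positivity)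
    (hg.int_sq.const_mul _) (ae_D0.mono fun w hw => ?_)
  simp only
  rw [← mul_pow]; gcongr; exact h w hw
lemma N_const_mul (c : ℂ) (f : ℂ → ℂ) : N (fun w => c * f w) = ‖c‖ ^ 2 * N f := by
  simp only [N, norm_mul, mul_pow, integral_const_mul]
lemma N_cj (f : ℂ → ℂ) : N (fun w => conj (f w)) = N f := by simp [N]
lemma ip_add_left {h : ℂ → ℂ} (hf : L2 f) (hg : L2 g) (hh : L2 h) :
    ip (fun w => f w + g w) h = ip f h + ip g h := by
  simp only [ip, add_mul]; exact integral_add (hf.int_mul hh.cj) (hg.int_mul hh.cj)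
lemma ip_sub_left {h : ℂ → ℂ} (hf : L2 f) (hg : L2 g) (hh : L2 h) :
    ip (fun w => f w - g w) h = ip f h - ip g h := by
  simp only [ip, sub_mul]; exact integral_sub (hf.int_mul hh.cj) (hg.int_mul hh.cj)
lemma ip_add_right {h : ℂ → ℂ} (hf : L2 f) (hg : L2 g) (hh : L2 h) :
    ip h (fun w => f w + g w) = ip h f + ip h g := by
  rw [← ip_conj, ip_add_left hf hg hh, map_add, ip_conj, ip_conj]
lemma ip_sub_right {h : ℂ → ℂ} (hf : L2 f) (hg : L2 g) (hh : L2 h) :
    ip h (fun w => f w - g w) = ip h f - ip h g := by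
  rw [← ip_conj, ip_sub_left hf hg hh, map_sub, ip_conj, ip_conj]
lemma ip_mul_left (c : ℂ) (f g : ℂ → ℂ) : ip (fun w => c * f w) g = c * ip f g := by
  simp only [ip, mul_assoc, integral_const_mul]
lemma ip_mul_right (c : ℂ) (f g : ℂ → ℂ) : ip f (fun w => c * g w) = conj c * ip f g := by
  rw [← ip_conj, ip_mul_left, map_mul, ip_conj]
lemma N_add (hf : L2 f) (hg : L2 g) :
    N (fun w => f w + g w) = N f + 2 * (ip f g).re + N g := by
  have h := ip_self fun w => f w + g w
  rw [ip_add_left hf hg (hf.add' hg), ip_add_right hf hg hf, ip_add_right hf hg hg, ip_self,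
    ip_self, ← ip_conj f g] at h
  have := congrArg Complex.re h
  simp at this; linarith
lemma N_sub (hf : L2 f) (hg : L2 g) :
    N (fun w => f w - g w) = N f - 2 * (ip f g).re + N g := by
  have h := ip_self fun w => f w - g w
  rw [ip_sub_left hf hg (hf.sub' hg), ip_sub_right hf hg hf, ip_sub_right hf hg hg, ip_self,
    ip_self, ← ip_conj f g] at h
  have := congrArg Complex.re h
  simp at this; linarith
lemma norm_ip_le (hf : L2 f) (hg : L2 g) : ‖ip f g‖ ≤ √(N f) * √(N g) := by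
  have h := integral_mul_norm_le_Lp_mul_Lq (μ := vD) Real.HolderConjugate.two_two
    (f := f) (g := g) (by simpa using hf) (by simpa using hg)
  refine (norm_integral_le_integral_norm _).trans ?_
  simp only [norm_mul, Complex.norm_conj]
  refine h.trans (le_of_eq ?_)
  simp only [N, Real.sqrt_eq_rpow, Real.rpow_two]
lemma sqrt_N_add (hf : L2 f) (hg : L2 g) : √(N fun w => f w + g w) ≤ √(N f) + √(N g) := by
  rw [Real.sqrt_le_left (by positivity), N_add hf hg, add_sq, Real.sq_sqrt (N_nonneg f),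
    Real.sq_sqrt (N_nonneg g)]
  nlinarith [norm_ip_le hf hg, Complex.re_le_norm (ip f g)]

end Vale.Agent.P071
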